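import Crest.Agent.R086.P.Defs

/-! Row 86, part P: calculus of the class `Bd` (`‖f^{(i)} r‖ ≤ θ σ^i` for `i ≤ J`). -/

set_option autoImplicit false

open Set Filter Topology
open scoped ContDiff ComplexConjugate

namespace Crest.Agent.R086.P

variable {J : ℕ} {f g : ℝ → ℂ} {r θ σ θ' σ' : ℝ}

theorem bd_clm {E : Type} [NormedAddCommGroup E] [NormedSpace ℝ E] (L : E →L[ℝ] ℂ) {u : ℝ → E}
    {i : ℕ} (hu : ContDiffAt ℝ i u r) :
    iteratedDeriv i (fun s => L (u s)) r = L (iteratedDeriv i u r) := by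
  have := L.iteratedFDeriv_comp_left hu (i := i) le_rfl
  rw [iteratedDeriv_eq_iteratedFDeriv, iteratedDeriv_eq_iteratedFDeriv]
  change iteratedFDeriv ℝ i (L ∘ u) r _ = _
  rw [this]; rfl

theorem bd_cd (h : Bd J f r θ σ) {i : ℕ} (hi : i ≤ J) : ContDiffAt ℝ i f r :=
  h.1.of_le (by exact_mod_cast hi)

theorem Bd.nonneg (h : Bd J f r θ σ) : 0 ≤ θ := by
  have := h.2 0 (Nat.zero_le _)
  rw [pow_zero, mul_one] at this
  exact (norm_nonneg _).trans this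

theorem Bd.mono (h : Bd J f r θ σ) (hσ : 0 ≤ σ) (h1 : θ ≤ θ') (h2 : σ ≤ σ') : Bd J f r θ' σ' := by
  have h0 := h.nonneg
  refine ⟨h.1, fun i hi => (h.2 i hi).trans ?_⟩
  exact mul_le_mul h1 (pow_le_pow_left₀ hσ h2 i) (pow_nonneg hσ i) (h0.trans h1)

theorem Bd.of_le {J' : ℕ} (h : Bd J f r θ σ) (hJ : J' ≤ J) : Bd J' f r θ σ := by
  exact ⟨bd_cd h hJ, fun i hi => h.2 i (hi.trans hJ)⟩

theorem Bd.congr (h : Bd J f r θ σ) (e : f =ᶠ[𝓝 r] g) : Bd J g r θ σ := by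
  refine ⟨h.1.congr_of_eventuallyEq e.symm, fun i hi => ?_⟩
  rw [← e.iteratedDeriv_eq i]
  exact h.2 i hi

theorem Bd.const (J : ℕ) (c : ℂ) (r : ℝ) (hσ : 0 ≤ σ) : Bd J (fun _ => c) r ‖c‖ σ := by
  refine ⟨contDiffAt_const, fun i _ => ?_⟩
  rw [iteratedDeriv_const]
  split_ifs with hi
  · simp [hi]
  · rw [norm_zero]; positivity

theorem Bd.add (h : Bd J f r θ σ) (h' : Bd J g r θ' σ) : Bd J (fun s => f s + g s) r (θ + θ') σ := by
  refine ⟨h.1.add h'.1, fun i hi => ?_⟩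
  rw [iteratedDeriv_fun_add (bd_cd h hi) (bd_cd h' hi), add_mul]
  exact (norm_add_le _ _).trans (add_le_add (h.2 i hi) (h'.2 i hi))

theorem Bd.const_mul (c : ℂ) (h : Bd J f r θ σ) : Bd J (fun s => c * f s) r (‖c‖ * θ) σ := by
  refine ⟨contDiffAt_const.mul h.1, fun i hi => ?_⟩
  rw [iteratedDeriv_const_mul c (bd_cd h hi), norm_mul, mul_assoc]
  exact mul_le_mul_of_nonneg_left (h.2 i hi) (norm_nonneg _)

/-- Leibniz (`iteratedDeriv_fun_mul` / `iteratedDeriv_mul`) and the binomial theorem -/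
theorem Bd.mul (h : Bd J f r θ σ) (h' : Bd J g r θ' σ') (hσ : 0 ≤ σ) (hσ' : 0 ≤ σ') :
    Bd J (fun s => f s * g s) r (θ * θ') (σ + σ') := by
  have h0 := h.nonneg
  have h0' := h'.nonneg
  refine ⟨h.1.mul h'.1, fun i hi => ?_⟩
  rw [iteratedDeriv_fun_mul (bd_cd h hi) (bd_cd h' hi), add_pow, Finset.mul_sum]
  refine (norm_sum_le _ _).trans (Finset.sum_le_sum fun k hk => ?_)
  have hk' : k ≤ i := Nat.lt_succ_iff.1 (Finset.mem_range.1 hk)
  have e1 := h.2 k (hk'.trans hi)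
  have e2 := h'.2 (i - k) ((Nat.sub_le _ _).trans hi)
  rw [norm_mul, norm_mul, Complex.norm_natCast]
  calc (i.choose k : ℝ) * ‖iteratedDeriv k f r‖ * ‖iteratedDeriv (i - k) g r‖
      ≤ (i.choose k : ℝ) * (θ * σ ^ k) * (θ' * σ' ^ (i - k)) := by gcongr
    _ = _ := by ring

theorem Bd.pow (h : Bd J f r θ σ) (hσ : 0 ≤ σ) (k : ℕ) :
    Bd J (fun s => f s ^ k) r (θ ^ k) (k * σ) := by
  induction k with
  | zero => simpa using Bd.const J 1 r le_rfl
  | succ k ih =>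
    have := ih.mul h (by positivity) hσ
    simp only [pow_succ]
    push_cast
    rwa [add_mul, one_mul]

theorem Bd.conj (h : Bd J f r θ σ) : Bd J (fun s => conj (f s)) r θ σ := by
  refine ⟨Complex.conjCLE.contDiff.contDiffAt.comp r h.1, fun i hi => ?_⟩
  have := bd_clm (Complex.conjCLE : ℂ →L[ℝ] ℂ) (bd_cd h hi)
  simp only [ContinuousLinearEquiv.coe_coe, Complex.conjCLE_apply] at this
  rw [this, Complex.norm_conj]
  exact h.2 i hi

theorem Bd.deriv (h : Bd (J + 1) f r θ σ) : Bd J (deriv f) r (θ * σ) σ := by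
  refine ⟨h.1.derivWithin (by push_cast; exact le_rfl), fun i hi => ?_⟩
  rw [← iteratedDeriv_succ', mul_assoc, ← pow_succ']
  exact h.2 (i + 1) (by omega)

theorem Bd.succ (hf : ContDiffAt ℝ (J + 1 : ℕ) f r) (h0 : ‖f r‖ ≤ θ)
    (h : Bd J (_root_.deriv f) r (θ * σ) σ) : Bd (J + 1) f r θ σ := by
  refine ⟨hf, fun i hi => ?_⟩
  cases i with
  | zero => simpa using h0
  | succ i =>
    rw [iteratedDeriv_succ', pow_succ', ← mul_assoc]
    exact h.2 i (by omega)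

theorem Bd.ofReal (J : ℕ) (h1 : |r| ≤ θ) (h2 : 1 ≤ θ * σ) (hσ : 0 ≤ σ) :
    Bd J (fun s => (s : ℂ)) r θ σ := by
  have h0 : 0 ≤ θ := (abs_nonneg r).trans h1
  refine ⟨Complex.ofRealCLM.contDiff.contDiffAt, fun i _ => ?_⟩
  have := bd_clm (r := r) Complex.ofRealCLM (u := fun s => s) (i := i) contDiffAt_id
  simp only [Complex.ofRealCLM_apply] at this
  rw [this, Complex.norm_real, iteratedDeriv_fun_id]
  split_ifs with hi hi'
  · simpa [hi] using h1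
  · simpa [hi'] using h2
  · rw [norm_zero]; positivity

/-- `i! / r^{i+1} ≤ r⁻¹ (J / r)^i` -/
theorem Bd.inv (J : ℕ) (hr : 0 < r) : Bd J (fun s => (s : ℂ)⁻¹) r r⁻¹ (J / r) := by
  have hc : ∀ i : ℕ, ContDiffAt ℝ i (fun s : ℝ => s⁻¹) r := fun i => contDiffAt_inv ℝ hr.ne'
  have e : (fun s : ℝ => (s : ℂ)⁻¹) = fun s : ℝ => Complex.ofRealCLM s⁻¹ := by
    funext s; simp
  rw [e]
  refine ⟨Complex.ofRealCLM.contDiff.contDiffAt.comp r (hc J), fun i hi => ?_⟩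
  rw [bd_clm _ (hc i), Complex.ofRealCLM_apply, Complex.norm_real, iteratedDeriv_eq_iterate]
  change ‖_root_.deriv^[i] Inv.inv r‖ ≤ _
  rw [iter_deriv_inv, norm_mul, norm_mul, norm_pow, norm_neg, norm_one, one_pow, one_mul,
    Real.norm_natCast, Real.norm_of_nonneg (by positivity), zpow_sub₀ hr.ne', zpow_neg_one,
    zpow_natCast, div_pow]
  have h1 : ((i.factorial : ℕ) : ℝ) ≤ (J : ℝ) ^ i := by
    exact_mod_cast i.factorial_le_pow.trans (Nat.pow_le_pow_left hi i)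
  calc (i.factorial : ℝ) * (r⁻¹ / r ^ i) ≤ (J : ℝ) ^ i * (r⁻¹ / r ^ i) := by gcongr
    _ = _ := by ring

theorem Bd.NL (h : Bd J f r θ σ) (hσ : 0 ≤ σ) (n : ℕ) :
    Bd J (fun s => NL n (f s)) r (θ ^ (2 * n + 1)) ((2 * n + 1) * σ) := by
  have := (h.pow hσ (n + 1)).mul (h.conj.pow hσ n) (by positivity) (by positivity)
  convert this using 1
  · rfl
  · ring
  · push_cast; ring

theorem Bd.V1 (h : Bd J f r θ σ) (hσ : 0 ≤ σ) (n : ℕ) :
    Bd J (fun s => V1 n (f s)) r ((n + 1) * θ ^ (2 * n)) (2 * n * σ) := by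
  have := ((h.pow hσ n).mul (h.conj.pow hσ n) (by positivity) (by positivity)).const_mul ((n : ℂ) + 1)
  convert this using 1
  · rfl
  · rw [← Nat.cast_succ (R := ℂ), Complex.norm_natCast]; push_cast; ring
  · ring

theorem Bd.V2 (h : Bd J f r θ σ) (hσ : 0 ≤ σ) {n : ℕ} (hn : 1 ≤ n) :
    Bd J (fun s => V2 n (f s)) r (n * θ ^ (2 * n)) (2 * n * σ) := by
  have := ((h.pow hσ (n + 1)).mul (h.conj.pow hσ (n - 1)) (by positivity)
    (by positivity)).const_mul (n : ℂ)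
  convert this using 1
  · rfl
  · rw [Complex.norm_natCast, ← pow_add]; congr 2; omega
  · rw [Nat.cast_sub hn]; push_cast; ring

/-- polynomial times geometric (`tendsto_pow_const_mul_const_pow_of_abs_lt_one`) -/
theorem eventually_small {θ : ℝ} (h0 : 0 ≤ θ) (h1 : θ < 1) (σ : ℝ) (J : ℕ) {ε : ℝ} (hε : 0 < ε) :
    ∀ᶠ n : ℕ in atTop, ∀ i : ℕ, i ≤ J →
      ((n : ℝ) + 1) * θ ^ (2 * n) * ((2 * n + 1) * σ) ^ i ≤ ε := by
  refine (Filter.eventually_all_finite (Set.finite_Iic J)).2 fun i _ => ?_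
  have hθ : |θ ^ 2| < 1 := by
    rw [abs_of_nonneg (by positivity)]; exact pow_lt_one₀ h0 h1 two_ne_zero
  have ht := (tendsto_pow_const_mul_const_pow_of_abs_lt_one (i + 1) hθ).const_mul (2 * (3 * |σ|) ^ i)
  rw [mul_zero] at ht
  filter_upwards [ht.eventually (ge_mem_nhds hε), eventually_ge_atTop 1] with n hn hn1
  refine le_trans ?_ hn
  have hn' : (1 : ℝ) ≤ n := by exact_mod_cast hn1
  have e1 : ((2 * n + 1) * σ) ^ i ≤ (3 * n * |σ|) ^ i := by
    refine (le_abs_self _).trans ?_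
    rw [abs_pow, abs_mul, abs_of_nonneg (by positivity : (0 : ℝ) ≤ 2 * n + 1)]
    gcongr; linarith
  calc ((n : ℝ) + 1) * θ ^ (2 * n) * ((2 * n + 1) * σ) ^ i
      ≤ ((n : ℝ) + 1) * θ ^ (2 * n) * (3 * n * |σ|) ^ i :=
        mul_le_mul_of_nonneg_left e1 (by positivity)
    _ ≤ (2 * n) * θ ^ (2 * n) * (3 * n * |σ|) ^ i := by gcongr; linarith
    _ = _ := by rw [pow_mul]; ring

end Crest.Agent.R086.P
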