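import Crest.Agent.R086.P.Polar

/-! Row 86, part P-out: the barriers on `r ≥ 3.3`. -/

set_option autoImplicit false

open Set Filter Topology

namespace Crest.Agent.R086.P

noncomputable section

variable {a b : ℝ} {V : ℝ → ℝ} {w : ℝ → ℂ} {q : ℝ → ℂ}

theorem outbar_ne (ρ : ℝ) : (5 + Complex.I * ρ : ℂ) ≠ 0 := fun h => by
  simpa using congrArg Complex.re h

theorem outbar_sq (ρ : ℝ) : ‖(5 + Complex.I * ρ : ℂ)‖ ^ 2 = 25 + ρ ^ 2 := by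
  rw [Complex.sq_norm, Complex.normSq_apply]
  simp
  ring

theorem outbar_norm (a b r ρ : ℝ) (z : ℂ) :
    ‖(r : ℂ) * z / 2 + a + b * ρ / (5 + Complex.I * ρ)‖ ^ 2 =
      (r * z.re / 2 + a + 5 * b * ρ / (25 + ρ ^ 2)) ^ 2 +
        (r * z.im / 2 - b * ρ ^ 2 / (25 + ρ ^ 2)) ^ 2 := by
  have h := outbar_sq ρ
  rw [Complex.sq_norm] at h ⊢
  rw [Complex.normSq_apply]
  simp [Complex.div_re, Complex.div_im, h]
  ring

theorem outbar_g (ha : a ∈ Icc (0 : ℝ) 0.001) (hb : b ∈ Bx) {ρ v : ℝ} (hρ : 0 ≤ ρ)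
    (hv : |v| * ρ ≤ 0.01) {m : ℂ} (h : ‖m + a + b * ρ / (5 + Complex.I * ρ)‖ ≤ 0.159) :
    ‖5 * (a : ℂ) + ρ * v - m ^ 2 + 5 * b * ρ / (5 + Complex.I * ρ) ^ 2‖ ≤ 0.45 := by
  obtain ⟨a0, a1⟩ := ha
  obtain ⟨b0, b1⟩ := hb
  have hb0 : 0 ≤ b := by linarith
  have h0 := outbar_sq ρ
  have h1 : ‖(b * ρ / (5 + Complex.I * ρ) : ℂ)‖ ≤ b := by
    rw [norm_div, norm_mul, Complex.norm_real, Complex.norm_real, Real.norm_of_nonneg hb0,
      Real.norm_of_nonneg hρ, div_le_iff₀ (norm_pos_iff.2 (outbar_ne ρ))]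
    exact mul_le_mul_of_nonneg_left (abs_le_of_sq_le_sq' (by linarith) (norm_nonneg _)).2 hb0
  have h2 : ‖(5 * b * ρ / (5 + Complex.I * ρ) ^ 2 : ℂ)‖ ≤ b / 2 := by
    rw [norm_div, norm_pow, h0, norm_mul, norm_mul, Complex.norm_real, Complex.norm_real,
      Real.norm_of_nonneg hb0, Real.norm_of_nonneg hρ, div_le_iff₀ (by positivity),
      Complex.norm_ofNat]
    nlinarith [mul_nonneg hb0 (sq_nonneg (ρ - 5))]
  have h3 : ‖m‖ ≤ 0.495 := by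
    have h4 := norm_sub_le (m + a + b * ρ / (5 + Complex.I * ρ)) (a + b * ρ / (5 + Complex.I * ρ))
    have h5 := norm_add_le (a : ℂ) (b * ρ / (5 + Complex.I * ρ))
    rw [add_assoc, add_sub_cancel_right, ← add_assoc] at h4
    rw [Complex.norm_real, Real.norm_of_nonneg a0] at h5
    linarith
  have h4 := norm_add_le (5 * (a : ℂ) + ρ * v - m ^ 2) (5 * b * ρ / (5 + Complex.I * ρ) ^ 2)
  have h5 := norm_sub_le (5 * (a : ℂ) + ρ * v) (m ^ 2)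
  have h6 := norm_add_le (5 * (a : ℂ)) (ρ * v)
  rw [norm_mul, norm_mul, Complex.norm_real, Complex.norm_real, Complex.norm_real,
    Real.norm_of_nonneg a0, Real.norm_of_nonneg hρ, Real.norm_eq_abs, Complex.norm_ofNat] at h6
  rw [norm_pow] at h5
  have h7 := pow_le_pow_left₀ (norm_nonneg _) h3 2
  linarith

theorem outbar_flux {s : ℝ} (h0 : Qr q s ≠ 0) :
    ((starRingEnd ℂ) (Qr q s) * deriv (Qr q) s).im = ‖Qr q s‖ ^ 2 * yy q s := by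
  have : (starRingEnd ℂ) (Qr q s) * deriv (Qr q) s =
      ((‖Qr q s‖ ^ 2 : ℝ) : ℂ) * (deriv (Qr q) s / Qr q s) := by
    rw [Complex.ofReal_pow, ← Complex.conj_mul']
    field_simp
  rw [this, Complex.im_ofReal_mul, yy]

/-- With `ρ = r²/4`, `l = r w / 2 + a`, `δ = l + bρ/(5 + iρ)`:
`δ' = (2/r) (-(5 + iρ) δ + g)`, `g = 5a + ρ V - (l - a)² + 5bρ/(5 + iρ)²`, `‖g‖ ≤ 0.45` when `‖δ‖ = 0.159`
(`‖bρ/(5+iρ)‖ ≤ b`, `‖5bρ/(5+iρ)²‖ ≤ b/2`).  Use `image_le_of_deriv_right_lt_deriv_boundary` for `‖δ‖²`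
(`HasDerivAt.norm_sq`) on `[3.3, r]`. -/
theorem bar_disc (ha : a ∈ Icc (0 : ℝ) 0.001) (hb : b ∈ Bx)
    (hw : ∀ r : ℝ, 3.3 ≤ r → HasDerivAt w
      (-w r ^ 2 - (11 / (r : ℂ) + Complex.I * r / 2) * w r + ((V r : ℂ) - b - Complex.I * a)) r)
    (hV : ∀ r : ℝ, 3.3 ≤ r → |V r| * (r ^ 2 / 4) ≤ 0.01)
    (hx : (w 3.3).re ∈ Icc (-0.004 : ℝ) (-0.002)) (hy : (w 3.3).im ∈ Icc (0 : ℝ) 0.001)
    {r : ℝ} (hr : 3.3 ≤ r) :
    (r * (w r).re / 2 + a + 5 * b * (r ^ 2 / 4) / (25 + (r ^ 2 / 4) ^ 2)) ^ 2 +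
      (r * (w r).im / 2 - b * (r ^ 2 / 4) ^ 2 / (25 + (r ^ 2 / 4) ^ 2)) ^ 2 ≤ 0.159 ^ 2 := by
  set δ : ℝ → ℂ := fun s => (s : ℂ) * w s / 2 + a + b * ((s ^ 2 / 4 : ℝ) : ℂ) /
    (5 + Complex.I * ((s ^ 2 / 4 : ℝ) : ℂ)) with hδ
  set g : ℝ → ℂ := fun s => 5 * (a : ℂ) + ((s ^ 2 / 4 : ℝ) : ℂ) * V s - ((s : ℂ) * w s / 2) ^ 2 +
    5 * b * ((s ^ 2 / 4 : ℝ) : ℂ) / (5 + Complex.I * ((s ^ 2 / 4 : ℝ) : ℂ)) ^ 2 with hg
  have hd : ∀ s : ℝ, 3.3 ≤ s → HasDerivAt δ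
      ((2 / s) • (-(5 + Complex.I * ((s ^ 2 / 4 : ℝ) : ℂ)) * δ s + g s)) s := by
    intro s hs
    have h1 := (polar_sq s).ofReal_comp
    have h2 := ((((hasDerivAt_id s).ofReal_comp.mul (hw s hs)).div_const 2).add_const (a : ℂ)).add
      ((h1.const_mul (b : ℂ)).div ((h1.const_mul Complex.I).const_add 5) (outbar_ne _))
    refine h2.congr_deriv ?_
    have h3 : (s : ℂ) ≠ 0 := Complex.ofReal_ne_zero.2 (by linarith)
    have h4 := outbar_ne (s ^ 2 / 4)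
    simp only [hδ, hg, id, Complex.real_smul]
    have h5 : Complex.I * ((s ^ 2 / 4 : ℝ) : ℂ) = 5 + Complex.I * ((s ^ 2 / 4 : ℝ) : ℂ) - 5 := by
      ring
    generalize hP : 5 + Complex.I * ((s ^ 2 / 4 : ℝ) : ℂ) = P at h4 h5
    push_cast at h5 ⊢
    field_simp
    linear_combination (-(8 * b * s ^ 2 + 16 * P ^ 2 * (s * w s + 2 * a)) : ℂ) * h5
  rw [← outbar_norm]
  refine image_le_of_deriv_right_lt_deriv_boundary (f := fun s => ‖δ s‖ ^ 2) (a := 3.3) (b := r)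
    (B := fun _ => 0.159 ^ 2)
    (fun s hs => (hd s hs.1).norm_sq.continuousAt.continuousWithinAt)
    (fun s hs => (hd s hs.1).norm_sq.hasDerivWithinAt) ?_ (fun s => hasDerivAt_const s _)
    (fun s hs h => ?_) ⟨hr, le_rfl⟩
  · obtain ⟨a0, a1⟩ := ha
    obtain ⟨b0, b1⟩ := hb
    obtain ⟨x0, x1⟩ := hx
    obtain ⟨y0, y1⟩ := hy
    simp only [hδ, outbar_norm]
    rw [show 5 * b * (3.3 ^ 2 / 4) / (25 + (3.3 ^ 2 / 4) ^ 2) = 2178000 / 5185921 * b by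
        norm_num; ring,
      show b * (3.3 ^ 2 / 4) ^ 2 / (25 + (3.3 ^ 2 / 4) ^ 2) = 1185921 / 5185921 * b by
        norm_num; ring]
    have e1 : |3.3 * (w 3.3).re / 2 + a + 2178000 / 5185921 * b| ≤ 0.1384 :=
      abs_le.2 ⟨by linarith, by linarith⟩
    have e2 : |3.3 * (w 3.3).im / 2 - 1185921 / 5185921 * b| ≤ 0.0766 :=
      abs_le.2 ⟨by linarith, by linarith⟩
    have e3 := pow_le_pow_left₀ (abs_nonneg _) e1 2
    have e4 := pow_le_pow_left₀ (abs_nonneg _) e2 2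
    rw [sq_abs] at e3 e4
    linarith
  · have h1 : ‖δ s‖ = 0.159 := (pow_left_inj₀ (norm_nonneg _) (by norm_num) two_ne_zero).1 h
    have h2 : ‖g s‖ ≤ 0.45 := outbar_g ha hb (by positivity) (hV s hs.1) h1.le
    have h3 := real_inner_le_norm (δ s) (g s)
    have h4 : inner ℝ (δ s) (-(5 + Complex.I * ((s ^ 2 / 4 : ℝ) : ℂ)) * δ s) = -5 * ‖δ s‖ ^ 2 := by
      rw [Complex.sq_norm, Complex.normSq_apply]
      generalize s ^ 2 / 4 = ρ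
      simp [Complex.inner]
      ring
    have h5 : 0 < 2 / s := div_pos two_pos (by linarith [hs.1])
    rw [real_inner_smul_right, inner_add_right, h4]
    rw [h1] at h3 ⊢
    nlinarith

/-- in the disc, `Y = 0` forces `X + a < 0` (`b²ρ²/(25 + ρ²) > 0.159²` for `ρ ≥ 2.7225`) -/
theorem disc_neg (hb : b ∈ Bx) {ρ X : ℝ} (hρ : 2.7225 ≤ ρ)
    (h : (X + 5 * b * ρ / (25 + ρ ^ 2)) ^ 2 + (0 - b * ρ ^ 2 / (25 + ρ ^ 2)) ^ 2 ≤ 0.159 ^ 2) : X < 0 := by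
  obtain ⟨b0, b1⟩ := hb
  by_contra hX
  have h0 : 0 ≤ 5 * b * ρ / (25 + ρ ^ 2) := by
    have : 0 ≤ b := by linarith
    have : 0 ≤ ρ := by linarith
    positivity
  have h1 := pow_le_pow_left₀ h0 (le_add_of_nonneg_left (not_lt.1 hX)) 2
  have h2 : (5 * b * ρ / (25 + ρ ^ 2)) ^ 2 + (0 - b * ρ ^ 2 / (25 + ρ ^ 2)) ^ 2 =
      b ^ 2 * ρ ^ 2 / (25 + ρ ^ 2) := by
    field_simp
    ring
  have h3 : 0.159 ^ 2 < b ^ 2 * ρ ^ 2 / (25 + ρ ^ 2) := by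
    rw [lt_div_iff₀ (by positivity)]
    have h4 := pow_le_pow_left₀ (by norm_num) b0 2
    have h5 := pow_le_pow_left₀ (by norm_num) hρ 2
    nlinarith [mul_le_mul_of_nonneg_right h4 (sq_nonneg ρ)]
  linarith

/-- `(11 + 4X)(1/2 + Y/ρ) = 5.5 + 2X + 11 Y/ρ + 4 X Y/ρ`; with `d₁, d₂` the coordinates in the disc,
`2 d₁ + 11 d₂/ρ ≤ 0.159 √(4 + 121/ρ²) ≤ 0.72`, the centre contributes `bρ/(25 + ρ²) ≤ 0.0335`,
`Y/ρ ≤ 0.092`; for `ρ ≤ 10`: `X ≤ 0.026`; for `ρ ≥ 10`: `√(4 + 121/ρ²) ≤ 2.3`, `X ≤ 0.159` -/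
theorem disc_flow (ha : a ∈ Icc (0 : ℝ) 0.001) (hb : b ∈ Bx) {ρ X Y : ℝ} (hρ : 2.7225 ≤ ρ) (hY : 0 ≤ Y)
    (h : (X + a + 5 * b * ρ / (25 + ρ ^ 2)) ^ 2 + (Y - b * ρ ^ 2 / (25 + ρ ^ 2)) ^ 2 ≤ 0.159 ^ 2) :
    Y / ρ ≤ 0.1 ∧ |X| ≤ 0.4 ∧ Y ≤ 0.5 ∧ (11 + 4 * X) * (1 / 2 + Y / ρ) ≤ 6.28 := by
  obtain ⟨a0, a1⟩ := ha
  obtain ⟨b0, b1⟩ := hb
  have hρ0 : 0 < ρ := by linarith
  have hb0 : 0 < b := by linarith
  have c0 : 0 ≤ b * ρ / (25 + ρ ^ 2) := by positivity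
  have c1 : b * ρ / (25 + ρ ^ 2) ≤ 0.0335 := by
    rw [div_le_iff₀ (by positivity)]
    nlinarith [mul_le_mul_of_nonneg_right b1 hρ0.le, sq_nonneg (ρ - 5)]
  have c2 : ρ * (b * ρ / (25 + ρ ^ 2)) ≤ b := by
    rw [← mul_div_assoc, div_le_iff₀ (by positivity)]
    nlinarith
  have c3 : ρ ≤ 10 → 0.0267 ≤ b * ρ / (25 + ρ ^ 2) := fun h => by
    rw [le_div_iff₀ (by positivity)]
    nlinarith [mul_le_mul_of_nonneg_right b0 hρ0.le, mul_nonneg (sub_nonneg.2 h) (sub_nonneg.2 hρ)]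
  rw [show 5 * b * ρ / (25 + ρ ^ 2) = 5 * (b * ρ / (25 + ρ ^ 2)) by ring,
    show b * ρ ^ 2 / (25 + ρ ^ 2) = ρ * (b * ρ / (25 + ρ ^ 2)) by ring] at h
  generalize b * ρ / (25 + ρ ^ 2) = c at *
  obtain ⟨d1, d2⟩ := abs_le_of_sq_le_sq' ((le_add_of_nonneg_right (sq_nonneg _)).trans h)
    (by norm_num)
  obtain ⟨d3, d4⟩ := abs_le_of_sq_le_sq' ((le_add_of_nonneg_left (sq_nonneg _)).trans h)
    (by norm_num)
  have u0 : 0 < ρ⁻¹ := inv_pos.2 hρ0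
  have u1 : ρ⁻¹ ≤ 0.36731 := by
    rw [inv_le_comm₀ hρ0 (by norm_num)]
    exact le_trans (by norm_num) hρ
  have e1 : Y / ρ = (Y - ρ * c) * ρ⁻¹ + c := by field_simp; ring
  have e2 : Y / ρ ≤ 0.092 := by
    rw [e1]
    nlinarith [mul_le_mul_of_nonneg_right d4 u0.le]
  have e3 : 0 ≤ Y / ρ := by positivity
  refine ⟨by linarith, abs_le.2 ⟨by linarith, by linarith⟩, by linarith, ?_⟩
  rcases le_total ρ 10 with h1 | h1
  · have f1 := mul_le_mul_of_nonneg_right (show X ≤ 0.026 by linarith [c3 h1]) e3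
    have f2 := pow_le_pow_left₀ u0.le u1 2
    nlinarith [sq_nonneg (X + a + 5 * c - 1 / 14), sq_nonneg (Y - ρ * c - 11 / 28 * ρ⁻¹)]
  · have f1 := mul_le_mul_of_nonneg_right (show X ≤ 0.159 by linarith) e3
    have f2 : ρ⁻¹ ≤ 0.1 := by
      rw [inv_le_comm₀ hρ0 (by norm_num)]
      exact le_trans (by norm_num) h1
    nlinarith [mul_le_mul_of_nonneg_right d4 u0.le]

/-- the flux is positive at `R` and nondecreasing -/
theorem ne_zero_of_flux {R r : ℝ} (ha : a ≤ 3) (hR : 0 < R)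
    (h : ∀ s : ℝ, R ≤ s → SolR a b V (Qr q) s) (h0 : Qr q R ≠ 0) (hy : -(R / 4) < yy q R)
    (hr : R ≤ r) : Qr q r ≠ 0 := by
  intro hz
  have hd := fun s (hs : R ≤ s) => (h s hs).dflux (hR.trans_le hs).ne'
  have h1 := le_of_deriv hr (fun s hs => (hd s hs.1).continuousAt.continuousWithinAt)
    (fun s hs => hd s hs.1.le) fun s hs => by
      have := hR.trans hs.1
      have : 0 ≤ 6 - 2 * a := by linarith
      positivity
  rw [outbar_flux h0, hz] at h1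
  have h2 : 0 < R ^ 11 * (‖Qr q R‖ ^ 2 * (R / 2 + 2 * yy q R)) :=
    mul_pos (by positivity) (mul_pos (by positivity) (by linarith))
  simp only [norm_zero, map_zero, zero_mul, Complex.zero_im] at h1
  nlinarith

/-- `bar_disc` for `w = Q'/Q`; `y ≥ 0` by `image_le_of_deriv_right_lt_deriv_boundary` for `-y`
(`SolR.dy`, `disc_neg`: at `y = 0`, `y' = -(r x / 2 + a) > 0`); `disc_flow` -/
theorem bar_all (ha : a ∈ Icc (0 : ℝ) 0.001) (hb : b ∈ Bx) {θ : ℝ} (hH : Hand θ q)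
    (h : ∀ s : ℝ, 3.3 ≤ s → SolR a b V (Qr q) s ∧ |V s| * (s ^ 2 / 4) ≤ 0.01) {r : ℝ} (hr : 3.3 ≤ r) :
    Qr q r ≠ 0 ∧ 0 ≤ yy q r ∧ |xx q r| ≤ 1 / 3 ∧ |yy q r| ≤ 1 / 3 ∧
      (2 / 5 ≤ 1 / 2 + 2 * yy q r / r ∧ 1 / 2 + 2 * yy q r / r ≤ 3 / 5 ∧ |r * xx q r| ≤ 1 ∧
        (11 + 2 * r * xx q r) * (1 / 2 + 2 * yy q r / r) ≤ 6.28) := by
  have hne : ∀ s : ℝ, 3.3 ≤ s → Qr q s ≠ 0 := fun s hs =>
    ne_zero_of_flux (by linarith [ha.2]) (by norm_num) (fun s hs => (h s hs).1) hH.ne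
      (by linarith [hH.hy.1]) hs
  have hD := fun s (hs : 3.3 ≤ s) => bar_disc (w := fun s => deriv (Qr q) s / Qr q s) ha hb
    (fun s hs => (polar_w (h s hs).1 (hne s hs)).congr_deriv (by push_cast; ring))
    (fun s hs => (h s hs).2) hH.hx hH.hy hs
  have hρ : ∀ s : ℝ, 3.3 ≤ s → 2.7225 ≤ s ^ 2 / 4 := fun s hs => by nlinarith
  have hd := fun s (hs : 3.3 ≤ s) => ((h s hs).1.dy (hne s hs)).fun_neg
  have hy : -yy q r ≤ 0 := by
    refine image_le_of_deriv_right_lt_deriv_boundary (f := fun s => -yy q s) (a := 3.3) (b := r)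
      (B := fun _ => 0) (fun s hs => (hd s hs.1).continuousAt.continuousWithinAt)
      (fun s hs => (hd s hs.1).hasDerivWithinAt) (neg_nonpos.2 hH.hy.1)
      (fun s => hasDerivAt_const s _) (fun s hs h0 => ?_) ⟨hr, le_rfl⟩
    have h1 : yy q s = 0 := neg_eq_zero.1 h0
    have h2 := hD s hs.1
    change (s * xx q s / 2 + a + _) ^ 2 + (s * yy q s / 2 - _) ^ 2 ≤ _ at h2
    rw [h1, mul_zero, zero_div] at h2
    have h3 := disc_neg hb (hρ s hs.1) h2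
    rw [h1]
    simp only [mul_zero, zero_div]
    linarith
  have hr0 : 0 < r := by linarith
  have hy : 0 ≤ yy q r := by linarith
  obtain ⟨h1, h2, h3, h4⟩ := disc_flow (X := r * xx q r / 2) (Y := r * yy q r / 2) ha hb (hρ r hr)
    (by positivity) (hD r hr)
  rw [show r * yy q r / 2 / (r ^ 2 / 4) = 2 * yy q r / r by field_simp; ring] at h1 h4
  rw [abs_div, abs_two] at h2
  have h5 : 0 ≤ 2 * yy q r / r := by positivity
  refine ⟨hne r hr, hy, ?_, ?_, by linarith, by linarith, by linarith, by linarith⟩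
  · rw [abs_mul, abs_of_pos hr0] at h2
    nlinarith [abs_nonneg (xx q r)]
  · rw [abs_of_nonneg hy]
    nlinarith

/-- with the flux `J = r^12 |Q|² (1 + 4y/r) / 2`: `J' = (6 - 2a) r^11 |Q|² ≤ (12 - 4a) J / r`, so
`J r^{4a - 12}` is nonincreasing; `(r²/4)^{2a} ≤ r^{4a}` -/
theorem bar_amp (ha : a ∈ Icc (0 : ℝ) 0.001) (hb : b ∈ Bx) {θ : ℝ} (hH : Hand θ q)
    (h : ∀ s : ℝ, 3.3 ≤ s → SolR a b V (Qr q) s ∧ |V s| * (s ^ 2 / 4) ≤ 0.01) {r : ℝ} (hr : 3.3 ≤ r) :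
    ‖Qr q r‖ ^ 2 * (r ^ 2 / 4) ^ (2 * a) ≤ θ ^ 2 * (3.3 : ℝ) ^ (4 * a) := by
  have hd := fun s (hs : 3.3 ≤ s) => ((h s hs).1.dflux (by linarith)).fun_mul
    (Real.hasDerivAt_rpow_const (p := 4 * a - (12 : ℕ)) (Or.inl (by linarith : s ≠ 0)))
  have h1 := ge_of_deriv hr (fun s hs => (hd s hs.1).continuousAt.continuousWithinAt)
    (fun s hs => hd s hs.1.le) fun s hs => by
      obtain ⟨h2, h3, -⟩ := bar_all ha hb hH h hs.1.le
      have h4 : 0 < s := by linarith [hs.1]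
      rw [outbar_flux h2, Real.rpow_sub_one h4.ne']
      have h5 : 0 ≤ (12 - 4 * a) * (s ^ 11 * (2 * (‖Qr q s‖ ^ 2 * yy q s)) *
          (s ^ (4 * a - (12 : ℕ)) / s)) := mul_nonneg (by linarith [ha.2]) (by positivity)
      refine le_of_eq_of_le ?_ (neg_nonpos.2 h5)
      push_cast
      field_simp
      ring
  obtain ⟨h2, h3, -⟩ := bar_all ha hb hH h hr
  have h4 : 0 < r := by linarith
  rw [outbar_flux h2, outbar_flux hH.ne, Real.rpow_sub_natCast h4.ne',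
    Real.rpow_sub_natCast (by norm_num)] at h1
  have h5 : (r ^ 2 / 4) ^ (2 * a) ≤ r ^ (4 * a) := by
    rw [show 4 * a = (2 : ℕ) * (2 * a) by push_cast; ring, Real.rpow_natCast_mul h4.le]
    exact Real.rpow_le_rpow (by positivity) (by nlinarith) (by linarith [ha.1])
  have h6 := mul_le_mul_of_nonneg_right hH.amp (show 0 ≤ (3.3 : ℝ) ^ (4 * a) by positivity)
  have h7 : ∀ s : ℝ, s ≠ 0 →
      s ^ 11 * (‖Qr q s‖ ^ 2 * s / 2 + 2 * (‖Qr q s‖ ^ 2 * yy q s)) * (s ^ (4 * a) / s ^ 12) =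
      ‖Qr q s‖ ^ 2 * (1 + 4 * yy q s / s) * s ^ (4 * a) / 2 := fun s hs => by
    field_simp
    ring
  rw [h7 _ h4.ne', h7 _ (by norm_num)] at h1
  have h8 : 0 ≤ ‖Qr q r‖ ^ 2 * (4 * yy q r / r) * r ^ (4 * a) := by positivity
  have h9 := mul_le_mul_of_nonneg_left h5 (sq_nonneg ‖Qr q r‖)
  linarith

/-- `|(log |Q|)'| ≤ 1/3`; `norm_deriv_le`; the equation -/
theorem bar_bdd (ha : a ∈ Icc (0 : ℝ) 0.001) (hb : b ∈ Bx) {θ : ℝ} (hH : Hand θ q)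
    (h : ∀ s : ℝ, 3.3 ≤ s → SolR a b V (Qr q) s ∧ |V s| * (s ^ 2 / 4) ≤ 0.01)
    (h1 : 1 / 2 ≤ ‖Qr q 3.3‖) {r : ℝ} (hr : r ∈ Icc (3.3 : ℝ) 4.3) (h2 : ‖Qr q r‖ ≤ 1) :
    1 / 10 ≤ ‖Qr q r‖ ∧ ‖deriv (Qr q) r‖ ≤ 10 ∧ ‖deriv (deriv (Qr q)) r‖ ≤ 10 := by
  have hB := fun s (hs : 3.3 ≤ s) => bar_all ha hb hH h hs
  have hd := fun s (hs : 3.3 ≤ s) =>
    ((h s hs).1.dlog (hB s hs).1).fun_add ((hasDerivAt_id' s).div_const 3)
  have h3 := le_of_deriv hr.1 (fun s hs => (hd s hs.1).continuousAt.continuousWithinAt)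
    (fun s hs => hd s hs.1.le) fun s hs => by linarith [(abs_le.1 (hB s hs.1.le).2.2.1).1]
  obtain ⟨h4, -, h5, h6, -⟩ := hB r hr.1
  have h7 : ‖deriv (Qr q) r‖ ≤ 1 := (norm_deriv_le h4).trans
    (mul_le_one₀ h2 (by positivity) (by linarith))
  have h0 : 0 < r := by linarith [hr.1]
  refine ⟨?_, by linarith, ?_⟩
  · have h8 := Real.log_le_log (by norm_num) h1
    have h9 := Real.one_sub_inv_le_log_of_pos (show (0 : ℝ) < 5 by norm_num)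
    rw [← Real.log_le_log_iff (by norm_num) (norm_pos_iff.2 h4),
      show (1 / 10 : ℝ) = 1 / 2 / 5 by norm_num, Real.log_div (by norm_num) (by norm_num)]
    linarith [hr.2]
  · rw [(h r hr.1).1.2.deriv]
    have e1 : ‖-(11 / (r : ℂ) + Complex.I * r / 2)‖ ≤ 7 := by
      rw [norm_neg]
      refine (norm_add_le _ _).trans ?_
      rw [norm_div, norm_div, norm_mul, Complex.norm_I, Complex.norm_real, Complex.norm_ofNat,
        Complex.norm_ofNat, Real.norm_of_nonneg h0.le]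
      have : 11 / r ≤ 4 := by rw [div_le_iff₀ h0]; linarith [hr.1]
      linarith [hr.2]
    have e2 : ‖(V r : ℂ) - b - Complex.I * a‖ ≤ 3 := by
      refine (norm_sub_le _ _).trans ((add_le_add_left (norm_sub_le _ _) _).trans ?_)
      rw [norm_mul, Complex.norm_I, Complex.norm_real, Complex.norm_real, Complex.norm_real,
        Real.norm_of_nonneg ha.1, Real.norm_of_nonneg (by linarith [hb.1] : 0 ≤ b),
        Real.norm_eq_abs]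
      have e3 := mul_le_mul_of_nonneg_left (show 1 ≤ r ^ 2 / 4 by nlinarith [hr.1])
        (abs_nonneg (V r))
      linarith [ha.2, hb.2, (h r hr.1).2]
    refine (norm_add_le _ _).trans ?_
    rw [norm_mul, norm_mul]
    linarith [mul_le_mul e1 h7 (norm_nonneg _) (by norm_num),
      mul_le_mul e2 h2 (norm_nonneg _) (by norm_num)]

end

end Crest.Agent.R086.P
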