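import Crest.Agent.R086.P.OutConv
import Crest.Agent.R086.P.OutBar

/-! Row 86, part P-out: assembly. -/

set_option autoImplicit false

open Set Filter Topology
open scoped ContDiff

namespace Crest.Agent.R086.P

noncomputable section

theorem univ_bd : ∃ K : ℝ, 1 ≤ K ∧ ∀ (s : ℂ) (φ : ℝ → ℝ) (H : ℝ → ℂ), Adm 12 1 s φ → OSol s φ H →
    ∀ τ : ℝ, 0 < τ → Bd 12 H τ K K := by
  obtain ⟨K, hK, h⟩ := ub_H
    (Y := {x : ℂ × (ℝ → ℝ) × (ℝ → ℂ) // Adm 12 1 x.1 x.2.1 ∧ OSol x.1 x.2.1 x.2.2})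
    (fun y => y.2.1) (fun y => y.2.2) (by norm_num)
  exact ⟨K, hK, fun s φ H h1 h2 τ hτ => by simpa using h ⟨(s, φ, H), h1, h2⟩ τ hτ⟩

theorem univ_close : ∃ K : ℝ, 0 ≤ K ∧ ∀ (ε : ℝ) (s s₀ : ℂ) (φ : ℝ → ℝ) (H H₀ : ℝ → ℂ), ε ≤ 1 →
    Adm 7 ε s φ → Adm 7 ε s₀ (fun _ => 0) → ‖s - s₀‖ ≤ ε → OSol s φ H → OSol s₀ (fun _ => 0) H₀ →
    ∀ τ : ℝ, 0 < τ → ‖H τ - H₀ τ‖ ≤ K * ε ∧ ‖deriv H τ - deriv H₀ τ‖ ≤ K * ε := by
  obtain ⟨K, hK, h⟩ := close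
    (Y := {x : (ℝ × ℂ × ℂ) × (ℝ → ℝ) × (ℝ → ℂ) × (ℝ → ℂ) // x.1.1 ≤ 1 ∧ Adm 7 x.1.1 x.1.2.1 x.2.1 ∧
      Adm 7 x.1.1 x.1.2.2 (fun _ => 0) ∧ ‖x.1.2.1 - x.1.2.2‖ ≤ x.1.1 ∧ OSol x.1.2.1 x.2.1 x.2.2.1 ∧
      OSol x.1.2.2 (fun _ => 0) x.2.2.2})
    (fun y => y.2.2.1) (fun y => y.2.2.2.1) (fun y => y.2.2.2.2.1) (fun y => y.2.1)
    (fun y => y.2.2.2.2.2.1) (fun y => y.2.2.2.2.2.2)
  exact ⟨K, hK, fun ε s s₀ φ H H₀ h1 h2 h3 h4 h5 h6 => h ⟨((ε, s, s₀), φ, H, H₀), h1, h2, h3, h4, h5, h6⟩⟩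

/-- projection onto the parameter box -/
def prj (Γ : ℝ) (p : ℝ × ℝ) : ℝ × ℝ := (max 0.334766 (min 0.334786 p.1), max 0 (min Γ p.2))

theorem continuous_prj (Γ : ℝ) : Continuous (prj Γ) := by unfold prj; fun_prop

theorem prj_mem {Γ : ℝ} (hΓ : 0 ≤ Γ) (p : ℝ × ℝ) : (prj Γ p).1 ∈ Bx ∧ (prj Γ p).2 ∈ Icc 0 Γ :=
  ⟨⟨le_max_left _ _, max_le (by norm_num) (min_le_left _ _)⟩, le_max_left _ _, max_le hΓ (min_le_left _ _)⟩

theorem prj_eq {Γ b γ : ℝ} (hb : b ∈ Bx) (hγ : γ ∈ Icc 0 Γ) : prj Γ (b, γ) = (b, γ) := by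
  simp only [prj, min_eq_right hb.2, max_eq_right hb.1, min_eq_right hγ.2, max_eq_right hγ.1]

theorem contDiff_ss (a : ℝ) : ContDiff ℝ ∞ fun p : ℝ × ℝ => ss a p.1 :=
  contDiff_const.add (contDiff_const.mul (Complex.ofRealCLM.contDiff.comp contDiff_fst))

theorem ss_re (a b : ℝ) : (ss a b).re = -a := by simp [ss]

theorem adm_free {b E : ℝ} (hb : b ∈ Bx) (J : ℕ) (hE : 0 ≤ E) : Adm J E (ss 0 b) fun _ => 0 :=
  adm_zero J (by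
    simp only [ss, Complex.ofReal_zero, neg_zero, zero_add, norm_mul, Complex.norm_I, one_mul,
      Complex.norm_real, Real.norm_eq_abs]
    rw [abs_le]; constructor <;> linarith [hb.1, hb.2]) (by simp [ss_re]) hE

theorem tau_pos {r : ℝ} (hr : 2 < r) : 0 < Real.log (r ^ 2 / 4) := Real.log_pos (by nlinarith)

theorem norm_Qr_qH (s : ℂ) (H : ℝ → ℂ) {r : ℝ} (hr : 0 < r) :
    ‖Qr (qH s H) r‖ = (r ^ 2 / 4) ^ s.re * ‖H (Real.log (r ^ 2 / 4))‖ := norm_qH s H (by positivity)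

theorem free_fam (hM : MatchStmt) : ∃ (H₀ : ℝ → ℝ → ℂ) (c : ℝ), 0 < c ∧ ∀ b ∈ Bx,
    OSol (ss 0 b) (fun _ => 0) (H₀ b) ∧
    (∀ r ∈ Icc (3.28936 : ℝ) 3.3, c ≤ ‖H₀ b (Real.log (r ^ 2 / 4))‖) ∧
    ∀ r ∈ Icc (3.28936 : ℝ) 3.28948, ∀ w : ℂ,
      w = deriv (Qr (qH (ss 0 b) (H₀ b))) r / Qr (qH (ss 0 b) (H₀ b)) r →
      ‖w‖ ≤ 1 / 1000 ∧ (r ≤ 3.28937 → 1 / 10 ^ 7 ≤ w.re) ∧ (3.28947 ≤ r → w.re ≤ -(1 / 10 ^ 7)) ∧
        (b = 0.334766 → 1 / 10 ^ 7 ≤ w.im) ∧ (b = 0.334786 → w.im ≤ -(1 / 10 ^ 7)) := by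
  obtain ⟨H, hc, -, hS⟩ := exists_fam (σ := fun p => ss 0 p.1) (ϕ := fun _ _ => 0) (π := prj 0) (E := 1)
    (contDiff_ss 0) contDiff_const (continuous_prj 0)
    fun p => adm_free (prj_mem le_rfl p).1 7 zero_le_one
  have hS' : ∀ b ∈ Bx, OSol (ss 0 b) (fun _ => 0) (H (b, 0)) := fun b hb => by
    have := hS (b, 0)
    rwa [prj_eq hb ⟨le_rfl, le_rfl⟩] at this
  have hM' : ∀ b ∈ Bx, _ := fun b hb => hM b _ hb (free_qH (adm_free hb 12 zero_le_one) (hS' b hb)) (by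
    obtain ⟨K, hK, h⟩ := sub_one_le (Y := Unit) (fun _ => adm_free hb 7 zero_le_one) fun _ => hS' b hb
    refine ⟨2 * (K + 2), by linarith, norm_pos_iff.1 ?_⟩
    rw [norm_Qr_qH _ _ (by linarith)]
    refine mul_pos (by positivity) (norm_pos_iff.2 fun h0 => ?_)
    have h1 := h () _ (tau_pos (by linarith : 2 < 2 * (K + 2)))
    rw [h0, Real.exp_neg, Real.exp_log (by positivity), ← div_eq_mul_inv, le_div_iff₀ (by positivity)] at h1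
    simp only [zero_sub, norm_neg, norm_one] at h1
    nlinarith)
  have hne : ∀ b ∈ Bx, ∀ r ∈ Icc (3.28936 : ℝ) 3.3, H (b, 0) (Real.log (r ^ 2 / 4)) ≠ 0 := by
    intro b hb r hr h0
    obtain ⟨h1, h2⟩ := (hM' b hb).1 3.28936 (by norm_num)
    refine ne_zero_of_flux (a := 0) (b := b) (q := qH (ss 0 b) (H (b, 0))) (by norm_num) (by norm_num)
      (fun s hs => by simpa only [one_mul] using qH_solR (hS' b hb) 1 (by linarith : 2 < s)) h1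
      (by unfold yy; linarith [(abs_le.1 ((Complex.abs_im_le_norm _).trans h2)).1]) hr.1
      (norm_eq_zero.1 ?_)
    rw [norm_Qr_qH _ _ (by linarith [hr.1]), h0, norm_zero, mul_zero]
  obtain ⟨z, hz, hmin⟩ := ((isCompact_Icc : IsCompact Bx).prod
    (isCompact_Icc : IsCompact (Icc (3.28936 : ℝ) 3.3))).exists_isMinOn
    (f := fun z => ‖H (z.1, 0) (Real.log (z.2 ^ 2 / 4))‖) ⟨(0.334766, 3.3), by norm_num, by norm_num⟩
    (hc.comp_continuousOn (f := fun z : ℝ × ℝ => ((z.1, (0 : ℝ)), Real.log (z.2 ^ 2 / 4)))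
      (ContinuousOn.prodMk (by fun_prop) (ContinuousOn.log (by fun_prop) fun z hz => by
        have : 0 < z.2 := by linarith [hz.2.1]
        positivity))).norm
  refine ⟨fun b => H (b, 0), _, norm_pos_iff.2 (hne _ hz.1 _ hz.2), fun b hb => ⟨hS' b hb,
    fun r hr => hmin (a := (b, r)) ⟨hb, hr⟩, fun r hr w hw => ?_⟩⟩
  obtain ⟨m1, m2, m3, m4, m5⟩ := hM' b hb
  subst hw
  exact ⟨(m1 r hr).2, fun h => by linarith [m2 r ⟨hr.1, h⟩], fun h => by linarith [m3 r ⟨h, hr.2⟩],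
    fun h => m4 h r hr, fun h => m5 h r hr⟩

theorem quot_close {u u₀ v v₀ : ℂ} {c K δ : ℝ} (hc : 0 < c) (h0 : c ≤ ‖u₀‖) (h1 : ‖u - u₀‖ ≤ δ)
    (h2 : ‖v - v₀‖ ≤ δ) (h3 : ‖v₀‖ ≤ K) (h4 : δ ≤ c / 2) :
    c / 2 ≤ ‖u‖ ∧ ‖v / u - v₀ / u₀‖ ≤ δ * (2 / c + 2 * K / c ^ 2) := by
  have h5 : c / 2 ≤ ‖u‖ := by linarith [norm_sub_norm_le u₀ u, norm_sub_rev u u₀]
  have hu : u ≠ 0 := norm_pos_iff.1 (by linarith)
  have hu₀ : u₀ ≠ 0 := norm_pos_iff.1 (by linarith)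
  have hδ : 0 ≤ δ := (norm_nonneg _).trans h1
  have hK : 0 ≤ K := (norm_nonneg _).trans h3
  refine ⟨h5, ?_⟩
  have e : v / u - v₀ / u₀ = (v - v₀) / u - v₀ * (u - u₀) / (u * u₀) := by field_simp; ring
  rw [e]
  refine (norm_sub_le _ _).trans ?_
  rw [norm_div, norm_div, norm_mul, norm_mul, mul_add]
  refine add_le_add ?_ ?_
  · calc ‖v - v₀‖ / ‖u‖ ≤ δ / (c / 2) := by gcongr
      _ = _ := by field_simp
  · calc ‖v₀‖ * ‖u - u₀‖ / (‖u‖ * ‖u₀‖) ≤ K * δ / (c / 2 * c) := by gcongr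
      _ = _ := by field_simp

theorem cont_qt {σ : ℝ × ℝ → ℂ} {H : ℝ × ℝ → ℝ → ℂ} (hσ : Continuous σ)
    (h : Continuous (Function.uncurry H)) (S : Set (ℝ × ℝ)) :
    ContinuousOn (fun z : (ℝ × ℝ) × ℝ => Complex.exp (σ z.1 * Real.log z.2)) (S ×ˢ Icc 2.5 3) ∧
    ContinuousOn (fun z : (ℝ × ℝ) × ℝ => H z.1 (Real.log z.2)) (S ×ˢ Icc 2.5 3) := by
  have hl : ContinuousOn (fun z : (ℝ × ℝ) × ℝ => Real.log z.2) (S ×ˢ Icc 2.5 3) :=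
    continuousOn_snd.log fun z hz => by linarith [hz.2.1]
  exact ⟨((hσ.comp continuous_fst).continuousOn.mul
    (Complex.continuous_ofReal.comp_continuousOn hl)).cexp,
    h.comp_continuousOn (f := fun z : (ℝ × ℝ) × ℝ => (z.1, Real.log z.2)) (continuousOn_fst.prodMk hl)⟩

theorem abs_phi_le {J : ℕ} {E : ℝ} {s : ℂ} {φ : ℝ → ℝ} (h : Adm J E s φ) {t : ℝ} (ht : 0 ≤ t) :
    |φ t| ≤ E := by
  simpa using (h.bd t ht).2 0 (Nat.zero_le _)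

theorem exists_r {ρ : ℝ} (hρ : 2.7225 ≤ ρ) : ∃ r : ℝ, 3.3 ≤ r ∧ r ^ 2 / 4 = ρ :=
  ⟨2 * √ρ, by linarith [Real.le_sqrt_of_sq_le (by linarith : (1.65 : ℝ) ^ 2 ≤ ρ)], by
    rw [mul_pow, Real.sq_sqrt (by linarith)]; ring⟩

theorem tail_of {θ T C ε E K Γ b γ : ℝ} {n : ℕ} {H : ℝ → ℂ} {c : ℂ} (h0 : 0 < T) (hT : T < 1)
    (hC : 10 ≤ C) (hn : 1 ≤ n) (ha : aa n ≤ 0.001) (hb : b ∈ Bx)
    (hA : Adm 12 E (ss (aa n) b) (pot T n γ)) (hE : E ≤ 0.01) (hS : OSol (ss (aa n) b) (pot T n γ) H)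
    (hK : 1 ≤ K) (hB : ∀ τ : ℝ, 0 < τ → Bd 12 H τ K K) (hc : ‖c‖ = γ) (hγ : γ ≤ Γ)
    (hθ : θ ^ 2 * (3.3 : ℝ) ^ (4 * aa n) ≤ T)
    (ht : ∀ (b : ℝ) (H : ℝ → ℂ) (r : ℝ), ‖ss (aa n) b‖ ≤ 1 → 0 < r →
      Bd 12 H (Real.log (r ^ 2 / 4)) √T ((Γ * K / √T + 1) * K) → ∀ i : ℕ, i ≤ 12 →
        ‖iteratedDeriv i (fun s => V1 n (Qr (qH (ss (aa n) b) H) s)) r‖ ≤ ε * r ^ (-(2 : ℝ) - i) ∧
        ‖iteratedDeriv i (fun s => V2 n (Qr (qH (ss (aa n) b) H) s)) r‖ ≤ ε * r ^ (-(2 : ℝ) - i))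
    (hH : Hand θ fun ρ => c * qH (ss (aa n) b) H ρ)
    (h1 : 1 / 2 ≤ ‖Qr (fun ρ => c * qH (ss (aa n) b) H ρ) 3.3‖) :
    Tail C ε n b fun ρ => c * qH (ss (aa n) b) H ρ := by
  have hn' : (0 : ℝ) < n := Nat.cast_pos.2 hn
  have a0 : 0 ≤ aa n := by unfold aa; positivity
  have ha' : aa n ∈ Icc (0 : ℝ) 0.001 := ⟨a0, ha⟩
  have hs1 : ‖ss (aa n) b‖ ≤ 1 := hA.hs.trans (by norm_num)
  have hsol : ∀ s : ℝ, 3.3 ≤ s → SolR (aa n) b
      (fun r => pot T n γ (‖H (Real.log (r ^ 2 / 4))‖ ^ 2) / (r ^ 2 / 4))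
      (Qr fun ρ => c * qH (ss (aa n) b) H ρ) s ∧
      |pot T n γ (‖H (Real.log (s ^ 2 / 4))‖ ^ 2) / (s ^ 2 / 4)| * (s ^ 2 / 4) ≤ 0.01 := fun s hs => by
    have h2 : 0 < s ^ 2 / 4 := by positivity
    refine ⟨qH_solR hS c (by linarith), ?_⟩
    rw [abs_div, abs_of_pos h2, div_mul_cancel₀ _ h2.ne']
    exact (abs_phi_le hA (by positivity)).trans hE
  have e1 : ∀ ρ : ℝ, 0 < ρ →
      ‖c * qH (ss (aa n) b) H ρ‖ ^ 2 * ρ ^ (2 * aa n) = γ ^ 2 * ‖H (Real.log ρ)‖ ^ 2 := fun ρ hρ => by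
    have : (ρ ^ (-aa n)) ^ 2 * ρ ^ (2 * aa n) = 1 := by
      rw [← Real.rpow_natCast, ← Real.rpow_mul hρ.le, ← Real.rpow_add hρ]
      norm_num [mul_comm]
    rw [norm_mul, norm_qH _ _ hρ, ss_re, hc]
    linear_combination γ ^ 2 * ‖H (Real.log ρ)‖ ^ 2 * this
  have amp : ∀ ρ : ℝ, 2.7225 ≤ ρ → γ ^ 2 * ‖H (Real.log ρ)‖ ^ 2 ≤ T := fun ρ hρ => by
    obtain ⟨r, hr, rfl⟩ := exists_r hρ
    rw [← e1 _ (by positivity)]
    exact (bar_amp ha' hb hH hsol hr).trans hθ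
  have le1 : ∀ ρ : ℝ, 2.7225 ≤ ρ → ‖c * qH (ss (aa n) b) H ρ‖ ≤ 1 := fun ρ hρ => by
    have h2 := amp ρ hρ
    rw [← e1 ρ (by linarith)] at h2
    have h3 : 1 ≤ ρ ^ (2 * aa n) := Real.one_le_rpow (by linarith) (by linarith)
    refine (sq_le_one_iff₀ (norm_nonneg _)).1 ?_
    nlinarith [sq_nonneg ‖c * qH (ss (aa n) b) H ρ‖]
  refine ⟨fun ρ hρ => ?_, le1, fun j => ?_, fun r hr => ?_, fun r hr => ?_, fun i hi r hr => ?_⟩
  · have hρ0 : 0 < ρ := by linarith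
    have h2 := (qH_sol2 hS (by linarith : 1 < ρ)).const_mul c
    have h3 : pot T n γ (‖H (Real.log ρ)‖ ^ 2) / ρ = ‖c * qH (ss (aa n) b) H ρ‖ ^ (2 * n) := by
      rw [pot_eq hT n (amp ρ hρ), ← e1 ρ hρ0, mul_pow, ← pow_mul, ← Real.rpow_natCast (ρ ^ _),
        ← Real.rpow_mul hρ0.le, show 2 * aa n * n = 1 by unfold aa; field_simp, Real.rpow_one,
        mul_div_cancel_right₀ _ hρ0.ne']
    unfold Sol2 at h2 ⊢
    beta_reduce at h2 ⊢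
    rwa [h3] at h2
  · rw [qH_mul]
    refine symb_qH hs1 a0 (fun J => ?_) j
    obtain ⟨E', hA'⟩ := hA.all h0 hT (max J 7)
    obtain ⟨K', hK', h⟩ := ((ub_H (Y := Unit) (fun _ => hA') (fun _ => hS) (le_max_right _ _)).of_le
      (le_max_left _ _)).cmul (c := fun _ => c) fun _ => le_rfl
    exact ⟨K', by linarith, fun τ hτ => by simpa using h () τ hτ⟩
  · have h2 : ‖Qr (fun ρ => c * qH (ss (aa n) b) H ρ) r‖ ≤ 1 := le1 _ (by nlinarith [hr.1])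
    obtain ⟨b1, b2, b3⟩ := bar_bdd ha' hb hH hsol h1 (Ioc_subset_Icc_self hr) h2
    exact ⟨le_trans (by gcongr) b1, by linarith, by linarith, by linarith⟩
  · exact (bar_all ha' hb hH hsol hr.le).2.2.2.2
  · rw [qH_mul]
    refine ht b _ r hs1 (by linarith) ?_ i hi
    refine (((hB _ (tau_pos (by linarith))).const_mul c).mono (by linarith)
      (mul_le_mul_of_nonneg_right (hc.trans_le hγ) (by linarith)) le_rfl).shrink (by linarith) ?_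
      (Real.sqrt_pos.2 h0)
    refine Real.le_sqrt_of_sq_le ?_
    rw [norm_mul, hc, mul_pow]
    exact amp _ (by nlinarith)

theorem outS (hM : MatchStmt) : OutStmt := by
  intro θ hθ0 hθ1
  obtain ⟨K, hK, hB⟩ := univ_bd
  obtain ⟨K₂, hK₂, hcl⟩ := univ_close
  obtain ⟨H₀, c, hc, hF⟩ := free_fam hM
  have hθ2 : θ ^ 2 < 1 := by nlinarith
  obtain ⟨T, hT1, hT⟩ := exists_between hθ2
  have hT0 : 0 < T := lt_of_le_of_lt (sq_nonneg _) hT1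
  obtain ⟨C, hC1, hC2, hC3⟩ : ∃ C : ℝ, 10 ≤ C ∧ K ≤ C ∧ 6 / c ≤ C :=
    ⟨max 10 (max K (6 / c)), le_max_left _ _, le_max_of_le_right (le_max_left _ _),
      le_max_of_le_right (le_max_right _ _)⟩
  refine ⟨C, by linarith, fun ε hε => ?_⟩
  set L := 1 + K₂ * (2 / c + 2 * (K * K) / c ^ 2) with hL
  have hL0 : 0 < L := by positivity
  obtain ⟨E, E0, E1, E2, E3, E4⟩ : ∃ E : ℝ, 0 < E ∧ E ≤ 0.001 ∧ E ≤ ε ∧ K₂ * E ≤ c / 2 ∧
      E * L ≤ 1 / 10 ^ 8 := by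
    refine ⟨min (min 0.001 ε) (min (c / 2 / (K₂ + 1)) (1 / 10 ^ 8 / L)), by positivity,
      (min_le_left _ _).trans (min_le_left _ _), (min_le_left _ _).trans (min_le_right _ _), ?_,
      (le_div_iff₀ hL0).1 ((min_le_right _ _).trans (min_le_right _ _))⟩
    have := (le_div_iff₀ (by positivity)).1 ((min_le_right (min 0.001 ε) _).trans
      (min_le_left (c / 2 / (K₂ + 1)) (1 / 10 ^ 8 / L)))
    have h : 0 < min (min 0.001 ε) (min (c / 2 / (K₂ + 1)) (1 / 10 ^ 8 / L)) := by positivity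
    linarith
  have hev : ∀ᶠ n : ℕ in atTop, θ ^ 2 * (3.3 : ℝ) ^ (4 * aa n) ≤ T := by
    have h1 : ContinuousAt (fun a : ℝ => θ ^ 2 * (3.3 : ℝ) ^ (4 * a)) 0 :=
      continuousAt_const.mul ((Real.continuousAt_const_rpow (by norm_num)).comp (by fun_prop))
    obtain ⟨δ, hδ, h2⟩ := Metric.eventually_nhds_iff.1 (h1.eventually (gt_mem_nhds (by simpa using hT1)))
    filter_upwards [aa_small (half_pos hδ)] with n hn
    exact (h2 (by rw [Real.dist_eq, sub_zero, abs_of_pos hn.2.1]; linarith [hn.2.2])).le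
  filter_upwards [adm_pot hT0 hT 12 (2 * C) E0, aa_small E0, hev,
    tiny_qH (Real.sqrt_nonneg T) ((Real.sqrt_lt' one_pos).2 (by linarith))
      (by positivity : 0 ≤ (2 * C * K / √T + 1) * K) hε] with n hA hn hθ ht
  have hΓ : 0 ≤ 2 * C := by linarith
  obtain ⟨H, c0, c1, hS⟩ := exists_fam (σ := fun p => ss (aa n) p.1) (ϕ := fun p => pot T n p.2)
    (π := prj (2 * C)) (E := E) (contDiff_ss _) (contDiff_pot T n) (continuous_prj _)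
    fun p => (hA _ (prj_mem hΓ p).1 _ (prj_mem hΓ p).2).mono (by norm_num) le_rfl
  have hS' : ∀ b ∈ Bx, ∀ γ ∈ Icc 0 (2 * C), OSol (ss (aa n) b) (pot T n γ) (H (b, γ)) :=
    fun b hb γ hγ => by
      have := hS (b, γ)
      rwa [prj_eq hb hγ] at this
  have hB' : ∀ b ∈ Bx, ∀ γ ∈ Icc 0 (2 * C), ∀ τ : ℝ, 0 < τ → Bd 12 (H (b, γ)) τ K K :=
    fun b hb γ hγ => hB _ _ _ ((hA b hb γ hγ).mono le_rfl (by linarith)) (hS' b hb γ hγ)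
  have hd : ∀ b : ℝ, ‖ss (aa n) b - ss 0 b‖ ≤ E := fun b => by
    simpa [ss, abs_of_pos hn.2.1] using hn.2.2
  have hq : ∀ b ∈ Bx, ∀ γ ∈ Icc 0 (2 * C), ∀ r ∈ Icc (3.28936 : ℝ) 3.3,
      c / 2 ≤ ‖H (b, γ) (Real.log (r ^ 2 / 4))‖ ∧
      ‖deriv (Qr (qH (ss (aa n) b) (H (b, γ)))) r / Qr (qH (ss (aa n) b) (H (b, γ))) r -
        deriv (Qr (qH (ss 0 b) (H₀ b))) r / Qr (qH (ss 0 b) (H₀ b)) r‖ ≤ 1 / 10 ^ 8 := by
    intro b hb γ hγ r hr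
    have hτ := tau_pos (by linarith [hr.1] : 2 < r)
    have hr0 : 0 < r := by linarith [hr.1]
    obtain ⟨f1, f2, -⟩ := hF b hb
    obtain ⟨g1, g2⟩ := hcl E _ _ _ _ _ (by linarith) ((hA b hb γ hγ).mono (by norm_num) le_rfl)
      (adm_free hb 7 E0.le) (hd b) (hS' b hb γ hγ) f1 _ hτ
    have g3 := (hB _ _ _ (adm_free hb 12 zero_le_one) f1 _ hτ).2 1 (by norm_num)
    rw [iteratedDeriv_one, pow_one] at g3
    obtain ⟨k1, k2⟩ := quot_close hc (f2 r hr) g1 g2 g3 E3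
    refine ⟨k1, ?_⟩
    rw [logderiv_qH hr0 ((hS' b hb γ hγ).ode _ hτ).1 (norm_pos_iff.1 (by linarith)),
      logderiv_qH hr0 (f1.ode _ hτ).1 (norm_pos_iff.1 (by linarith [f2 r hr])), ← mul_sub, norm_mul,
      add_sub_add_comm]
    have k3 : ‖(2 / r : ℂ)‖ ≤ 1 := by
      rw [norm_div, Complex.norm_real, Real.norm_of_nonneg hr0.le, div_le_one hr0]
      simpa using (by linarith [hr.1] : 2 ≤ r)
    refine (mul_le_mul k3 ((norm_add_le _ _).trans (add_le_add (hd b) k2)) (norm_nonneg _)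
      zero_le_one).trans ?_
    rw [hL] at E4
    linarith
  have cs := (contDiff_ss (aa n)).continuous
  obtain ⟨d0, d1⟩ := cont_qt cs c0 (Bx ×ˢ Icc 0 (2 * C))
  obtain ⟨-, d2⟩ := cont_qt cs (H := fun p => deriv (H p)) c1 (Bx ×ˢ Icc 0 (2 * C))
  refine ⟨fun b γ => qH (ss (aa n) b) (H (b, γ)), d0.mul d1, ?_, fun b hb γ hγ => ?_,
    fun b hb γ hγ r hr => ?_, fun b hb γ hγ r hr => ?_, fun b hb γ hγ c' hc' h1 h2 =>
      tail_of hT0 hT hC1 hn.1 (by linarith [hn.2.2]) hb (hA b hb γ hγ) (by linarith) (hS' b hb γ hγ) hK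
        (hB' b hb γ hγ) hc' hγ.2 hθ ht h1 h2⟩
  · refine ContinuousOn.congr ((d0.mul (((cs.comp continuous_fst).continuousOn.mul d1).add d2)).div
      (Complex.continuous_ofReal.comp continuous_snd).continuousOn fun z hz =>
        Complex.ofReal_ne_zero.2 (by linarith [hz.2.1])) fun z hz => ?_
    exact (hasDerivAt_qH (by linarith [hz.2.1])
      ((hS' _ hz.1.1 _ hz.1.2).ode _ (Real.log_pos (by linarith [hz.2.1]))).1).deriv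
  · refine ⟨_, fun ρ hρ => ⟨?_, qH_sol2 (hS' b hb γ hγ) (by linarith [hρ.1])⟩⟩
    rw [abs_div, abs_of_pos (by linarith [hρ.1] : 0 < ρ)]
    exact (div_le_self (abs_nonneg _) (by linarith [hρ.1])).trans
      ((abs_phi_le (hA b hb γ hγ) (by positivity)).trans E2)
  · have hr0 : 0 < r := by linarith [hr.1]
    have h1 : 1 ≤ r ^ 2 / 4 := by nlinarith [hr.1]
    have h2 : (r ^ 2 / 4) ^ (-aa n) ≤ 1 := Real.rpow_le_one_of_one_le_of_nonpos h1 (by linarith [hn.2.1])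
    have h3 : 1 / 3 ≤ (r ^ 2 / 4) ^ (-aa n) := by
      refine le_trans ?_ (Real.rpow_le_rpow_of_exponent_le h1 (by linarith [hn.2.2] : -1 ≤ -aa n))
      rw [Real.rpow_neg_one, ← one_div]
      exact one_div_le_one_div_of_le (by linarith) (by nlinarith [hr.1, hr.2])
    have h4 := (hB' b hb γ hγ _ (tau_pos (by linarith [hr.1] : 2 < r))).2 0 (by norm_num)
    rw [iteratedDeriv_zero, pow_zero, mul_one] at h4
    have h5 := (hq b hb γ hγ r hr).1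
    rw [norm_Qr_qH _ _ hr0, ss_re]
    constructor
    · refine le_trans ?_ (mul_le_mul h3 h5 (by positivity) (by positivity))
      rw [div_le_iff₀ hc] at hC3
      rw [div_le_iff₀ (by linarith)]
      linarith
    · exact (mul_le_of_le_one_left (norm_nonneg _) h2).trans (by linarith)
  · have h1 := (hq b hb γ hγ r ⟨hr.1, by linarith [hr.2]⟩).2
    obtain ⟨m1, m2, m3, m4, m5⟩ := (hF b hb).2.2 r hr _ rfl
    have h2 := abs_le.1 ((Complex.abs_re_le_norm _).trans h1)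
    have h3 := abs_le.1 ((Complex.abs_im_le_norm _).trans h1)
    rw [Complex.sub_re] at h2
    rw [Complex.sub_im] at h3
    refine ⟨by linarith [norm_sub_norm_le (deriv (Qr (qH (ss (aa n) b) (H (b, γ)))) r /
        Qr (qH (ss (aa n) b) (H (b, γ))) r) (deriv (Qr (qH (ss 0 b) (H₀ b))) r / Qr (qH (ss 0 b) (H₀ b)) r)],
      fun h => ?_, fun h => ?_, fun h => ?_, fun h => ?_⟩
    · unfold xx; linarith [m2 h]
    · unfold xx; linarith [m3 h]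
    · unfold yy; linarith [m4 h]
    · unfold yy; linarith [m5 h]

end

end Crest.Agent.R086.P
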