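import Crest.Agent.R086.P.Match
import Crest.Agent.R086.P.OutMain

/-! Row 86, part P: the family of profiles. -/

namespace Crest.Agent.R086.P

theorem famStmt (hM : MatchStmt) : FamStmt := famStmt_of (outS hM)

end Crest.Agent.R086.P
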