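import Crest.Agent.R086.Defs

/-!
# Row 86, part P: the interface between P-in and P-out (helper95)

`P-out` delivers `outS : MatchStmt → OutStmt` (files `R086/P/Out*.lean`, final `R086/P/OutMain.lean`).
The matching radius is `r₁ = 3.3`, `ρ₁ = 3.3² / 4 = 2.7225`.
-/

set_option autoImplicit false

open Set Filter Topology

namespace Crest.Agent.R086.P

noncomputable section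

/-- the interval of `b` -/
abbrev Bx : Set ℝ := Icc 0.334766 0.334786

/-- `ρ q'' + (6 + iρ) q' + (b + ia) q = Ψ q` at the point `ρ ≠ 0`, with a real potential `Ψ` -/
def Sol2 (a b : ℝ) (Ψ : ℝ → ℝ) (q : ℝ → ℂ) (ρ : ℝ) : Prop :=
  DifferentiableAt ℝ q ρ ∧ HasDerivAt (deriv q)
    ((((Ψ ρ : ℂ) - b - Complex.I * a) * q ρ - (6 + Complex.I * ρ) * deriv q ρ) / ρ) ρ

/-- what the inner solution hands over at `r₁ = 3.3` -/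
structure Hand (θ₀ : ℝ) (q : ℝ → ℂ) : Prop where
  ne : Qr q 3.3 ≠ 0
  hx : xx q 3.3 ∈ Icc (-0.004 : ℝ) (-0.002)
  hy : yy q 3.3 ∈ Icc (0 : ℝ) 0.001
  amp : ‖Qr q 3.3‖ ^ 2 * (1 + 4 * yy q 3.3 / 3.3) ≤ θ₀ ^ 2

/-- the properties of the matched outer solution -/
structure Tail (C ε : ℝ) (n : ℕ) (b : ℝ) (q : ℝ → ℂ) : Prop where
  ode : ∀ ρ : ℝ, 2.7225 ≤ ρ → Sol2 (aa n) b (fun ρ => ‖q ρ‖ ^ (2 * n)) q ρ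
  le1 : ∀ ρ : ℝ, 2.7225 ≤ ρ → ‖q ρ‖ ≤ 1
  symb : ∀ j : ℕ, ∃ K : ℝ, ∀ ρ : ℝ, 2.7225 < ρ → ‖iteratedDeriv j q ρ‖ ≤ K * (1 + ρ) ^ (-(aa n) - j)
  bdd : ∀ r ∈ Ioc (3.3 : ℝ) 4.3, 1 / C ≤ ‖Qr q r‖ ∧ ‖Qr q r‖ ≤ C ∧ ‖deriv (Qr q) r‖ ≤ C ∧
    ‖deriv (deriv (Qr q)) r‖ ≤ C
  flow : ∀ r : ℝ, 3.3 < r →
    2 / 5 ≤ 1 / 2 + 2 * yy q r / r ∧ 1 / 2 + 2 * yy q r / r ≤ 3 / 5 ∧ |r * xx q r| ≤ 1 ∧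
      (11 + 2 * r * xx q r) * (1 / 2 + 2 * yy q r / r) ≤ 6.28
  tiny : ∀ i : ℕ, i ≤ 12 → ∀ r : ℝ, 3.3 < r →
    ‖iteratedDeriv i (fun s => V1 n (Qr q s)) r‖ ≤ ε * r ^ (-(2 : ℝ) - i) ∧
    ‖iteratedDeriv i (fun s => V2 n (Qr q s)) r‖ ≤ ε * r ^ (-(2 : ℝ) - i)

/-- the family `qt b γ` of normalised outer solutions (`q̃ = ρ^s h̃` of the design) -/
structure Out (θ₀ C ε : ℝ) (n : ℕ) (qt : ℝ → ℝ → ℝ → ℂ) : Prop where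
  cont0 : ContinuousOn (fun p : (ℝ × ℝ) × ℝ => qt p.1.1 p.1.2 p.2)
    ((Bx ×ˢ Icc 0 (2 * C)) ×ˢ Icc 2.5 3)
  cont1 : ContinuousOn (fun p : (ℝ × ℝ) × ℝ => deriv (qt p.1.1 p.1.2) p.2)
    ((Bx ×ˢ Icc 0 (2 * C)) ×ˢ Icc 2.5 3)
  ode : ∀ b ∈ Bx, ∀ γ ∈ Icc 0 (2 * C), ∃ Ψ : ℝ → ℝ, ∀ ρ ∈ Icc (2.5 : ℝ) 3,
    |Ψ ρ| ≤ ε ∧ Sol2 (aa n) b Ψ (qt b γ) ρ
  size : ∀ b ∈ Bx, ∀ γ ∈ Icc 0 (2 * C), ∀ r ∈ Icc (3.28936 : ℝ) 3.3,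
    1 / C ≤ ‖Qr (qt b γ) r‖ ∧ ‖Qr (qt b γ) r‖ ≤ C
  sign : ∀ b ∈ Bx, ∀ γ ∈ Icc 0 (2 * C), ∀ r ∈ Icc (3.28936 : ℝ) 3.28948,
    ‖deriv (Qr (qt b γ)) r / Qr (qt b γ) r‖ ≤ 1 ∧
    (r ≤ 3.28937 → 1 / 10 ^ 8 ≤ xx (qt b γ) r) ∧ (3.28947 ≤ r → xx (qt b γ) r ≤ -(1 / 10 ^ 8)) ∧
    (b = 0.334766 → 1 / 10 ^ 8 ≤ yy (qt b γ) r) ∧ (b = 0.334786 → yy (qt b γ) r ≤ -(1 / 10 ^ 8))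
  tail : ∀ b ∈ Bx, ∀ γ ∈ Icc 0 (2 * C), ∀ c : ℂ, ‖c‖ = γ → Hand θ₀ (fun ρ => c * qt b γ ρ) →
    1 / 2 ≤ ‖Qr (fun ρ => c * qt b γ ρ) 3.3‖ → Tail C ε n b (fun ρ => c * qt b γ ρ)

/-- **P-out** -/
def OutStmt : Prop :=
  ∀ θ₀ : ℝ, 0 < θ₀ → θ₀ < 1 → ∃ C : ℝ, 1 ≤ C ∧ ∀ ε : ℝ, 0 < ε → ∀ᶠ n in atTop,
    ∃ qt : ℝ → ℝ → ℝ → ℂ, Out θ₀ C ε n qt

/-- symbol class at one point: `‖f^{(i)} r‖ ≤ θ σ^i` for `i ≤ J` (calculus in `P/Bd.lean`) -/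
def Bd (J : ℕ) (f : ℝ → ℂ) (r θ σ : ℝ) : Prop :=
  ContDiffAt ℝ J f r ∧ ∀ i : ℕ, i ≤ J → ‖iteratedDeriv i f r‖ ≤ θ * σ ^ i

end

end Crest.Agent.R086.P
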