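import Crest.Agent.R086.P.Ivp

/-! Row 86, part P: the truncated nonlinearity, the inner solutions, uniqueness. -/

set_option autoImplicit false

open Set Filter Topology
open scoped ContDiff

namespace Crest.Agent.R086.P

noncomputable section

/-- smooth truncation: `s` for `s ≤ 2`, `3` for `s ≥ 3` -/
def TT (s : ℝ) : ℝ := s + (3 - s) * Real.smoothTransition (s - 2)

/-- the truncated right-hand side -/
def GG (n : ℕ) (b : ℝ) (u : ℂ) : ℂ := ((TT (‖u‖ ^ (2 * n)) : ℂ) - b - Complex.I * aa n) * u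

theorem TT_eq {s : ℝ} (h : s ≤ 2) : TT s = s := by
  rw [TT, Real.smoothTransition.zero_of_nonpos (by linarith), mul_zero, add_zero]

theorem TT_ge {s : ℝ} (h : 2 ≤ s) : 2 ≤ TT s := by
  rcases le_total s 3 with h' | h'
  · exact h.trans (le_add_of_nonneg_right
      (mul_nonneg (by linarith) (Real.smoothTransition.nonneg _)))
  · rw [TT, Real.smoothTransition.one_of_one_le (by linarith)]
    linarith

theorem TT_top {s : ℝ} (h : 3 ≤ s) : TT s = 3 := by
  rw [TT, Real.smoothTransition.one_of_one_le (by linarith)]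
  ring

theorem contDiff_TT : ContDiff ℝ ∞ TT := by
  exact contDiff_id.add ((contDiff_const.sub contDiff_id).mul
    (Real.smoothTransition.contDiff.comp (contDiff_id.sub contDiff_const)))

/-- `‖u‖ ^ (2 n) = (‖u‖ ^ 2) ^ n`, `contDiff_norm_sq` -/
theorem contDiff_GG (n : ℕ) (b : ℝ) : ContDiff ℝ ∞ (GG n b) := by
  have h : ContDiff ℝ ∞ fun u : ℂ => ‖u‖ ^ (2 * n) := by
    simp only [pow_mul]
    exact (contDiff_norm_sq ℝ).pow n
  exact (((Complex.ofRealCLM.contDiff.comp (contDiff_TT.comp h)).sub contDiff_const).sub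
    contDiff_const).mul contDiff_id

/-- `(TT (‖u‖^{2n}) - 3) u` has compact support (`ContDiff.lipschitzWith_of_hasCompactSupport`) -/
theorem lip_GG {n : ℕ} (hn : 1 ≤ n) : ∃ Λ : ℝ, 0 ≤ Λ ∧ ∀ b : ℝ, |b| ≤ 1 → ∀ u v : ℂ,
    ‖GG n b u - GG n b v‖ ≤ Λ * ‖u - v‖ := by
  have h1 : ContDiff ℝ ∞ fun u : ℂ => GG n 0 u + (Complex.I * aa n - 3) * u :=
    (contDiff_GG n 0).add (contDiff_const.mul contDiff_id)
  obtain ⟨C, hC⟩ := h1.lipschitzWith_of_hasCompactSupport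
    (.intro (isCompact_closedBall 0 3) fun u hu => by
      rw [mem_closedBall_zero_iff, not_le] at hu
      rw [GG, TT_top (hu.le.trans (le_self_pow₀ (by linarith) (by omega)))]
      push_cast
      ring) (by simp)
  refine ⟨C + (3 + 1 + |aa n|), by positivity, fun b hb u v => ?_⟩
  have e : GG n b u - GG n b v = (GG n 0 u + (Complex.I * aa n - 3) * u -
      (GG n 0 v + (Complex.I * aa n - 3) * v)) + (3 - b - Complex.I * aa n) * (u - v) := by
    simp only [GG]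
    push_cast
    ring
  rw [e, add_mul]
  refine norm_add_le_of_le (hC.norm_sub_le u v) ?_
  rw [norm_mul]
  gcongr
  exact norm_sub_le_of_le (norm_sub_le_of_le (by simp) (by simpa using hb)) (by simp)

theorem NL_eq (n : ℕ) (u : ℂ) : NL n u = ((‖u‖ ^ (2 * n) : ℝ) : ℂ) * u := by
  rw [NL, pow_mul, ← Complex.normSq_eq_norm_sq, Complex.ofReal_pow, ← Complex.mul_conj]
  ring

/-- an inner solution with `|q 0|^{2n} = V₀` -/
structure Inn (n : ℕ) (V₀ b : ℝ) (q : ℝ → ℂ) : Prop where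
  smooth : ContDiff ℝ ∞ q
  init : q 0 = ((V₀ ^ aa n : ℝ) : ℂ)
  ode : ∀ ρ : ℝ, (ρ : ℂ) * deriv (deriv q) ρ + (6 + Complex.I * ρ) * deriv q ρ = GG n b (q ρ)

/-- `exists_volterra` with the clamped parameters `max (1/6) (min (1/2) p.1)`, `max 0 (min 1 p.2)`;
`volterra_smooth`, `continuous_II_param` -/
theorem exists_inn {n : ℕ} (hn : 1 ≤ n) : ∃ q : ℝ × ℝ → ℝ → ℂ, Continuous (Function.uncurry q) ∧
    Continuous (fun z : (ℝ × ℝ) × ℝ => deriv (q z.1) z.2) ∧
    ∀ p ∈ Icc (1 / 6 : ℝ) (1 / 2) ×ˢ Bx, Inn n p.1 p.2 (q p) := by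
  obtain ⟨Λ, -, hΛ⟩ := lip_GG hn
  have cT := contDiff_TT.continuous
  have hG : Continuous (Function.uncurry fun (p : ℝ × ℝ) u => GG n (max 0 (min 1 p.2)) u) := by
    unfold GG
    fun_prop
  have h0 : ∀ x : ℝ, 0 < max (1 / 6) (min (1 / 2) x) := fun x => lt_max_of_lt_left (by norm_num)
  obtain ⟨q, hq, h⟩ := exists_volterra (Λ := Λ) (B := 1)
    (q₀ := fun p => ((max (1 / 6) (min (1 / 2) p.1) ^ aa n : ℝ) : ℂ)) hG
    (fun p => hΛ _ (abs_le.2 ⟨le_max_of_le_left (by norm_num), max_le zero_le_one (min_le_left _ _)⟩))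
    (fun p => by simp [GG])
    (Complex.continuous_ofReal.comp (Continuous.rpow_const (by fun_prop) fun p => .inl (h0 _).ne'))
    fun p => by
      rw [Complex.norm_real, Real.norm_of_nonneg (Real.rpow_nonneg (h0 _).le _)]
      exact Real.rpow_le_one (h0 _).le (max_le (by norm_num) (min_le_of_left_le (by norm_num)))
        (by unfold aa; positivity)
  have hs := fun p => volterra_smooth (contDiff_GG n _) (hq.uncurry_left p) (h p)
  refine ⟨q, hq, ?_, fun p hp => ?_⟩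
  · simp only [fun p => (hs p).2.1]
    exact continuous_II_param (g := fun p τ => GG n (max 0 (min 1 p.2)) (q p τ)) (by fun_prop)
      (hG.comp (continuous_fst.prodMk hq))
  · obtain ⟨a, -, c, d⟩ := hs p
    rw [min_eq_right hp.1.2, max_eq_right hp.1.1] at c
    rw [min_eq_right (hp.2.2.trans (by norm_num)), max_eq_right (le_trans (by norm_num) hp.2.1)] at d
    exact ⟨a, c, d⟩

theorem Inn.sol2 {n : ℕ} {V₀ b : ℝ} {q : ℝ → ℂ} (h : Inn n V₀ b q) {ρ : ℝ} (hρ : ρ ≠ 0) :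
    Sol2 (aa n) b (fun ρ => TT (‖q ρ‖ ^ (2 * n))) q ρ := by
  refine ⟨h.smooth.differentiable (by simp) ρ, ?_⟩
  refine ((contDiff_infty_iff_deriv.1 h.smooth).2.differentiable (by simp) ρ).hasDerivAt.congr_deriv ?_
  rw [eq_div_iff (Complex.ofReal_ne_zero.2 hρ)]
  have := h.ode ρ
  rw [GG] at this
  linear_combination this

/-- `ODE_solution_unique` on `[ρ₁, ρ]` for the pairs `(q, q')` and the field
`(u, v) ↦ (v, (GG u - (6 + i t) v) / t)` with `t` replaced by `max 1 t` (`‖6 + i t‖ / t ≤ 7`) -/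
theorem Inn.unique {n : ℕ} {V₀ b : ℝ} {q q' : ℝ → ℂ} (h : Inn n V₀ b q) (hn : 1 ≤ n) (hb : |b| ≤ 1)
    {ρ₁ : ℝ} (h1 : 1 ≤ ρ₁)
    (h' : ∀ ρ : ℝ, ρ₁ ≤ ρ → Sol2 (aa n) b (fun ρ => ‖q' ρ‖ ^ (2 * n)) q' ρ ∧ ‖q' ρ‖ ≤ 1)
    (e0 : q ρ₁ = q' ρ₁) (e1 : deriv q ρ₁ = deriv q' ρ₁) {ρ : ℝ} (hρ : ρ₁ ≤ ρ) : q ρ = q' ρ := by
  obtain ⟨Λ, hΛ0, hΛ⟩ := lip_GG hn
  have key : ∀ {f : ℝ → ℂ} {t : ℝ}, Sol2 (aa n) b (fun ρ => TT (‖f ρ‖ ^ (2 * n))) f t →
      HasDerivAt (fun s => (f s, deriv f s)) ((fun x : ℂ × ℂ =>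
        (x.2, (GG n b x.1 - (6 + Complex.I * t) * x.2) / t)) (f t, deriv f t)) t :=
    fun h => h.1.hasDerivAt.prodMk h.2
  have k1 := fun t (ht : ρ₁ ≤ t) => key (h.sol2 (ρ := t) (by linarith))
  have k2 := fun t (ht : ρ₁ ≤ t) => key (f := q') (t := t) ⟨(h' t ht).1.1, by
    simp only [TT_eq ((pow_le_one₀ (norm_nonneg _) (h' t ht).2).trans one_le_two)]
    exact (h' t ht).1.2⟩
  refine congrArg Prod.fst (ODE_solution_unique_of_mem_Icc_right (K := ⟨Λ + 7, by positivity⟩)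
    (v := fun t (x : ℂ × ℂ) => (x.2, (GG n b x.1 - (6 + Complex.I * t) * x.2) / t))
    (s := fun _ => univ) (fun t ht => ?_)
    (fun t ht => (k1 t ht.1).continuousAt.continuousWithinAt)
    (fun t ht => (k1 t ht.1).hasDerivWithinAt) (fun _ _ => trivial)
    (fun t ht => (k2 t ht.1).continuousAt.continuousWithinAt)
    (fun t ht => (k2 t ht.1).hasDerivWithinAt) (fun _ _ => trivial) (Prod.ext e0 e1) ⟨hρ, le_rfl⟩)
  refine (LipschitzWith.of_dist_le_mul fun x y => ?_).lipschitzOnWith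
  have t1 : 1 ≤ t := h1.trans ht.1
  have a1 : ‖x.1 - y.1‖ ≤ dist x y := (dist_eq_norm _ _).ge.trans (le_max_left _ _)
  have a2 : ‖x.2 - y.2‖ ≤ dist x y := (dist_eq_norm _ _).ge.trans (le_max_right _ _)
  have a0 := dist_nonneg (x := x) (y := y)
  have a3 : ‖(6 + Complex.I * t : ℂ)‖ ≤ 6 + t :=
    norm_add_le_of_le (by simp) (by simp [abs_of_pos (one_pos.trans_le t1)])
  change max (dist _ _) (dist _ _) ≤ (Λ + 7) * _
  refine max_le ((dist_eq_norm _ _).trans_le (by nlinarith)) ?_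
  rw [dist_eq_norm, ← sub_div, norm_div, Complex.norm_real, Real.norm_of_nonneg (by linarith),
    div_le_iff₀ (by linarith), sub_sub_sub_comm, ← mul_sub]
  calc _ ≤ Λ * dist x y + (6 + t) * dist x y :=
        norm_sub_le_of_le ((hΛ b hb _ _).trans (by gcongr)) (by rw [norm_mul]; gcongr)
    _ ≤ _ := by
        nlinarith [mul_nonneg (mul_nonneg (show 0 ≤ Λ + 6 by linarith) a0) (sub_nonneg.2 t1)]

end

end Crest.Agent.R086.P
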