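import Crest.Agent.R086.P.Tool

/-! Row 86, part P: the profile equation in the variable `r`, polar form, flux, Wronskian. -/

set_option autoImplicit false

open Set Filter Topology
open scoped ContDiff ComplexConjugate

namespace Crest.Agent.R086.P

noncomputable section

/-- `Q'' + (11/r + ir/2) Q' + (b + ia) Q = V Q` at the point `r` -/
def SolR (a b : ℝ) (V : ℝ → ℝ) (Q : ℝ → ℂ) (r : ℝ) : Prop :=
  HasDerivAt Q (deriv Q r) r ∧ HasDerivAt (deriv Q)
    (-(11 / (r : ℂ) + Complex.I * r / 2) * deriv Q r + ((V r : ℂ) - b - Complex.I * a) * Q r) r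

variable {a b r : ℝ} {V Ψ : ℝ → ℝ} {q : ℝ → ℂ} {Q Q' : ℝ → ℂ}

theorem polar_sq (r : ℝ) : HasDerivAt (fun s : ℝ => s ^ 2 / 4) (r / 2) r := by
  refine HasDerivAt.congr_deriv ((hasDerivAt_pow 2 r).div_const 4) (Eq.symm ?_)
  push_cast
  ring

theorem hasDerivAt_Qr (h : DifferentiableAt ℝ q (r ^ 2 / 4)) :
    HasDerivAt (Qr q) (deriv q (r ^ 2 / 4) * (r / 2 : ℂ)) r := by
  have h1 := h.hasDerivAt.scomp r (polar_sq r)
  refine HasDerivAt.congr_deriv (h1) (Eq.symm ?_)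
  rw [Complex.real_smul]
  push_cast
  ring

theorem contDiff_Qr {k : WithTop ℕ∞} (h : ContDiff ℝ k q) : ContDiff ℝ k (Qr q) := by
  exact h.comp (f := fun s : ℝ => s ^ 2 / 4) (by fun_prop)

theorem solR_of_sol2 (hr : r ≠ 0) (hd : ∀ᶠ ρ in 𝓝 (r ^ 2 / 4), DifferentiableAt ℝ q ρ)
    (h : Sol2 a b Ψ q (r ^ 2 / 4)) : SolR a b (fun s => Ψ (s ^ 2 / 4)) (Qr q) r := by
  have h1 := hasDerivAt_Qr h.1
  refine ⟨h1.differentiableAt.hasDerivAt, ?_⟩
  have h2 : deriv (Qr q) =ᶠ[𝓝 r] fun s => deriv q (s ^ 2 / 4) * (s / 2 : ℂ) := by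
    filter_upwards [(polar_sq r).continuousAt.tendsto.eventually hd] with s hs
    exact (hasDerivAt_Qr hs).deriv
  have h3 := (h.2.scomp r (polar_sq r)).mul ((hasDerivAt_id r).ofReal_comp.div_const 2)
  refine HasDerivAt.congr_of_eventuallyEq ?_ h2
  refine HasDerivAt.congr_deriv (h3) (Eq.symm ?_)
  have hr' : (r : ℂ) ≠ 0 := Complex.ofReal_ne_zero.2 hr
  rw [h1.deriv, Complex.real_smul]
  simp only [Qr, Function.comp, id]
  push_cast
  field_simp
  ring

theorem SolR.dlog (h : SolR a b V (Qr q) r) (h0 : Qr q r ≠ 0) :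
    HasDerivAt (fun s => Real.log ‖Qr q s‖) (xx q r) r := by
  have h1 := (h.1.norm_sq.log (by positivity)).div_const 2
  have e : (fun s => Real.log ‖Qr q s‖) = fun s => Real.log (‖Qr q s‖ ^ 2) / 2 := by
    funext s
    rw [Real.log_pow]
    push_cast
    ring
  rw [e]
  refine HasDerivAt.congr_deriv (h1) (Eq.symm ?_)
  rw [xx, Complex.div_re, Complex.sq_norm]
  simp only [Complex.inner, Complex.mul_re, Complex.conj_re, Complex.conj_im]
  ring

theorem polar_w (h : SolR a b V Q r) (h0 : Q r ≠ 0) :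
    HasDerivAt (fun s => deriv Q s / Q s)
      (-(deriv Q r / Q r) ^ 2 - (((11 / r : ℝ) : ℂ) + Complex.I * ((r / 2 : ℝ) : ℂ)) * (deriv Q r / Q r)
        + ((V r : ℂ) - b - Complex.I * a)) r := by
  refine HasDerivAt.congr_deriv (h.2.div h.1 h0) (Eq.symm ?_)
  push_cast
  generalize (11 / (r : ℂ)) = c
  field_simp
  ring

/-- `w = Q'/Q` solves `w' = -w² - (11/r + ir/2) w + V - b - ia` -/
theorem SolR.dx (h : SolR a b V (Qr q) r) (h0 : Qr q r ≠ 0) :
    HasDerivAt (xx q)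
      (-xx q r ^ 2 + yy q r ^ 2 - 11 * xx q r / r + r * yy q r / 2 - b + V r) r := by
  refine HasDerivAt.congr_deriv (Complex.reCLM.hasFDerivAt.comp_hasDerivAt r (polar_w h h0)) (Eq.symm ?_)
  unfold xx yy
  generalize deriv (Qr q) r / Qr q r = w
  simp only [Complex.reCLM_apply, sq, Complex.add_re, Complex.sub_re, Complex.neg_re,
    Complex.mul_re, Complex.add_im, Complex.mul_im, Complex.ofReal_re, Complex.ofReal_im,
    Complex.I_re, Complex.I_im]
  ring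

theorem SolR.dy (h : SolR a b V (Qr q) r) (h0 : Qr q r ≠ 0) :
    HasDerivAt (yy q) (-2 * xx q r * yy q r - 11 * yy q r / r - r * xx q r / 2 - a) r := by
  refine HasDerivAt.congr_deriv (Complex.imCLM.hasFDerivAt.comp_hasDerivAt r (polar_w h h0)) (Eq.symm ?_)
  unfold xx yy
  generalize deriv (Qr q) r / Qr q r = w
  simp only [Complex.imCLM_apply, sq, Complex.add_re, Complex.sub_im, Complex.neg_im,
    Complex.mul_re, Complex.add_im, Complex.mul_im, Complex.ofReal_re, Complex.ofReal_im,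
    Complex.I_re, Complex.I_im]
  ring

/-- the mass flux -/
theorem SolR.dflux (h : SolR a b V Q r) (hr : r ≠ 0) :
    HasDerivAt (fun s => s ^ 11 * (‖Q s‖ ^ 2 * s / 2 + 2 * (conj (Q s) * deriv Q s).im))
      ((6 - 2 * a) * (r ^ 11 * ‖Q r‖ ^ 2)) r := by
  have h1 := Complex.imCLM.hasFDerivAt.comp_hasDerivAt r (h.1.star.mul h.2)
  have h2 := (hasDerivAt_pow 11 r).mul
    (((h.1.norm_sq.mul (hasDerivAt_id r)).div_const 2).add (h1.const_mul 2))
  refine HasDerivAt.congr_deriv (h2) (Eq.symm ?_)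
  have e : (11 / (r : ℂ) + Complex.I * r / 2) =
      ((11 / r : ℝ) : ℂ) + Complex.I * ((r / 2 : ℝ) : ℂ) := by push_cast; ring
  rw [e]
  simp only [Pi.add_apply, Pi.mul_apply, Function.comp, id, Complex.sq_norm, Complex.normSq_apply,
    Complex.inner, Complex.imCLM_apply, Complex.star_def, Complex.add_re, Complex.sub_im,
    Complex.sub_re, Complex.neg_im, Complex.neg_re, Complex.mul_re, Complex.add_im, Complex.mul_im,
    Complex.ofReal_re, Complex.ofReal_im, Complex.I_re, Complex.I_im, Complex.conj_re,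
    Complex.conj_im]
  push_cast
  field_simp
  ring

/-- the flux vanishes at `0`, is nondecreasing and not constant near `0`; it vanishes at a zero of `Q` -/
theorem ne_zero_of_solR (ha : a < 3) (hQ : ContDiff ℝ 1 Q) (h0 : Q 0 ≠ 0)
    (h : ∀ s : ℝ, 0 < s → SolR a b V Q s) (hr : 0 ≤ r) : Q r ≠ 0 := by
  rcases hr.eq_or_lt with rfl | hr
  · exact h0
  intro hz
  set F : ℝ → ℝ := fun s => s ^ 11 * (‖Q s‖ ^ 2 * s / 2 + 2 * (conj (Q s) * deriv Q s).im) with hF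
  have hc : Continuous Q := hQ.continuous
  have hc' : Continuous (deriv Q) := hQ.continuous_deriv le_rfl
  have hFc : Continuous F := by fun_prop
  have hd : ∀ s : ℝ, 0 < s → HasDerivAt F ((6 - 2 * a) * (s ^ 11 * ‖Q s‖ ^ 2)) s :=
    fun s hs => (h s hs).dflux hs.ne'
  have ha' : 0 < 6 - 2 * a := by linarith
  obtain ⟨δ, hδ, hδ'⟩ := Metric.eventually_nhds_iff.1 (hc.continuousAt.eventually_ne h0)
  have hm : 0 < min (δ / 2) r := lt_min (by linarith) hr
  have h1 : StrictMonoOn F (Icc 0 (min (δ / 2) r)) := by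
    refine strictMonoOn_of_deriv_pos (convex_Icc _ _) hFc.continuousOn fun s hs => ?_
    rw [interior_Icc] at hs
    have : Q s ≠ 0 := hδ' (by
      rw [Real.dist_eq, sub_zero, abs_of_pos hs.1]
      linarith [hs.2, min_le_left (δ / 2) r])
    rw [(hd s hs.1).deriv]
    have := hs.1
    positivity
  have h2 : MonotoneOn F (Ici 0) := by
    refine monotoneOn_of_deriv_nonneg (convex_Ici _) hFc.continuousOn (fun s hs => ?_)
      fun s hs => ?_
    · rw [interior_Ici] at hs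
      exact (hd s hs).differentiableAt.differentiableWithinAt
    · rw [interior_Ici] at hs
      rw [(hd s hs).deriv]
      have : 0 < s := hs
      positivity
  have h3 := h1 ⟨le_rfl, hm.le⟩ ⟨hm.le, le_rfl⟩ hm
  have h4 := h2 hm.le hr.le (min_le_right _ _)
  have h5 : F 0 = 0 := by simp [hF]
  have h6 : F r = 0 := by simp [hF, hz]
  linarith

/-- the Wronskian -/
def Wr (Q Q' : ℝ → ℂ) (r : ℝ) : ℂ :=
  (r : ℂ) ^ 11 * Complex.exp (Complex.I * (r : ℂ) ^ 2 / 4) * (Q r * deriv Q' r - deriv Q r * Q' r)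

theorem SolR.dWr (h : SolR a b V Q r) (h' : SolR a b Ψ Q' r) (hr : r ≠ 0) :
    HasDerivAt (Wr Q Q') ((r : ℂ) ^ 11 * Complex.exp (Complex.I * (r : ℂ) ^ 2 / 4) *
      (((Ψ r : ℂ) - V r) * Q r * Q' r)) r := by
  have hr' : (r : ℂ) ≠ 0 := Complex.ofReal_ne_zero.2 hr
  have h0 : HasDerivAt (fun s : ℝ => (s : ℂ)) 1 r := (hasDerivAt_id r).ofReal_comp
  have h1 := ((h0.pow 11).mul (((h0.pow 2).const_mul Complex.I).div_const 4).cexp).mul
    ((h.1.mul h'.2).sub (h.2.mul h'.1))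
  refine HasDerivAt.congr_deriv (h1) (Eq.symm ?_)
  simp only [Pi.mul_apply, Pi.sub_apply, Pi.pow_apply]
  push_cast
  field_simp
  ring

/-- mean value inequality on `[R, min (R + η) 3.3]` (`|Ψ - V| ≤ ε + 1`) and on the rest
(`|Ψ - V| ≤ ε + δ`); `3.3 ^ 11 ≤ 10 ^ 6` -/
theorem Wr_sub_le {R C ε η δ : ℝ} (hR : 3 ≤ R) (hR' : R ≤ 3.3) (hη : 0 ≤ η) (hδ : 0 ≤ δ)
    (h : ∀ s ∈ Icc R 3.3, SolR a b V Q s ∧ SolR a b Ψ Q' s ∧ ‖Q s‖ ≤ 1 ∧ ‖Q' s‖ ≤ C ∧ |Ψ s| ≤ ε ∧
      |V s| ≤ 1 ∧ (R + η ≤ s → |V s| ≤ δ)) :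
    ‖Wr Q Q' 3.3 - Wr Q Q' R‖ ≤ 10 ^ 6 * C * (ε + η + δ) := by
  have hC : 0 ≤ C := (norm_nonneg _).trans (h R ⟨le_rfl, hR'⟩).2.2.2.1
  have hε : 0 ≤ ε := (abs_nonneg _).trans (h R ⟨le_rfl, hR'⟩).2.2.2.2.1
  have key : ∀ s t K : ℝ, R ≤ s → s ≤ t → t ≤ 3.3 → (∀ x ∈ Icc s t, |V x| ≤ K) →
      ‖Wr Q Q' t - Wr Q Q' s‖ ≤ 10 ^ 6 * C * ((ε + K) * (t - s)) := by
    intro s t K hs hst ht hK
    have hm : ∀ x ∈ Icc s t, x ∈ Icc R 3.3 := fun x hx => ⟨hs.trans hx.1, hx.2.trans ht⟩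
    have := norm_image_sub_le_of_norm_deriv_le_segment' (C := 10 ^ 6 * C * (ε + K))
      (fun x hx => ((h x (hm x hx)).1.dWr (h x (hm x hx)).2.1
        (by linarith [(hm x hx).1])).hasDerivWithinAt) (fun x hx => by
        have hx' := Ico_subset_Icc_self hx
        obtain ⟨-, -, h1, h2, h3, -⟩ := h x (hm x hx')
        have h4 : ‖(x : ℂ) ^ 11‖ ≤ 10 ^ 6 := by
          rw [norm_pow, Complex.norm_real, Real.norm_of_nonneg (by linarith [(hm x hx').1])]
          calc x ^ 11 ≤ 3.3 ^ 11 := pow_le_pow_left₀ (by linarith [(hm x hx').1]) (hm x hx').2 _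
            _ ≤ _ := by norm_num
        have h5 : ‖Complex.exp (Complex.I * (x : ℂ) ^ 2 / 4)‖ = 1 := by
          rw [show Complex.I * (x : ℂ) ^ 2 / 4 = ((x ^ 2 / 4 : ℝ) : ℂ) * Complex.I by
            push_cast; ring, Complex.norm_exp_ofReal_mul_I]
        have h6 : ‖(Ψ x : ℂ) - V x‖ ≤ ε + K := by
          refine (norm_sub_le _ _).trans (add_le_add ?_ ?_)
          · rwa [Complex.norm_real]
          · rw [Complex.norm_real]
            exact hK x hx'
        have h7 : 0 ≤ ε + K := (norm_nonneg _).trans h6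
        rw [norm_mul, norm_mul, norm_mul, norm_mul, h5]
        calc _ ≤ 10 ^ 6 * 1 * ((ε + K) * 1 * C) := by gcongr
          _ = _ := by ring) t ⟨hst, le_rfl⟩
    rwa [mul_assoc] at this
  have hC' : 0 ≤ 10 ^ 6 * C := by positivity
  rcases le_total (R + η) 3.3 with h1 | h1
  · have h2 := key R (R + η) 1 le_rfl (by linarith) h1
      fun x hx => (h x ⟨hx.1, hx.2.trans h1⟩).2.2.2.2.2.1
    have h3 := key (R + η) 3.3 δ (by linarith) h1 le_rfl
      fun x hx => (h x ⟨by linarith [hx.1], hx.2⟩).2.2.2.2.2.2 hx.1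
    calc _ ≤ _ := norm_sub_le_norm_sub_add_norm_sub _ (Wr Q Q' (R + η)) _
      _ ≤ _ := add_le_add h3 h2
      _ ≤ _ := by
        rw [← mul_add]
        refine mul_le_mul_of_nonneg_left ?_ hC'
        nlinarith
  · refine (key R 3.3 1 le_rfl hR' le_rfl fun x hx => (h x hx).2.2.2.2.2.1).trans
      (mul_le_mul_of_nonneg_left ?_ hC')
    nlinarith

theorem norm_deriv_le (h0 : Qr q r ≠ 0) :
    ‖deriv (Qr q) r‖ ≤ ‖Qr q r‖ * (|xx q r| + |yy q r|) := by
  calc ‖deriv (Qr q) r‖ = ‖Qr q r‖ * ‖deriv (Qr q) r / Qr q r‖ := by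
        rw [← norm_mul, mul_div_cancel₀ _ h0]
    _ ≤ _ := mul_le_mul_of_nonneg_left (Complex.norm_le_abs_re_add_abs_im _) (norm_nonneg _)

end

end Crest.Agent.R086.P
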