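import Crest.Agent.R086.P.Bd
import Crest.Agent.R086.P.Polar
import Crest.Agent.R086.P.Ivp2

/-! Row 86, part P: G7 on the compact range `3 ≤ r ≤ 4`. -/

set_option autoImplicit false

open Set Filter Topology
open scoped ContDiff

namespace Crest.Agent.R086.P

noncomputable section

theorem prof_ode_r {n : ℕ} {b : ℝ} {q : ℝ → ℂ} (h : Prof n b q) {r : ℝ} (hr : 0 < r) :
    deriv (deriv (Qr q)) r = -(11 * (r : ℂ)⁻¹ + Complex.I / 2 * r) * deriv (Qr q) r
      + (-(b : ℂ) - Complex.I * aa n) * Qr q r + NL n (Qr q r) := by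
  have hd : Differentiable ℝ q := h.smooth.differentiable (by simp)
  have hd' : Differentiable ℝ (deriv q) :=
    (contDiff_infty_iff_deriv.1 h.smooth).2.differentiable (by simp)
  have hρ : 0 < r ^ 2 / 4 := by positivity
  have h2 : Sol2 (aa n) b (fun ρ => ‖q ρ‖ ^ (2 * n)) q (r ^ 2 / 4) := by
    refine ⟨hd _, ?_⟩
    have h3 := h.ode _ hρ.le
    have h4 : ((r ^ 2 / 4 : ℝ) : ℂ) ≠ 0 := Complex.ofReal_ne_zero.2 hρ.ne'
    refine (hd' (r ^ 2 / 4)).hasDerivAt.congr_deriv ?_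
    rw [eq_div_iff h4]
    rw [NL_eq] at h3
    linear_combination h3
  have h5 := (solR_of_sol2 hr.ne' (Eventually.of_forall hd) h2).2.deriv
  rw [h5, NL_eq]
  simp only [Qr]
  ring

theorem tiny_coef (J : ℕ) {r : ℝ} (hr : r ∈ Icc (3 : ℝ) 4) :
    Bd J (fun s : ℝ => 11 * (s : ℂ)⁻¹ + Complex.I / 2 * s) r 13 (J + 1) := by
  have hr0 : 0 < r := by linarith [hr.1]
  have hJ : (0 : ℝ) ≤ J := Nat.cast_nonneg J
  have h1 : Bd J (fun s : ℝ => (s : ℂ)⁻¹) r 1 (J + 1) :=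
    (Bd.inv J hr0).mono (by positivity) (inv_le_one_of_one_le₀ (by linarith [hr.1]))
      ((div_le_self hJ (by linarith [hr.1])).trans (by linarith))
  have h2 : Bd J (fun s : ℝ => (s : ℂ)) r 4 (J + 1) :=
    Bd.ofReal J (by rw [abs_of_pos hr0]; exact hr.2) (by linarith) (by linarith)
  refine ((h1.const_mul 11).add (h2.const_mul (Complex.I / 2))).mono (by linarith) (le_of_eq ?_)
    le_rfl
  simp
  norm_num

theorem tiny_lin {n : ℕ} {b : ℝ} (hb : b ∈ Bx) : ‖-(b : ℂ) - Complex.I * aa n‖ ≤ 2 := by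
  have h1 : |b| ≤ 1 := abs_le.2 ⟨by linarith [hb.1], by linarith [hb.2]⟩
  have h2 : |aa n| ≤ 1 := by
    rw [aa, abs_of_nonneg (by positivity)]
    rcases Nat.eq_zero_or_pos n with rfl | hn
    · simp
    · have : (1 : ℝ) ≤ n := by exact_mod_cast hn
      exact (div_le_one (by linarith)).2 (by linarith)
  refine (norm_sub_le _ _).trans ?_
  simp only [norm_neg, Complex.norm_real, Real.norm_eq_abs, norm_mul, Complex.norm_I, one_mul]
  linarith

/-- Induction on `J`.  `J = 0`: `σ = 2`.  Step: from `Bd (J+1) Q r θ σ` get `Bd J` for the three terms of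
`prof_ode_r` (valid near `r`: `Bd.congr`), the last one is `≤ θ` in every order `i ≤ J` by
`eventually_small`; so `‖Q^{(J+2)} r‖ ≤ θ K`; take `σ' = max σ K` (all `≥ 1`). -/
theorem bd_ode {θ : ℝ} (h0 : 1 / 2 ≤ θ) (h1 : θ < 1) (J : ℕ) : ∃ σ : ℝ, 1 ≤ σ ∧ ∀ᶠ n in atTop,
    ∀ b ∈ Bx, ∀ q : ℝ → ℂ, Prof n b q → ∀ r ∈ Icc (3 : ℝ) 4, ‖Qr q r‖ ≤ θ → ‖deriv (Qr q) r‖ ≤ 1 →
      Bd (J + 1) (Qr q) r θ σ := by
  induction J with
  | zero =>
    refine ⟨2, by norm_num, Eventually.of_forall fun n b _ q hq r _ h2 h3 =>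
      ⟨((contDiff_Qr hq.smooth).of_le (by exact_mod_cast le_top)).contDiffAt, fun i hi => ?_⟩⟩
    interval_cases i
    · simpa using h2
    · rw [iteratedDeriv_one]
      linarith
  | succ J ih =>
    obtain ⟨σ, hσ, ih⟩ := ih
    have hJ : (0 : ℝ) ≤ J := Nat.cast_nonneg J
    obtain ⟨τ, hτ⟩ : ∃ τ : ℝ, τ = 14 * σ + J + 4 := ⟨_, rfl⟩
    refine ⟨τ, by linarith, ?_⟩
    filter_upwards [ih, eventually_small (by linarith) h1 σ J one_pos]
      with n ih hsm b hb q hq r hr h2 h3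
    have hQ := ih b hb q hq r hr h2 h3
    have hs : ContDiff ℝ ∞ (Qr q) := contDiff_Qr hq.smooth
    have hθ : 0 < θ := by linarith
    have hQ' := hQ.of_le (Nat.le_succ J)
    have t1 := (((tiny_coef J hr).mul hQ.deriv (by linarith) (by linarith)).const_mul (-1)).mono
      (by linarith) le_rfl (show (J : ℝ) + 1 + σ ≤ τ by linarith)
    have t2 := (hQ'.const_mul (-(b : ℂ) - Complex.I * aa n)).mono (by linarith)
      (mul_le_mul_of_nonneg_right (tiny_lin hb) hθ.le) (show σ ≤ τ by linarith)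
    have t3 : Bd J (fun s => NL n (Qr q s)) r θ 1 := by
      have h4 := hQ'.NL (by linarith) n
      refine ⟨h4.1, fun i hi => (h4.2 i hi).trans ?_⟩
      have h5 := hsm i hi
      have h6 : 0 ≤ θ ^ (2 * n) * ((2 * n + 1) * σ) ^ i := by positivity
      have h7 : (0 : ℝ) ≤ n := Nat.cast_nonneg n
      have h8 : θ ^ (2 * n) * ((2 * n + 1) * σ) ^ i ≤ 1 := by nlinarith
      rw [one_pow, pow_succ]
      nlinarith
    have t4 := (t1.add t2).add (t3.mono zero_le_one le_rfl (show 1 ≤ τ by linarith))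
    have t5 : Bd J (deriv (deriv (Qr q))) r (θ * τ * τ) τ := by
      refine (t4.congr ?_).mono (by linarith) ?_ le_rfl
      · filter_upwards [lt_mem_nhds (show 0 < r by linarith [hr.1])] with s hs
        rw [prof_ode_r hq hs]
        ring
      · simp only [norm_neg, norm_one, one_mul]
        have h4 : 13 * σ + 3 ≤ τ * τ := by nlinarith
        nlinarith
    refine Bd.succ (hs.of_le (by exact_mod_cast le_top)).contDiffAt h2
      (Bd.succ ((contDiff_infty_iff_deriv.1 hs).2.of_le (by exact_mod_cast le_top)).contDiffAt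
        (h3.trans ?_) t5)
    nlinarith

/-- `Bd.V1`, `Bd.V2`, `eventually_small` with `ε / 4 ^ 14` -/
theorem tiny_compact {θ ε : ℝ} (h1 : θ < 1) (hε : 0 < ε) : ∀ᶠ n in atTop,
    ∀ b ∈ Bx, ∀ q : ℝ → ℂ, Prof n b q → ∀ r ∈ Icc (3 : ℝ) 4, ‖Qr q r‖ ≤ θ → ‖deriv (Qr q) r‖ ≤ 1 →
      ∀ i : ℕ, i ≤ 12 →
        ‖iteratedDeriv i (fun s => V1 n (Qr q s)) r‖ ≤ ε * r ^ (-(2 : ℝ) - i) ∧
        ‖iteratedDeriv i (fun s => V2 n (Qr q s)) r‖ ≤ ε * r ^ (-(2 : ℝ) - i) := by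
  obtain ⟨θ', hθ'⟩ : ∃ θ' : ℝ, θ' = max θ (1 / 2) := ⟨_, rfl⟩
  have g0 : 1 / 2 ≤ θ' := hθ' ▸ le_max_right _ _
  have g1 : θ' < 1 := hθ' ▸ max_lt h1 (by norm_num)
  have g2 : θ ≤ θ' := hθ' ▸ le_max_left _ _
  obtain ⟨σ, hσ, h⟩ := bd_ode g0 g1 11
  filter_upwards [h, eventually_small (by linarith) g1 σ 12 (show 0 < ε / 4 ^ 14 by positivity)]
    with n h hsm b hb q hq r hr h2 h3 i hi
  have hQ := h b hb q hq r hr (h2.trans g2) h3
  have hn : (0 : ℝ) ≤ n := Nat.cast_nonneg n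
  have hθ : 0 ≤ θ' := by linarith
  have key : ((n : ℝ) + 1) * θ' ^ (2 * n) * (2 * n * σ) ^ i ≤ ε * r ^ (-(2 : ℝ) - i) := by
    have h4 : (2 * n * σ) ^ i ≤ ((2 * n + 1) * σ) ^ i :=
      pow_le_pow_left₀ (by positivity) (by nlinarith) i
    refine ((mul_le_mul_of_nonneg_left h4 (by positivity)).trans (hsm i hi)).trans ?_
    rw [div_eq_mul_inv]
    refine mul_le_mul_of_nonneg_left ?_ hε.le
    have h5 : (i : ℝ) ≤ 12 := by exact_mod_cast hi
    have h6 : r ^ (-(14 : ℝ)) ≤ r ^ (-(2 : ℝ) - i) :=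
      Real.rpow_le_rpow_of_exponent_le (by linarith [hr.1]) (by linarith)
    refine le_trans ?_ h6
    have hr0 : 0 < r := by linarith [hr.1]
    rw [Real.rpow_neg hr0.le, show (14 : ℝ) = ((14 : ℕ) : ℝ) by norm_num, Real.rpow_natCast]
    exact inv_anti₀ (by positivity) (pow_le_pow_left₀ hr0.le hr.2 14)
  refine ⟨((hQ.V1 (by linarith) n).2 i hi).trans key,
    (((hQ.V2 (by linarith) hq.npos).2 i hi).trans ?_).trans key⟩
  exact mul_le_mul_of_nonneg_right (mul_le_mul_of_nonneg_right (by linarith) (by positivity))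
    (by positivity)

end

end Crest.Agent.R086.P
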