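import Crest.Agent.R086.P.In4
import Crest.Agent.R086.P.Tiny

/-! Row 86, part P: the matched solution has all the properties G1-G7. -/

set_option autoImplicit false

open Set Filter Topology
open scoped ContDiff

namespace Crest.Agent.R086.P

noncomputable section

/-- the fields of `Fam` for one `n` -/
structure Good (C ε : ℝ) (n : ℕ) (b R : ℝ) (q : ℝ → ℂ) : Prop where
  prof : Prof n b q
  box : InBox b R
  ne : ∀ r : ℝ, 0 ≤ r → Qr q r ≠ 0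
  plateau : ∀ r ∈ Icc 0 R, (1 / 12 : ℝ) ≤ ‖Qr q r‖ ^ (2 * n)
  flat : ∀ r ∈ Icc 0 R, ‖Qr q r - 1‖ ≤ ε ∧ ‖deriv (Qr q) r‖ ≤ ε
  bdd : ∀ r ∈ Icc 0 (R + 1), 1 / C ≤ ‖Qr q r‖ ∧ ‖Qr q r‖ ≤ C ∧ ‖deriv (Qr q) r‖ ≤ C ∧
    ‖deriv (deriv (Qr q)) r‖ ≤ C
  repul : ∀ r ∈ Icc 0 (R + 1 / 100), 2 * n * r * xx q r ≤ 2 / 5
  flow : ∀ r : ℝ, 0 < r →
    2 / 5 ≤ 1 / 2 + 2 * yy q r / r ∧ 1 / 2 + 2 * yy q r / r ≤ 3 / 5 ∧ |r * xx q r| ≤ 1 ∧
      (11 + 2 * r * xx q r) * (1 / 2 + 2 * yy q r / r) ≤ 6.28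
  tiny : ∀ i : ℕ, i ≤ 12 → ∀ r : ℝ, R + ε ≤ r →
    ‖iteratedDeriv i (fun s => V1 n (Qr q s)) r‖ ≤ ε * r ^ (-(2 : ℝ) - i) ∧
    ‖iteratedDeriv i (fun s => V2 n (Qr q s)) r‖ ≤ ε * r ^ (-(2 : ℝ) - i)

/-- `exists_diag`, then choice (junk values where nothing exists) -/
theorem fam_of_good {C : ℝ} (hC : 0 < C)
    (h : ∀ ε : ℝ, 0 < ε → ∀ᶠ n in atTop, ∃ (b R : ℝ) (q : ℝ → ℂ), Good C ε n b R q) : FamStmt := by
  obtain ⟨e, he, hP⟩ := exists_diag h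
  have hch : ∀ n : ℕ, ∃ (b R : ℝ) (q : ℝ → ℂ),
      (∃ (b R : ℝ) (q : ℝ → ℂ), Good C (e n) n b R q) → Good C (e n) n b R q := fun n => by
    by_cases hn : ∃ (b R : ℝ) (q : ℝ → ℂ), Good C (e n) n b R q
    · obtain ⟨b, R, q, hq⟩ := hn
      exact ⟨b, R, q, fun _ => hq⟩
    · exact ⟨0, 0, 0, fun h' => absurd h' hn⟩
  choose b R q hq using hch
  have hG : ∀ᶠ n in atTop, Good C (e n) n (b n) (R n) (q n) := hP.mono hq
  refine ⟨b, R, q, hG.mono fun n g => g.prof, hG.mono fun n g => g.box, hG.mono fun n g => g.ne,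
    hG.mono fun n g => g.plateau, fun ε hε => ?_, ⟨C, hC, hG.mono fun n g => g.bdd⟩,
    ⟨1 / 100, by norm_num, hG.mono fun n g => g.repul⟩, hG.mono fun n g => g.flow,
    fun η hη ε hε => ?_⟩
  · filter_upwards [hG, he ε hε] with n g h1 r hr
    exact ⟨(g.flat r hr).1.trans h1, (g.flat r hr).2.trans h1⟩
  · filter_upwards [hG, he ε hε, he η hη] with n g h1 h2 i hi r hr
    have h3 := g.tiny i hi r (by linarith)
    have h4 : 0 ≤ r := by linarith [g.box.2.1]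
    have h5 := mul_le_mul_of_nonneg_right h1 (Real.rpow_nonneg h4 (-(2 : ℝ) - i))
    exact ⟨h3.1.trans h5, h3.2.trans h5⟩

/-- a matched pair -/
structure Mt (C ε : ℝ) (n : ℕ) (V₀ b R : ℝ) (q q' : ℝ → ℂ) : Prop extends Pre n V₀ b R q where
  tail : Tail C ε n b q'
  eq : ∀ ρ : ℝ, 2.7225 ≤ ρ → q ρ = q' ρ

variable {C ε : ℝ} {n : ℕ} {V₀ b R r : ℝ} {q q' : ℝ → ℂ}

theorem Mt.evq (h : Mt C ε n V₀ b R q q') (hr : 3.3 < r) : Qr q =ᶠ[𝓝 r] Qr q' := by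
  filter_upwards [Ioi_mem_nhds hr] with s hs
  have hs' : 3.3 < s := hs
  exact h.eq _ (by nlinarith)

/-- `q ρ = Qr q (2 √ρ)` -/
theorem Mt.le1 (h : Mt C ε n V₀ b R q q') {ρ : ℝ} (hρ : 0 ≤ ρ) : ‖q ρ‖ ≤ 1 := by
  rcases le_total ρ 2.7225 with h1 | h1
  · have h2 : √ρ ≤ 1.65 := Real.sqrt_le_iff.2 ⟨by norm_num, by linarith⟩
    have h3 := (h.toPre.norm_mem (r := 2 * √ρ)
      ⟨by positivity, by linarith⟩).2.1
    have e : (2 * √ρ) ^ 2 / 4 = ρ := by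
      rw [mul_pow, Real.sq_sqrt hρ]
      ring
    rwa [Qr, e] at h3
  · rw [h.eq ρ h1]
    exact h.tail.le1 ρ h1

/-- `TT_eq`, `NL_eq`; `symb`: compactness on `[0, 2.7225]`, `Filter.EventuallyEq.iteratedDeriv_eq` beyond -/
theorem Mt.prof (h : Mt C ε n V₀ b R q q') : Prof n b q := by
  refine ⟨h.hn, h.inn.smooth, fun ρ hρ => ?_, ?_, fun j => ?_⟩
  · have h1 : ‖q ρ‖ ^ (2 * n) ≤ 2 :=
      (pow_le_one₀ (norm_nonneg _) (h.le1 hρ)).trans one_le_two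
    rw [h.inn.ode ρ, GG, TT_eq h1, NL_eq]
    ring
  · have := h.inn.ne h.hn h.hV 0
    rwa [Qr, zero_pow two_ne_zero, zero_div] at this
  · obtain ⟨K, hK⟩ := h.tail.symb j
    have hc : ContinuousOn (fun ρ : ℝ => ‖iteratedDeriv j q ρ‖ / (1 + ρ) ^ (-(aa n) - j))
        (Icc 0 2.7225) := by
      refine ContinuousOn.div
        (h.inn.smooth.continuous_iteratedDeriv j (by exact_mod_cast le_top)).norm.continuousOn
        (ContinuousOn.rpow_const (by fun_prop) fun ρ hρ => Or.inl ?_) fun ρ hρ => ?_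
      · linarith [hρ.1]
      · exact (Real.rpow_pos_of_pos (by linarith [hρ.1]) _).ne'
    obtain ⟨M, hM⟩ := isCompact_Icc.bddAbove_image hc
    refine ⟨max K M, fun ρ hρ => ?_⟩
    have hp : 0 < (1 + ρ) ^ (-(aa n) - j) := Real.rpow_pos_of_pos (by linarith) _
    rcases le_or_gt ρ 2.7225 with h1 | h1
    · have h2 := (div_le_iff₀ hp).1 (hM (mem_image_of_mem _ ⟨hρ, h1⟩))
      exact h2.trans (mul_le_mul_of_nonneg_right (le_max_right _ _) hp.le)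
    · have e : q =ᶠ[𝓝 ρ] q' := by
        filter_upwards [Ioi_mem_nhds h1] with s hs
        exact h.eq s (le_of_lt hs)
      rw [e.iteratedDeriv_eq j]
      exact (hK ρ h1).trans (mul_le_mul_of_nonneg_right (le_max_left _ _) hp.le)

theorem Mt.good (h : Mt C ε n V₀ b R q q') (hC : 1 ≤ C) {ε' : ℝ} (hε' : 0 < ε') (hε : ε ≤ ε')
    (ha : aa n ≤ ε' ^ 2 / 100)
    (ht : ∀ r ∈ Icc (3 : ℝ) 4, ‖Qr q r‖ ≤ Real.exp (-(0.1 * ε' ^ 2)) → ‖deriv (Qr q) r‖ ≤ 1 →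
      ∀ i : ℕ, i ≤ 12 →
        ‖iteratedDeriv i (fun s => V1 n (Qr q s)) r‖ ≤ ε' * r ^ (-(2 : ℝ) - i) ∧
        ‖iteratedDeriv i (fun s => V2 n (Qr q s)) r‖ ≤ ε' * r ^ (-(2 : ℝ) - i)) :
    Good (C + 10) ε' n b R q := by
  obtain ⟨hR1, hR2⟩ := h.hR
  refine ⟨h.prof, ⟨h.hb, h.hR⟩, fun r _ => h.inn.ne h.hn h.hV r, fun r hr => h.toPre.plateau hr,
    fun r hr => h.toPre.flat hε' ha hr, fun r hr => ?_,
    fun r hr => h.toPre.repul ⟨hr.1, by linarith [hr.2]⟩, fun r hr => ?_, fun i hi r hr => ?_⟩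
  · rcases le_or_gt r 3.3 with h1 | h1
    · obtain ⟨a1, a2, a3⟩ := h.toPre.norm_mem ⟨hr.1, h1⟩
      have a4 := h.toPre.d2_le ⟨hr.1, h1⟩
      have a5 : 1 / (C + 10) ≤ 1 / 2 := one_div_le_one_div_of_le (by norm_num) (by linarith)
      exact ⟨a5.trans a1, by linarith, by linarith, by linarith⟩
    · obtain ⟨a1, a2, a3, a4⟩ := h.tail.bdd r ⟨h1, by linarith [hr.2]⟩
      have e := h.evq h1
      have a5 : 1 / (C + 10) ≤ 1 / C := one_div_le_one_div_of_le (by linarith) (by linarith)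
      rw [e.deriv.deriv_eq, e.deriv_eq, e.eq_of_nhds]
      exact ⟨a5.trans a1, by linarith, by linarith, by linarith⟩
  · rcases le_or_gt r 3.3 with h1 | h1
    · exact h.toPre.flow ⟨hr, h1⟩
    · have e := h.evq h1
      have ex : xx q r = xx q' r := by rw [xx, xx, e.deriv_eq, e.eq_of_nhds]
      have ey : yy q r = yy q' r := by rw [yy, yy, e.deriv_eq, e.eq_of_nhds]
      rw [ex, ey]
      exact h.tail.flow r h1
  · rcases le_or_gt r 3.3 with h1 | h1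
    · exact ht r ⟨by linarith, by linarith⟩ (h.toPre.decay hε'.le ⟨hr, h1⟩)
        (h.toPre.norm_mem ⟨by linarith, h1⟩).2.2 i hi
    · have e1 : (fun s => V1 n (Qr q s)) =ᶠ[𝓝 r] fun s => V1 n (Qr q' s) :=
        (h.evq h1).fun_comp (V1 n)
      have e2 : (fun s => V2 n (Qr q s)) =ᶠ[𝓝 r] fun s => V2 n (Qr q' s) :=
        (h.evq h1).fun_comp (V2 n)
      have h3 := h.tail.tiny i hi r h1
      have h5 := mul_le_mul_of_nonneg_right hε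
        (Real.rpow_nonneg (by linarith : 0 ≤ r) (-(2 : ℝ) - i))
      rw [e1.iteratedDeriv_eq i, e2.iteratedDeriv_eq i]
      exact ⟨h3.1.trans h5, h3.2.trans h5⟩

end

end Crest.Agent.R086.P
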