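import Crest.Agent.R086.P.Tool

/-! Row 86, part P: the inner problem as a real system; flux bounds and the upward exit.
`L = log |Q|`, `exp (L / a) = |Q|^{2n}`, `x + i y = Q'/Q`. -/

set_option autoImplicit false

open Set Filter Topology Real

namespace Crest.Agent.R086.P

noncomputable section

structure Pol (a b : ℝ) (L x y V : ℝ → ℝ) : Prop where
  a0 : 0 < a
  a1 : a ≤ 1 / 10 ^ 8
  hb : b ∈ Bx
  cL : Continuous L
  cx : Continuous x
  cy : Continuous y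
  cV : Continuous V
  x0 : x 0 = 0
  y0 : y 0 = 0
  dL : ∀ r, 0 < r → HasDerivAt L (x r) r
  dx : ∀ r, 0 < r → HasDerivAt x (-x r ^ 2 + y r ^ 2 - 11 * x r / r + r * y r / 2 - b + V r) r
  dy : ∀ r, 0 < r → HasDerivAt y (-2 * x r * y r - 11 * y r / r - r * x r / 2 - a) r
  V1 : ∀ r, exp (L r / a) ≤ 2 → V r = exp (L r / a)
  V2 : ∀ r, 2 ≤ exp (L r / a) → 2 ≤ V r

/-- `b̃ = b - y² - r y / 2` -/
def bt (b : ℝ) (y : ℝ → ℝ) (r : ℝ) : ℝ := b - y r ^ 2 - r * y r / 2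

/-- no downward exit before `R` -/
def Lo (a : ℝ) (L : ℝ → ℝ) (R : ℝ) : Prop := ∀ r ∈ Icc 0 R, 1 / 12 ≤ exp (L r / a)

variable {a b : ℝ} {L x y V : ℝ → ℝ} {r t R m : ℝ}

theorem Pol.dP (h : Pol a b L x y V) (hr : 0 < r) :
    HasDerivAt (fun s => s ^ 11 * exp (L s) * x s) (r ^ 11 * exp (L r) * (V r - bt b y r)) r := by

  refine (((hasDerivAt_pow 11 r).mul (h.dL r hr).exp).mul (h.dx r hr)).congr_deriv ?_
  simp only [bt, Pi.mul_apply]
  field_simp
  push_cast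
  ring

theorem Pol.dJ (h : Pol a b L x y V) (hr : 0 < r) :
    HasDerivAt (fun s => s ^ 11 * exp (2 * L s) * (s / 2 + 2 * y s))
      ((6 - 2 * a) * (r ^ 11 * exp (2 * L r))) r := by

  refine (((hasDerivAt_pow 11 r).mul ((h.dL r hr).const_mul 2).exp).mul
    (((hasDerivAt_id' r).div_const 2).add ((h.dy r hr).const_mul 2))).congr_deriv ?_
  simp only [Pi.mul_apply, Pi.add_apply]
  field_simp
  push_cast
  ring

/-- `le_of_deriv` for `J s - (6 - 2a) m s^12 / 12` on `[0, r]` -/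
theorem Pol.flux_ge (h : Pol a b L x y V) (hr : 0 ≤ r) (hm : ∀ s ∈ Icc 0 r, m ≤ exp (2 * L s)) :
    (6 - 2 * a) * m * r / 12 ≤ exp (2 * L r) * (r / 2 + 2 * y r) := by

  rcases hr.eq_or_lt with rfl | hr'
  · simp [h.y0]
  have cL := h.cL
  have cy := h.cy
  have h6 : 0 ≤ 6 - 2 * a := by linarith [h.a1]
  have key := le_of_deriv (f := fun s => s ^ 11 * exp (2 * L s) * (s / 2 + 2 * y s) -
      (6 - 2 * a) * m / 12 * s ^ 12) hr (by fun_prop)
    (fun t ht => (h.dJ ht.1).sub ((hasDerivAt_pow 12 t).const_mul _)) fun t ht => by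
      have := mul_le_mul_of_nonneg_left (mul_le_mul_of_nonneg_left (hm t (Ioo_subset_Icc_self ht))
        (pow_pos ht.1 11).le) h6
      norm_num
      linarith
  refine le_of_mul_le_mul_left ?_ (pow_pos hr' 11)
  norm_num at key
  linarith

theorem Pol.flux_le (h : Pol a b L x y V) (hr : 0 ≤ r) (hm : ∀ s ∈ Icc 0 r, exp (2 * L s) ≤ m) :
    exp (2 * L r) * (r / 2 + 2 * y r) ≤ (6 - 2 * a) * m * r / 12 := by

  rcases hr.eq_or_lt with rfl | hr'
  · simp [h.y0]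
  have cL := h.cL
  have cy := h.cy
  have h6 : 0 ≤ 6 - 2 * a := by linarith [h.a1]
  have key := ge_of_deriv (f := fun s => s ^ 11 * exp (2 * L s) * (s / 2 + 2 * y s) -
      (6 - 2 * a) * m / 12 * s ^ 12) hr (by fun_prop)
    (fun t ht => (h.dJ ht.1).sub ((hasDerivAt_pow 12 t).const_mul _)) fun t ht => by
      have := mul_le_mul_of_nonneg_left (mul_le_mul_of_nonneg_left (hm t (Ioo_subset_Icc_self ht))
        (pow_pos ht.1 11).le) h6
      norm_num
      linarith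
  refine le_of_mul_le_mul_left ?_ (pow_pos hr' 11)
  norm_num at key
  linarith

theorem in1_ratio {u v : ℝ} (a0 : 0 < a) (h1 : 1 / 12 ≤ exp (u / a)) (h2 : exp (v / a) ≤ 2) :
    v - u ≤ 3.2 * a := by
  have h3 : exp (v / a - u / a) ≤ exp 3.2 := by
    rw [exp_sub, div_le_iff₀ (exp_pos _)]
    have h4 : exp 3.2 = exp 1 * exp 1 * exp 1 * exp 0.2 := by
      rw [← exp_add, ← exp_add, ← exp_add]; norm_num
    have h5 := exp_one_gt_d9
    have h6 := add_one_le_exp 0.2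
    have h7 : 7.389 ≤ exp 1 * exp 1 := by nlinarith
    have h8 : 20.08 ≤ exp 1 * exp 1 * exp 1 := by nlinarith
    have h9 : 24 ≤ exp 3.2 := by rw [h4]; nlinarith
    nlinarith
  rwa [exp_le_exp, ← sub_div, div_le_iff₀ a0] at h3

/-- `L s ≥ L t - a log 24` on `[0, t]`, `log 24 ≤ 3.2`, `exp (-u) ≥ 1 - u`; `flux_ge` with
`m = exp (2 L t) (1 - 6.4 a)` -/
theorem Pol.y_ge (h : Pol a b L x y V) (ht : 0 ≤ t) (hlo : Lo a L t) (hS : exp (L t / a) ≤ 2) :
    -(2 * a * t) ≤ y t := by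

  have a0 := h.a0
  have a1 := h.a1
  have key := h.flux_ge ht (m := exp (2 * L t) * (1 - 6.4 * a)) fun s hs => by
    have h1 := in1_ratio a0 (hlo s hs) hS
    have h2 := add_one_le_exp (2 * L s - 2 * L t)
    rw [exp_sub, le_div_iff₀ (exp_pos _)] at h2
    nlinarith [exp_pos (2 * L t)]
  have h3 : (6 - 2 * a) * (1 - 6.4 * a) * t / 12 ≤ t / 2 + 2 * y t :=
    le_of_mul_le_mul_left (by linarith) (exp_pos (2 * L t))
  nlinarith [mul_nonneg a0.le ht, mul_nonneg (mul_nonneg a0.le a0.le) ht]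

/-- `L s ≤ L t + a log 24`, `exp u ≤ 1 + 1.1 u` for `0 ≤ u ≤ 10⁻⁷`; `flux_le` -/
theorem Pol.y_le (h : Pol a b L x y V) (ht : 0 ≤ t) (hlo : 1 / 12 ≤ exp (L t / a))
    (hS : ∀ s ∈ Icc 0 t, exp (L s / a) ≤ 2) : y t ≤ 2 * a * t := by

  have a0 := h.a0
  have a1 := h.a1
  have key := h.flux_le ht (m := exp (2 * L t) * (1 + 7 * a)) fun s hs => by
    have h1 := in1_ratio a0 hlo (hS s hs)
    have h2 := add_one_le_exp (2 * L t - 2 * L s)
    rw [exp_sub, le_div_iff₀ (exp_pos _)] at h2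
    have h3 : (1 - 6.4 * a) * exp (2 * L s) ≤ exp (2 * L t) := by nlinarith [exp_pos (2 * L s)]
    have h4 : 1 ≤ (1 + 7 * a) * (1 - 6.4 * a) := by nlinarith
    nlinarith [exp_pos (2 * L s), mul_le_mul_of_nonneg_left h3 (by linarith : 0 ≤ 1 + 7 * a)]
  have h3 : t / 2 + 2 * y t ≤ (6 - 2 * a) * (1 + 7 * a) * t / 12 :=
    le_of_mul_le_mul_left (by linarith) (exp_pos (2 * L t))
  nlinarith [mul_nonneg a0.le ht, mul_nonneg (mul_nonneg a0.le a0.le) ht]

theorem Pol.bt_mem (h : Pol a b L x y V) (ht : t ∈ Icc (0 : ℝ) 3.3) (hlo : Lo a L t)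
    (hS : ∀ s ∈ Icc 0 t, exp (L s / a) ≤ 2) : |bt b y t - b| ≤ 12 * a := by

  have a0 := h.a0
  have a1 := h.a1
  have h1 := h.y_ge ht.1 hlo (hS t ⟨ht.1, le_rfl⟩)
  have h2 := h.y_le ht.1 (hlo t ⟨ht.1, le_rfl⟩) hS
  have h3 : a * t ≤ 3.3 * a := by nlinarith [ht.2]
  have h4 : y t ^ 2 ≤ a := by nlinarith
  have h5 : t * y t ≤ 21.78 * a := by nlinarith [ht.1, ht.2, mul_nonneg a0.le ht.1]
  have h6 : -(21.78 * a) ≤ t * y t := by nlinarith [ht.1, ht.2, mul_nonneg a0.le ht.1]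
  unfold bt
  rw [abs_le]
  constructor <;> nlinarith [sq_nonneg (y t)]

/-- if `exp (L t / a) ≤ 2` use `y_ge`; otherwise `V ≥ 2` and `b̃ = b + t²/16 - (y + t/4)² < 2` -/
theorem Pol.thresh (h : Pol a b L x y V) (ht : t ∈ Icc (0 : ℝ) 3.3) (hlo : Lo a L t)
    (hS : b + 11 * a < exp (L t / a)) : bt b y t < V t := by

  have a0 := h.a0
  unfold bt
  rcases le_total (exp (L t / a)) 2 with h1 | h1
  · have h2 := h.y_ge ht.1 hlo h1
    have h3 : a * t ≤ 3.3 * a := by nlinarith [ht.2]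
    have h6 : -(21.78 * a) ≤ t * y t := by nlinarith [ht.1, ht.2, mul_nonneg a0.le ht.1]
    rw [h.V1 t h1]
    nlinarith [sq_nonneg (y t)]
  · have h2 := h.V2 t h1
    nlinarith [sq_nonneg (y t + t / 4), h.hb.2, ht.1, ht.2]

/-- upward exit: `fence` for `P` (`dP`) with `g = V - b̃` on `[r, 3.3]`; while `P ≥ 0`, `L` is monotone -/
theorem Pol.up (h : Pol a b L x y V) (hr : 0 ≤ r) (hlo : Lo a L r) (hx : 0 ≤ x r)
    (hS : b + 11 * a < exp (L r / a)) : ∀ t ∈ Icc r 3.3, L r ≤ L t := by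

  have cL := h.cL
  have cx := h.cx
  have cy := h.cy
  have cV := h.cV
  have mono : ∀ t, r ≤ t → (∀ u ∈ Icc r t, 0 ≤ u ^ 11 * exp (L u) * x u) → ∀ u ∈ Icc r t, L r ≤ L u :=
    fun t _ hP u hu => le_of_deriv hu.1 cL.continuousOn (fun s hs => h.dL s (hr.trans_lt hs.1))
      fun s hs => nonneg_of_mul_nonneg_right (hP s ⟨hs.1.le, hs.2.le.trans hu.2⟩)
        (mul_pos (pow_pos (hr.trans_lt hs.1) 11) (exp_pos _))
  have key := fence (f := fun s => s ^ 11 * exp (L s) * x s) (g := fun s => V s - bt b y s)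
    (A := r) (B := 3.3) (by fun_prop) (by unfold bt; fun_prop) (fun t ht => h.dP (hr.trans_lt ht.1))
    (fun t ht hg => (mul_pos (mul_pos (pow_pos (hr.trans_lt ht.1) 11) (exp_pos _)) hg).le)
    (by positivity) fun t ht hP => by
      have h1 : ∀ u ∈ Icc r t, exp (L r / a) ≤ exp (L u / a) := fun u hu =>
        exp_le_exp.2 (div_le_div_of_nonneg_right (mono t ht.1 hP u hu) h.a0.le)
      refine sub_pos.2 (h.thresh ⟨hr.trans ht.1, ht.2⟩ (fun u hu => ?_)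
        (hS.trans_le (h1 t ⟨ht.1, le_rfl⟩)))
      rcases le_total u r with h2 | h2
      · exact hlo u ⟨hu.1, h2⟩
      · exact (hlo r ⟨hr, le_rfl⟩).trans (h1 u ⟨h2, hu.2⟩)
  exact fun t ht => mono 3.3 (ht.1.trans ht.2) key t ht

/-- the face `V₀ = 1/2` -/
theorem Pol.face_hi (h : Pol a b L x y V) (h0 : exp (L 0 / a) = 1 / 2) :
    ∀ t ∈ Icc (0 : ℝ) 3.3, 1 / 12 < exp (L t / a) := by

  intro t ht
  have h1 := h.up le_rfl (fun u hu => by rw [le_antisymm hu.2 hu.1, h0]; norm_num) h.x0.ge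
    (by rw [h0]; linarith [h.hb.2, h.a1]) t ht
  have h2 := exp_le_exp.2 (div_le_div_of_nonneg_right h1 h.a0.le)
  linarith

/-- the face `V₀ = 1/6`: otherwise `Lo a L 3`; `fence` for `-P` with `g = b̃ - V` gives `x ≤ 0`, then
`V - b̃ ≤ -0.1`, `P s ≤ -0.1 exp (L r) s^12 / 12` on `[0, r]`, `x r ≤ -r / 120`,
`L 3 - L 0 ≤ -9/240`, but `L 3 - L 0 ≥ -a log 2` -/
theorem Pol.face_lo (h : Pol a b L x y V) (h0 : exp (L 0 / a) = 1 / 6) :
    ∃ t ∈ Icc (0 : ℝ) 3, exp (L t / a) < 1 / 12 := by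

  by_contra hne
  have hlo : Lo a L 3 := fun t ht => not_lt.1 fun h1 => hne ⟨t, ht, h1⟩
  have cL := h.cL
  have cx := h.cx
  have cy := h.cy
  have cV := h.cV
  have xn : ∀ s, 0 < s → 0 ≤ -(s ^ 11 * exp (L s) * x s) → x s ≤ 0 := fun s hs hP =>
    nonpos_of_mul_nonpos_right (neg_nonneg.1 hP) (mul_pos (pow_pos hs 11) (exp_pos _))
  have gap : ∀ t ∈ Icc (0 : ℝ) 3, (∀ u ∈ Icc 0 t, 0 ≤ -(u ^ 11 * exp (L u) * x u)) →
      0.1 ≤ bt b y t - V t := fun t ht hP => by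
    have h1 : ∀ u ∈ Icc 0 t, exp (L u / a) ≤ 1 / 6 := fun u hu => by
      rw [← h0]
      exact exp_le_exp.2 (div_le_div_of_nonneg_right (ge_of_deriv hu.1 cL.continuousOn
        (fun s hs => h.dL s hs.1) fun s hs => xn s hs.1 (hP s ⟨hs.1.le, hs.2.le.trans hu.2⟩)) h.a0.le)
    have h2 := abs_le.1 (h.bt_mem ⟨ht.1, by linarith [ht.2]⟩ (fun u hu => hlo u ⟨hu.1, hu.2.trans ht.2⟩)
      fun u hu => (h1 u hu).trans (by norm_num))
    have h3 := h1 t ⟨ht.1, le_rfl⟩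
    rw [h.V1 t (by linarith)]
    linarith [h.hb.1, h.a1]
  have key := fence (f := fun s => -(s ^ 11 * exp (L s) * x s)) (g := fun s => bt b y s - V s)
    (A := 0) (B := 3) (by fun_prop) (by unfold bt; fun_prop) (fun t ht => (h.dP ht.1).neg)
    (fun t ht hg => neg_nonneg.2 (mul_nonpos_of_nonneg_of_nonpos
      (mul_pos (pow_pos ht.1 11) (exp_pos _)).le (by linarith)))
    (by simp) fun t ht hP => by linarith [gap t ht hP]
  have hx : ∀ r ∈ Ioo (0 : ℝ) 3, x r ≤ -(r / 120) := fun r hr => by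
    have h1 := ge_of_deriv (f := fun s => s ^ 11 * exp (L s) * x s + exp (L r) / 120 * s ^ 12) hr.1.le
      (by fun_prop) (fun t ht => (h.dP ht.1).add ((hasDerivAt_pow 12 t).const_mul _)) fun t ht => by
        have h2 := gap t ⟨ht.1.le, by linarith [ht.2, hr.2]⟩ fun u hu =>
          key u ⟨hu.1, by linarith [hu.2, ht.2, hr.2]⟩
        have h3 : exp (L r) ≤ exp (L t) := exp_le_exp.2 (ge_of_deriv ht.2.le cL.continuousOn
          (fun s hs => h.dL s (ht.1.trans hs.1)) fun s hs => xn s (ht.1.trans hs.1)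
            (key s ⟨(ht.1.trans hs.1).le, by linarith [hs.2, hr.2]⟩))
        have h4 : exp (L t) * (V t - bt b y t) + exp (L r) / 10 ≤ 0 := by nlinarith [exp_pos (L r)]
        have h5 := mul_nonpos_of_nonneg_of_nonpos (pow_pos ht.1 11).le h4
        norm_num
        linarith
    refine le_of_mul_le_mul_left ?_ (mul_pos (pow_pos hr.1 11) (exp_pos (L r)))
    norm_num at h1
    linarith
  have h1 := ge_of_deriv (f := fun s => L s + 1 / 240 * s ^ 2) (by norm_num : (0 : ℝ) ≤ 3) (by fun_prop)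
    (fun t ht => (h.dL t ht.1).add ((hasDerivAt_pow 2 t).const_mul _)) fun t ht => by
      have := hx t ht
      norm_num
      linarith
  have h2 := in1_ratio h.a0 (hlo 3 (by norm_num)) (v := L 0) (by rw [h0]; norm_num)
  norm_num at h1
  linarith [h.a1]

end

end Crest.Agent.R086.P
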