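import Crest.Agent.R086.P.In1

/-! Row 86, part P: the plateau of a solution that exits downwards at `R`. -/

set_option autoImplicit false

open Set Filter Topology Real

namespace Crest.Agent.R086.P

noncomputable section

/-- downward exit at `R` -/
structure Ex (a : ℝ) (L : ℝ → ℝ) (R : ℝ) : Prop where
  R0 : 0 < R
  R1 : R ≤ 3.3
  lo : Lo a L R
  ex : exp (L R / a) = 1 / 12

variable {a b : ℝ} {L x y V : ℝ → ℝ} {r R : ℝ}

/-- `Pol.up` -/
theorem Pol.S_le_of_nonneg (h : Pol a b L x y V) (e : Ex a L R) (hr : r ∈ Icc 0 R) (hx : 0 ≤ x r) :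
    exp (L r / a) ≤ b + 11 * a := by

  by_contra hne
  have h1 := h.up hr.1 (fun u hu => e.lo u ⟨hu.1, hu.2.trans hr.2⟩) hx (not_le.1 hne) R ⟨hr.2, e.R1⟩
  have h2 := exp_le_exp.2 (div_le_div_of_nonneg_right h1 h.a0.le)
  rw [e.ex] at h2
  linarith [h.hb.1, h.a0]

/-- at a maximum point of `L` on `[0, R]`: it is `0`, or `R`, or `x = 0` there -/
theorem Pol.S_le (h : Pol a b L x y V) (e : Ex a L R) (hr : r ∈ Icc 0 R) :
    exp (L r / a) ≤ b + 11 * a := by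

  obtain ⟨s, hs, hm⟩ := isCompact_Icc.exists_isMaxOn ⟨r, hr⟩ h.cL.continuousOn
  refine (exp_le_exp.2 (div_le_div_of_nonneg_right (hm hr) h.a0.le)).trans ?_
  rcases hs.1.eq_or_lt with h0 | h0
  · exact h.S_le_of_nonneg e hs (by rw [← h0, h.x0])
  rcases hs.2.eq_or_lt with h1 | h1
  · rw [h1, e.ex]; linarith [h.hb.1, h.a0]
  · exact h.S_le_of_nonneg e hs
      ((hm.isLocalMax (Icc_mem_nhds h0 h1)).hasDerivAt_eq_zero (h.dL s h0)).ge

theorem Pol.in2_S (h : Pol a b L x y V) (e : Ex a L R) (hr : r ∈ Icc 0 R) : exp (L r / a) ≤ 2 := by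
  linarith [h.S_le e hr, h.hb.2, h.a1]

theorem Pol.in2_V (h : Pol a b L x y V) (e : Ex a L R) (hr : r ∈ Icc 0 R) :
    1 / 12 ≤ V r ∧ V r ≤ b + 11 * a := by
  rw [h.V1 r (h.in2_S e hr)]
  exact ⟨e.lo r hr, h.S_le e hr⟩

theorem Pol.in2_bt (h : Pol a b L x y V) (e : Ex a L R) (hr : r ∈ Icc 0 R) :
    b - 12 * a ≤ bt b y r ∧ bt b y r ≤ b + 12 * a := by
  have := abs_le.1 (h.bt_mem ⟨hr.1, hr.2.trans e.R1⟩ (fun u hu => e.lo u ⟨hu.1, hu.2.trans hr.2⟩)
    fun u hu => h.in2_S e ⟨hu.1, hu.2.trans hr.2⟩)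
  constructor <;> linarith [this.1, this.2]

/-- if `P s ≤ 0` and `V s < b̃ s` then `x < 0` just after `s` -/
theorem Pol.in2_neg (h : Pol a b L x y V) {s : ℝ} (hs : 0 ≤ s) (hx : x s ≤ 0) (hV : V s < bt b y s) :
    ∃ δ : ℝ, 0 < δ ∧ ∀ t ∈ Ioo s (s + δ), x t < 0 := by
  have cL := h.cL
  have cx := h.cx
  have cy := h.cy
  have cV := h.cV
  have h1 : ∀ᶠ t in 𝓝 s, V t < bt b y t :=
    (cV.continuousAt).eventually_lt (by unfold bt; fun_prop) hV
  obtain ⟨δ, hδ, h2⟩ := Metric.eventually_nhds_iff.1 h1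
  refine ⟨δ, hδ, fun t ht => ?_⟩
  have h3 := gt_of_deriv (f := fun s => s ^ 11 * exp (L s) * x s) ht.1 (by fun_prop)
    (fun u hu => h.dP (hs.trans_lt hu.1)) fun u hu =>
      mul_neg_of_pos_of_neg (mul_pos (pow_pos (hs.trans_lt hu.1) 11) (exp_pos _)) (sub_neg.2 (h2 (by
        rw [Real.dist_eq, abs_lt]; constructor <;> linarith [hu.1, hu.2, ht.2])))
  have h4 : s ^ 11 * exp (L s) * x s ≤ 0 := mul_nonpos_of_nonneg_of_nonpos (by positivity) hx
  exact neg_of_mul_neg_right (h3.trans_le h4) (mul_pos (pow_pos (hs.trans_lt ht.1) 11) (exp_pos _)).le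

theorem Pol.abs_y_le (h : Pol a b L x y V) (e : Ex a L R) (hr : r ∈ Icc 0 R) : |y r| ≤ 2 * a * r := by

  exact abs_le.2 ⟨h.y_ge hr.1 (fun u hu => e.lo u ⟨hu.1, hu.2.trans hr.2⟩) (h.in2_S e hr),
    h.y_le hr.1 (e.lo r hr) fun u hu => h.in2_S e ⟨hu.1, hu.2.trans hr.2⟩⟩

/-- `-3 a ≤ L ≤ 0` (`log 12 ≤ 3`) -/
theorem Pol.L_mem (h : Pol a b L x y V) (e : Ex a L R) (hr : r ∈ Icc 0 R) :
    L r ∈ Icc (-(3 * a)) 0 := by

  have a0 := h.a0
  constructor
  · have h1 : exp (-3) ≤ exp (L r / a) := by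
      refine le_trans ?_ (e.lo r hr)
      rw [exp_neg, ← one_div, div_le_div_iff₀ (exp_pos _) (by norm_num)]
      have h4 : exp 3 = exp 1 * exp 1 * exp 1 := by rw [← exp_add, ← exp_add]; norm_num
      have h5 := exp_one_gt_d9
      have h7 : 7.389 ≤ exp 1 * exp 1 := by nlinarith
      rw [h4]; nlinarith
    rw [exp_le_exp, le_div_iff₀ a0] at h1
    linarith
  · have h1 : exp (L r / a) ≤ 1 := by linarith [h.S_le e hr, h.hb.2, h.a1]
    rw [exp_le_one_iff, div_le_iff₀ a0] at h1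
    linarith

/-- `|P'| ≤ s^11` (`|V - b̃| ≤ 1`, `L ≤ 0`), so `|P r| ≤ r^12 / 12`; `exp (L r) ≥ 1/2` -/
theorem Pol.abs_x_le (h : Pol a b L x y V) (e : Ex a L R) (hr : r ∈ Icc 0 R) : |x r| ≤ r / 6 := by

  rcases hr.1.eq_or_lt with rfl | hr'
  · simp [h.x0]
  have cL := h.cL
  have cx := h.cx
  have hb : ∀ t ∈ Ioo 0 r, |exp (L t) * (V t - bt b y t)| ≤ 1 := fun t ht => by
    have ht' : t ∈ Icc 0 R := ⟨ht.1.le, ht.2.le.trans hr.2⟩
    have h1 := h.in2_V e ht'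
    have h2 := h.in2_bt e ht'
    rw [abs_mul, abs_of_pos (exp_pos _)]
    refine mul_le_one₀ (exp_le_one_iff.2 (h.L_mem e ht').2) (abs_nonneg _) (abs_le.2 ⟨?_, ?_⟩) <;>
      linarith [h.hb.1, h.hb.2, h.a0, h.a1]
  have h1 := ge_of_deriv (f := fun s => s ^ 11 * exp (L s) * x s - 1 / 12 * s ^ 12) hr.1 (by fun_prop)
    (fun t ht => (h.dP ht.1).sub ((hasDerivAt_pow 12 t).const_mul _)) fun t ht => by
      have := mul_le_mul_of_nonneg_left (abs_le.1 (hb t ht)).2 (pow_pos ht.1 11).le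
      norm_num
      linarith
  have h2 := le_of_deriv (f := fun s => s ^ 11 * exp (L s) * x s + 1 / 12 * s ^ 12) hr.1 (by fun_prop)
    (fun t ht => (h.dP ht.1).add ((hasDerivAt_pow 12 t).const_mul _)) fun t ht => by
      have := mul_le_mul_of_nonneg_left (abs_le.1 (hb t ht)).1 (pow_pos ht.1 11).le
      norm_num
      linarith
  norm_num at h1 h2
  have h3 : exp (L r) * x r ≤ r / 12 := le_of_mul_le_mul_left (by linarith) (pow_pos hr' 11)
  have h4 : -(r / 12) ≤ exp (L r) * x r := le_of_mul_le_mul_left (by linarith) (pow_pos hr' 11)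
  have h5 : 1 / 2 ≤ exp (L r) := by linarith [add_one_le_exp (L r), (h.L_mem e hr).1, h.a1]
  rw [abs_le]
  constructor <;> nlinarith

/-- `s` = last zero of `x` before `r` (`last_zero`).  `exp (L s / a) ≥ b - 12 a` (otherwise `P' < 0` just
after `s`, but `P s = 0 < P`), so on `[s, r]` `V ∈ [b - 12a, b + 11a]`, `x' ≤ 24 a`,
`(x² - 48 a L)' ≤ 0`, and `L r - L s ≤ a log ((b + 11a) / (b - 12a)) ≤ 70 a²` -/
theorem Pol.x_pos_le (h : Pol a b L x y V) (e : Ex a L R) (hr : r ∈ Icc 0 R) (hx : 0 ≤ x r) :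
    x r ^ 2 ≤ 4000 * a ^ 3 := by

  have a0 := h.a0
  have a1 := h.a1
  rcases hx.eq_or_lt with h0 | h0
  · rw [← h0]; norm_num; positivity
  have cL := h.cL
  have cx := h.cx
  obtain ⟨s, hs, hs0, hp⟩ := last_zero hr.1 cx.continuousOn h.x0 h0
  have hs' : s ∈ Icc 0 R := ⟨hs.1, hs.2.le.trans hr.2⟩
  have h1 : b - 12 * a ≤ exp (L s / a) := by
    by_contra hne
    obtain ⟨δ, hδ, h2⟩ := h.in2_neg hs.1 hs0.le (by
      rw [h.V1 s (h.in2_S e hs')]; linarith [(h.in2_bt e hs').1])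
    have h3 : s < min r (s + δ) := lt_min hs.2 (by linarith)
    obtain ⟨t, h4, h5⟩ := exists_between h3
    linarith [h2 t ⟨h4, h5.trans_le (min_le_right _ _)⟩, hp t ⟨h4, h5.le.trans (min_le_left _ _)⟩]
  have h2 := ge_of_deriv (f := fun t => x t ^ 2 - 48 * a * L t) hs.2.le (by fun_prop)
    (fun t ht => ((h.dx t (hs.1.trans_lt ht.1)).pow 2).sub ((h.dL t (hs.1.trans_lt ht.1)).const_mul _))
    fun t ht => by
      have ht0 := hs.1.trans_lt ht.1
      have ht' : t ∈ Icc 0 R := ⟨ht0.le, ht.2.le.trans hr.2⟩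
      have h3 := hp t ⟨ht.1, ht.2.le⟩
      have h4 := (h.in2_V e ht').2
      have h5 := (h.in2_bt e ht').1
      have h6 : 0 ≤ 11 * x t / t := by positivity
      unfold bt at h5
      have h7 : -x t ^ 2 + y t ^ 2 - 11 * x t / t + t * y t / 2 - b + V t - 24 * a ≤ 0 := by
        nlinarith [sq_nonneg (x t)]
      have h8 := mul_nonpos_of_nonneg_of_nonpos h3.le h7
      norm_num
      linarith
  have h3 : L r - L s ≤ 70 * a ^ 2 := by
    have h4 := add_one_le_exp (L r / a - L s / a)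
    rw [exp_sub, le_div_iff₀ (exp_pos _)] at h4
    have h5 := h.S_le e hr
    have h6 : L r / a - L s / a ≤ 70 * a := by
      by_contra hne
      have h7 : (70 * a + 1) * (b - 12 * a) ≤ (L r / a - L s / a + 1) * exp (L s / a) :=
        mul_le_mul (by linarith) h1 (by linarith [h.hb.1]) (by linarith)
      nlinarith [h.hb.1]
    rw [← sub_div, div_le_iff₀ a0] at h6
    linarith
  simp only [hs0] at h2
  nlinarith [mul_le_mul_of_nonneg_left h3 a0.le, pow_pos a0 3]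

/-- for `x r < 0`: `s` = last zero; on `(s, r)` `x + 11 / t ≥ 0` (`abs_x_le`), `b̃ - V ≤ 0.3`, so
`(x² + 0.6 L)' ≤ 0`; `L s - L r ≤ 3 a` -/
theorem Pol.x_sq_le (h : Pol a b L x y V) (e : Ex a L R) (hr : r ∈ Icc 0 R) : x r ^ 2 ≤ 2 * a := by

  have a0 := h.a0
  have a1 := h.a1
  rcases le_or_gt 0 (x r) with h0 | h0
  · have := h.x_pos_le e hr h0
    nlinarith [mul_pos a0 a0]
  have cL := h.cL
  have cx := h.cx
  obtain ⟨s, hs, hs0, hp⟩ := last_zero (f := fun t => -x t) hr.1 cx.neg.continuousOn (by simp [h.x0])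
    (neg_pos.2 h0)
  have h2 := ge_of_deriv (f := fun t => x t ^ 2 + 0.6 * L t) hs.2.le (by fun_prop)
    (fun t ht => ((h.dx t (hs.1.trans_lt ht.1)).pow 2).add ((h.dL t (hs.1.trans_lt ht.1)).const_mul _))
    fun t ht => by
      have ht0 := hs.1.trans_lt ht.1
      have ht' : t ∈ Icc 0 R := ⟨ht0.le, ht.2.le.trans hr.2⟩
      have h3 := hp t ⟨ht.1, ht.2.le⟩
      have h4 := (h.in2_V e ht').1
      have h5 := (h.in2_bt e ht').2
      have h6 := (abs_le.1 (h.abs_x_le e ht')).1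
      have h9 : 1 ≤ 11 / t := by rw [le_div_iff₀ ht0]; linarith [ht'.2, e.R1]
      have h10 : 0 ≤ -x t * (x t + 11 / t) := mul_nonneg h3.le (by linarith [ht'.2, e.R1])
      unfold bt at h5
      have h7 : 0 ≤ -x t ^ 2 + y t ^ 2 - 11 * x t / t + t * y t / 2 - b + V t + 0.3 := by
        have : 11 * x t / t = x t * (11 / t) := by ring
        linarith [h.hb.2]
      have h8 := mul_nonneg h3.le h7
      norm_num
      linarith
  rw [neg_eq_zero] at hs0
  simp only [hs0] at h2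
  nlinarith [(h.L_mem e hr).1, (h.L_mem e ⟨hs.1, hs.2.le.trans hr.2⟩).2]

/-- G5 on the plateau -/
theorem Pol.repul (h : Pol a b L x y V) (e : Ex a L R) (hr : r ∈ Icc 0 R) :
    r * x r / a ≤ 2 / 5 := by

  have a0 := h.a0
  have a1 := h.a1
  rw [div_le_iff₀ a0]
  rcases le_or_gt 0 (x r) with h0 | h0
  · have h1 := h.x_pos_le e hr h0
    have h2 : x r ≤ 0.1 * a := by
      refine (pow_le_pow_iff_left₀ h0 (by positivity) two_ne_zero).1 ?_
      nlinarith [mul_pos a0 a0]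
    nlinarith [hr.1, hr.2, e.R1]
  · nlinarith [hr.1]

/-- `R` is a minimum point of `L` on `[0, R]` -/
theorem Pol.x_exit (h : Pol a b L x y V) (e : Ex a L R) : x R ≤ 0 := by

  by_contra hne
  have h1 : ∀ᶠ t in 𝓝 R, 0 < x t := h.cx.continuousAt.eventually (lt_mem_nhds (not_le.1 hne))
  obtain ⟨δ, hδ, h2⟩ := Metric.eventually_nhds_iff.1 h1
  have h3 : max 0 (R - δ) < R := max_lt e.R0 (by linarith)
  have h4 := gt_of_deriv (f := fun t => -L t) h3 h.cL.neg.continuousOn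
    (fun t ht => (h.dL t ((le_max_left _ _).trans_lt ht.1)).neg) fun t ht => neg_lt_zero.2 (h2 (by
      rw [Real.dist_eq, abs_lt]; constructor <;> linarith [ht.1, ht.2, le_max_right 0 (R - δ)]))
  have h5 := e.lo _ ⟨le_max_left _ _, h3.le⟩
  rw [← e.ex, exp_le_exp, div_le_div_iff_of_pos_right h.a0] at h5
  linarith

/-- `V - b̃ < 0` near `R`, so `P < 0` on `(R, R + δ')` and `L` is strictly decreasing there -/
theorem Pol.trans (h : Pol a b L x y V) (e : Ex a L R) {δ : ℝ} (hδ : 0 < δ) :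
    ∃ r ∈ Ioo R (R + δ), exp (L r / a) < 1 / 12 := by

  have hR : R ∈ Icc 0 R := ⟨e.R0.le, le_rfl⟩
  obtain ⟨δ', hδ', h1⟩ := h.in2_neg e.R0.le (h.x_exit e) (by
    rw [h.V1 R (h.in2_S e hR), e.ex]; linarith [(h.in2_bt e hR).1, h.hb.1, h.a1])
  obtain ⟨t, h2, h3⟩ := exists_between (lt_min (by linarith : R < R + δ) (by linarith : R < R + δ'))
  refine ⟨t, ⟨h2, h3.trans_le (min_le_left _ _)⟩, ?_⟩
  rw [← e.ex, exp_lt_exp, div_lt_div_iff_of_pos_right h.a0]
  exact gt_of_deriv h2 h.cL.continuousOn (fun u hu => h.dL u (e.R0.trans hu.1)) fun u hu =>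
    h1 u ⟨hu.1, hu.2.trans (h3.trans_le (min_le_right _ _))⟩

end

end Crest.Agent.R086.P
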