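import Crest.Agent.R086.P.In2

/-! Row 86, part P: from the exit point `R ≥ 3.28936` to the matching radius `3.3`. -/

set_option autoImplicit false

open Set Filter Topology Real

namespace Crest.Agent.R086.P

noncomputable section

variable {a b : ℝ} {L x y V : ℝ → ℝ} {r R : ℝ}

/-- the estimates that follow from the box on `[R, r]`: `V = exp (L / a) ≤ 1/11`, `x' ≤ -0.2`, hence
`x ≤ 0`, `L` decreasing, `x' ≥ -0.34`, `|y'| ≤ 0.021`; `|x R| ≤ 0.00015`, `|y R| ≤ 7 a` -/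
theorem Pol.two_of_box (h : Pol a b L x y V) (e : Ex a L R) (hR : 3.28936 ≤ R) (hr : r ∈ Icc R 3.3)
    (hbox : ∀ s ∈ Icc R r, |x s| ≤ 0.01 ∧ |y s| ≤ 0.001 ∧ exp (L s / a) ≤ 1 / 11) :
    x r ≤ -(0.2 * (r - R)) ∧ -(0.00015 + 0.34 * (r - R)) ≤ x r ∧ |y r| ≤ 7 * a + 0.021 * (r - R) ∧
      L r ≤ L R - 0.1 * (r - R) ^ 2 := by

  have a0 := h.a0
  have a1 := h.a1
  have cL := h.cL
  have cx := h.cx
  have cy := h.cy
  have hRR : R ∈ Icc 0 R := ⟨e.R0.le, le_rfl⟩
  have xR := h.x_exit e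
  have xR' : -0.00015 ≤ x R := by nlinarith [h.x_sq_le e hRR]
  have yR : |y R| ≤ 7 * a := (h.abs_y_le e hRR).trans (by nlinarith [e.R1])
  have aux : ∀ t ∈ Ioo R r, 0 < t ∧ 0 ≤ 11 / t ∧ 11 / t ≤ 3.35 ∧ |t * y t| ≤ 0.0033 ∧ |t * x t| ≤ 0.033 ∧
      |11 * x t / t| ≤ 0.0335 ∧ |11 * y t / t| ≤ 0.00335 ∧ |x t * y t| ≤ 0.00001 ∧ y t ^ 2 ≤ 0.000001 ∧
      x t ^ 2 ≤ 0.0001 ∧ 0 ≤ V t ∧ V t ≤ 1 / 11 := fun t ht => by
    obtain ⟨b1, b2, b3⟩ := hbox t (Ioo_subset_Icc_self ht)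
    have t0 : 0 < t := e.R0.trans ht.1
    have t1 : t ≤ 3.3 := ht.2.le.trans hr.2
    have t2 : 11 / t ≤ 3.35 := by rw [div_le_iff₀ t0]; linarith [ht.1]
    have t3 : 0 ≤ 11 / t := by positivity
    have e1 : 11 * x t / t = 11 / t * x t := by ring
    have e2 : 11 * y t / t = 11 / t * y t := by ring
    have := abs_nonneg (x t)
    have := abs_nonneg (y t)
    refine ⟨t0, t3, t2, ?_, ?_, ?_, ?_, ?_, ?_, ?_, ?_, ?_⟩
    · rw [abs_mul, abs_of_pos t0]; nlinarith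
    · rw [abs_mul, abs_of_pos t0]; nlinarith
    · rw [e1, abs_mul, abs_of_nonneg t3]; nlinarith
    · rw [e2, abs_mul, abs_of_nonneg t3]; nlinarith
    · rw [abs_mul]; nlinarith
    · rw [← sq_abs]; nlinarith
    · rw [← sq_abs]; nlinarith
    · rw [h.V1 t (by linarith)]; exact (exp_pos _).le
    · rw [h.V1 t (by linarith)]; exact b3
  have hx : ∀ s ∈ Icc R r, x s ≤ -(0.2 * (s - R)) := fun s hs => by
    have := ge_of_deriv (f := fun t => x t + 0.2 * t) hs.1 (by fun_prop)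
      (fun t ht => (h.dx t (e.R0.trans ht.1)).add ((hasDerivAt_id' t).const_mul _)) fun t ht => by
        obtain ⟨-, -, -, c1, -, c2, -, -, c3, -, -, c4⟩ := aux t ⟨ht.1, ht.2.trans_le hs.2⟩
        linarith [(abs_le.1 c1).2, (abs_le.1 c2).1, h.hb.1, sq_nonneg (x t)]
    linarith
  refine ⟨hx r ⟨hr.1, le_rfl⟩, ?_, abs_le.2 ⟨?_, ?_⟩, ?_⟩
  · have := le_of_deriv (f := fun t => x t + 0.34 * t) hr.1 (by fun_prop)
      (fun t ht => (h.dx t (e.R0.trans ht.1)).add ((hasDerivAt_id' t).const_mul _)) fun t ht => by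
        obtain ⟨c0, -, -, c1, -, -, -, -, -, c3, c4, -⟩ := aux t ht
        have c5 : 11 * x t / t ≤ 0 := div_nonpos_of_nonpos_of_nonneg
          (by linarith [hx t (Ioo_subset_Icc_self ht), ht.1]) c0.le
        linarith [(abs_le.1 c1).1, h.hb.2, sq_nonneg (y t)]
    linarith
  · have := le_of_deriv (f := fun t => y t + 0.021 * t) hr.1 (by fun_prop)
      (fun t ht => (h.dy t (e.R0.trans ht.1)).add ((hasDerivAt_id' t).const_mul _)) fun t ht => by
        obtain ⟨-, -, -, -, c1, -, c2, c3, -⟩ := aux t ht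
        linarith [(abs_le.1 c1).2, (abs_le.1 c2).2, (abs_le.1 c3).2]
    linarith [(abs_le.1 yR).1]
  · have := ge_of_deriv (f := fun t => y t - 0.021 * t) hr.1 (by fun_prop)
      (fun t ht => (h.dy t (e.R0.trans ht.1)).sub ((hasDerivAt_id' t).const_mul _)) fun t ht => by
        obtain ⟨-, -, -, -, c1, -, c2, c3, -⟩ := aux t ht
        linarith [(abs_le.1 c1).1, (abs_le.1 c2).1, (abs_le.1 c3).1]
    linarith [(abs_le.1 yR).2]
  · have := ge_of_deriv (f := fun t => L t + 0.1 * (t - R) ^ 2) hr.1 (by fun_prop)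
      (fun t ht => (h.dL t (e.R0.trans ht.1)).add
        ((((hasDerivAt_id' t).sub_const R).pow 2).const_mul _)) fun t ht => by
        have := hx t (Ioo_subset_Icc_self ht)
        norm_num
        linarith
    simp only [sub_self] at this
    linarith

/-- `cont_ind` for the box; `two_of_box` gives strict inequalities (`r - R ≤ 0.01064`) -/
theorem Pol.two (h : Pol a b L x y V) (e : Ex a L R) (hR : 3.28936 ≤ R) (hr : r ∈ Icc R 3.3) :
    x r ≤ -(0.2 * (r - R)) ∧ -(0.00015 + 0.34 * (r - R)) ≤ x r ∧ |y r| ≤ 7 * a + 0.021 * (r - R) ∧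
      L r ≤ L R - 0.1 * (r - R) ^ 2 := by

  have a0 := h.a0
  have a1 := h.a1
  have cL := h.cL
  have cx := h.cx
  have cy := h.cy
  have hRR : R ∈ Icc 0 R := ⟨e.R0.le, le_rfl⟩
  have key := cont_ind (A := R) (B := 3.3)
    (p := fun s => |x s| ≤ 0.01 ∧ |y s| ≤ 0.001 ∧ exp (L s / a) ≤ 1 / 11)
    (isClosed_Icc.inter ((isClosed_le cx.abs continuous_const).inter
      ((isClosed_le cy.abs continuous_const).inter (isClosed_le (cL.div_const a).rexp continuous_const))))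
    ⟨by rw [abs_le]; constructor <;> nlinarith [h.x_sq_le e hRR],
      (h.abs_y_le e hRR).trans (by nlinarith [e.R1]), by rw [e.ex]; norm_num⟩ fun t ht hb => by
      obtain ⟨b1, b2, b3, b4⟩ := h.two_of_box e hR (Ico_subset_Icc_self ht) hb
      have c1 : |x t| < 0.01 := by rw [abs_lt]; constructor <;> linarith [ht.1, ht.2]
      have c2 : |y t| < 0.001 := by linarith [ht.2]
      have c3 : exp (L t / a) < 1 / 11 := by
        have : exp (L t / a) ≤ exp (L R / a) :=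
          exp_le_exp.2 (div_le_div_of_nonneg_right (by nlinarith [sq_nonneg (t - R)]) a0.le)
        rw [e.ex] at this
        linarith
      have d1 := (cx.abs.continuousAt (x := t)).eventually (gt_mem_nhds c1)
      have d2 := (cy.abs.continuousAt (x := t)).eventually (gt_mem_nhds c2)
      have d3 := ((cL.div_const a).rexp.continuousAt (x := t)).eventually (gt_mem_nhds c3)
      filter_upwards [nhdsWithin_le_nhds d1, nhdsWithin_le_nhds d2, nhdsWithin_le_nhds d3] with u u1 u2 u3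
      exact ⟨u1.le, u2.le, u3.le⟩
  exact h.two_of_box e hR hr fun s hs => key s ⟨hs.1, hs.2.trans hr.2⟩

theorem Pol.two_L (h : Pol a b L x y V) (e : Ex a L R) (hR : 3.28936 ≤ R) (hr : r ∈ Icc R 3.3) :
    L r ∈ Icc (-0.001 : ℝ) 0 := by

  have hRR : R ∈ Icc 0 R := ⟨e.R0.le, le_rfl⟩
  have cL := h.cL
  have h1 := h.L_mem e hRR
  constructor
  · have := le_of_deriv (f := fun t => L t + 0.01 * t) hr.1 (by fun_prop)
      (fun t ht => (h.dL t (e.R0.trans ht.1)).add ((hasDerivAt_id' t).const_mul _)) fun t ht => by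
        linarith [(h.two e hR ⟨ht.1.le, ht.2.le.trans hr.2⟩).2.1, ht.2, hr.2]
    linarith [h1.1, h.a1, hr.2]
  · nlinarith [(h.two e hR hr).2.2.2, h1.2, sq_nonneg (r - R)]

theorem Pol.two_V (h : Pol a b L x y V) (e : Ex a L R) (hR : 3.28936 ≤ R) (hr : r ∈ Icc R 3.3) :
    0 ≤ V r ∧ V r ≤ exp (-(0.1 * (r - R) ^ 2 / a)) := by

  have h1 : exp (L r / a) ≤ exp (-(0.1 * (r - R) ^ 2 / a)) := by
    rw [exp_le_exp, ← neg_div]
    exact div_le_div_of_nonneg_right
      (by linarith [(h.two e hR hr).2.2.2, (h.L_mem e ⟨e.R0.le, le_rfl⟩).2]) h.a0.le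
  have h2 : exp (-(0.1 * (r - R) ^ 2 / a)) ≤ 1 :=
    exp_le_one_iff.2 (neg_nonpos.2 (by have := h.a0; positivity))
  rw [h.V1 r (by linarith)]
  exact ⟨(exp_pos _).le, h1⟩

/-- `y' ≥ 0.328 t - 3.4 (7 a + 0.021 t) - a ≥ 0.25 t - 25 a`, `t = r - R` -/
theorem Pol.two_y (h : Pol a b L x y V) (e : Ex a L R) (hR : 3.28936 ≤ R) (hr : r ∈ Icc R 3.3) :
    0.125 * (r - R) ^ 2 - 8 * a ≤ y r := by

  have a0 := h.a0
  have cy := h.cy
  have := le_of_deriv (f := fun t => y t - 0.125 * (t - R) ^ 2 + 25 * a * t) hr.1 (by fun_prop)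
    (fun t ht => ((h.dy t (e.R0.trans ht.1)).sub
      ((((hasDerivAt_id' t).sub_const R).pow 2).const_mul _)).add ((hasDerivAt_id' t).const_mul _))
    fun t ht => by
      obtain ⟨b1, b2, b3, -⟩ := h.two e hR ⟨ht.1.le, ht.2.le.trans hr.2⟩
      have t0 : 0 < t := e.R0.trans ht.1
      have t1 := ht.1
      have t2 : 11 / t ≤ 3.35 := by rw [div_le_iff₀ t0]; linarith
      have t3 : 0 ≤ 11 / t := by positivity
      have c1 : |(2 * x t + 11 / t) * y t| ≤ 3.4 * (7 * a + 0.021 * (t - R)) := by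
        rw [abs_mul]
        exact mul_le_mul (abs_le.2 ⟨by linarith [ht.2, hr.2], by linarith⟩) b3 (abs_nonneg _)
          (by norm_num)
      have c2 : t * x t ≤ -(0.656 * (t - R)) := by nlinarith
      have c3 : 11 * y t / t = 11 / t * y t := by ring
      have c4 := (abs_le.1 c1).2
      norm_num
      linarith
  have h2 := (abs_le.1 (h.two e hR ⟨le_rfl, e.R1⟩).2.2.1).1
  simp only [sub_self] at this h2
  nlinarith [hr.1, hr.2]

/-- `M = exp (2 L) (1 + 4 y / r)` has `M' = -exp (2 L) (4 a / r + 48 y / r²) ≤ -0.49 t² + 36 a`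
(`exp (2 L) ∈ [0.99, 1]`), `M R ≤ 1 + 8 a`, `3.3 - R ∈ [0.01052, 0.01064]` -/
theorem Pol.amp (h : Pol a b L x y V) (e : Ex a L R) (hR : 3.28936 ≤ R) (hR' : R ≤ 3.28948) :
    exp (2 * L 3.3) * (1 + 4 * y 3.3 / 3.3) ≤ 1 - 1 / 10 ^ 8 := by

  have a0 := h.a0
  have a1 := h.a1
  have cL := h.cL
  have cy := h.cy
  have hRR : R ∈ Icc 0 R := ⟨e.R0.le, le_rfl⟩
  have hd : ∀ t, 0 < t → HasDerivAt (fun s => exp (2 * L s) * (1 + 4 * y s / s))
      (-(exp (2 * L t) * (4 * a / t + 48 * y t / t ^ 2))) t := fun t ht => by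
    refine ((((h.dL t ht).const_mul 2).exp).mul
      ((((h.dy t ht).const_mul 4).div (hasDerivAt_id' t) ht.ne').const_add 1)).congr_deriv ?_
    simp only [Pi.div_apply]
    field_simp
    ring
  have key := ge_of_deriv (f := fun s => exp (2 * L s) * (1 + 4 * y s / s) + 0.16 * (s - R) ^ 3 - 36 * a * s)
    e.R1 (((ContinuousOn.mul (by fun_prop) (continuousOn_const.add (ContinuousOn.div (by fun_prop)
      continuousOn_id fun s hs => (e.R0.trans_le hs.1).ne'))).add (by fun_prop)).sub (by fun_prop))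
    (fun t ht => ((hd t (e.R0.trans ht.1)).add
      ((((hasDerivAt_id' t).sub_const R).pow 3).const_mul _)).sub ((hasDerivAt_id' t).const_mul _))
    fun t ht => by
      have t0 : 0 < t := e.R0.trans ht.1
      have b1 := h.two_y e hR (Ioo_subset_Icc_self ht)
      have b2 := h.two_L e hR (Ioo_subset_Icc_self ht)
      have b3 : 0.99 ≤ exp (2 * L t) := by linarith [add_one_le_exp (2 * L t), b2.1]
      have b4 : exp (2 * L t) ≤ 1 := exp_le_one_iff.2 (by linarith [b2.2])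
      have b5 : 0.5 * (t - R) ^ 2 - 36 * a ≤ 48 * y t / t ^ 2 := by
        rw [le_div_iff₀ (by positivity)]
        have c1 : t ^ 2 ≤ 10.89 := by nlinarith [ht.2]
        have c2 : 10.8 ≤ t ^ 2 := by nlinarith [ht.1]
        nlinarith [mul_le_mul_of_nonneg_left c1 (sq_nonneg (t - R)), mul_le_mul_of_nonneg_left c2 a0.le,
          sq_nonneg (t - R)]
      have b6 : 0 ≤ 4 * a / t := by positivity
      have b7 := mul_le_mul_of_nonneg_left (by linarith :
        0.5 * (t - R) ^ 2 - 36 * a ≤ 4 * a / t + 48 * y t / t ^ 2) (exp_pos (2 * L t)).le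
      have b8 := mul_le_mul_of_nonneg_right b3 (sq_nonneg (t - R))
      have b9 := mul_le_mul_of_nonneg_right b4 a0.le
      norm_num
      nlinarith [sq_nonneg (t - R)]
  have m1 : exp (2 * L R) * (1 + 4 * y R / R) ≤ 1 + 8 * a := by
    have c1 : 4 * y R / R ≤ 8 * a := by
      rw [div_le_iff₀ e.R0]; linarith [(abs_le.1 (h.abs_y_le e hRR)).2]
    have c2 : exp (2 * L R) ≤ 1 := exp_le_one_iff.2 (by linarith [(h.L_mem e hRR).2])
    nlinarith [exp_pos (2 * L R)]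
  have m2 : (0.0105 : ℝ) ^ 3 ≤ (3.3 - R) ^ 3 := pow_le_pow_left₀ (by norm_num) (by linarith) 3
  simp only [sub_self] at key
  nlinarith

theorem Pol.hand (h : Pol a b L x y V) (e : Ex a L R) (hR : 3.28936 ≤ R) (hR' : R ≤ 3.28948) :
    x 3.3 ∈ Icc (-0.004 : ℝ) (-0.002) ∧ y 3.3 ∈ Icc (0 : ℝ) 0.001 := by

  obtain ⟨b1, b2, b3, -⟩ := h.two e hR ⟨e.R1, le_rfl⟩
  have b4 := h.two_y e hR ⟨e.R1, le_rfl⟩
  have m2 : (0.0105 : ℝ) ^ 2 ≤ (3.3 - R) ^ 2 := pow_le_pow_left₀ (by norm_num) (by linarith) 2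
  exact ⟨⟨by linarith, by linarith⟩, by linarith [h.a1], by linarith [(abs_le.1 b3).2, h.a1]⟩

/-- everything on `[0, 3.3]` -/
theorem Pol.all (h : Pol a b L x y V) (e : Ex a L R) (hR : 3.28936 ≤ R) (hr : r ∈ Icc (0 : ℝ) 3.3) :
    L r ∈ Icc (-0.001 : ℝ) 0 ∧ |x r| ≤ r / 6 ∧ |x r| ≤ 0.01 ∧ |y r| ≤ r / 1000 ∧ r * x r / a ≤ 2 / 5 := by

  have a0 := h.a0
  have a1 := h.a1
  rcases le_total r R with h1 | h1
  · have hr' : r ∈ Icc 0 R := ⟨hr.1, h1⟩
    refine ⟨⟨by linarith [(h.L_mem e hr').1], (h.L_mem e hr').2⟩, h.abs_x_le e hr', ?_,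
      (h.abs_y_le e hr').trans (by nlinarith [hr.1]), h.repul e hr'⟩
    rw [abs_le]; constructor <;> nlinarith [h.x_sq_le e hr']
  · obtain ⟨b1, b2, b3, -⟩ := h.two e hR ⟨h1, hr.2⟩
    have c1 : |x r| ≤ 0.01 := abs_le.2 ⟨by linarith [hr.2], by linarith⟩
    refine ⟨h.two_L e hR ⟨h1, hr.2⟩, by linarith, c1, by linarith [hr.2], ?_⟩
    exact (div_nonpos_of_nonpos_of_nonneg (mul_nonpos_of_nonneg_of_nonpos hr.1 (by linarith))
      a0.le).trans (by norm_num)

end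

end Crest.Agent.R086.P
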