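import Crest.Agent.R086.P.In3
import Crest.Agent.R086.P.Polar
import Crest.Agent.R086.P.Ivp2

/-! Row 86, part P: from an inner solution to the real system; consequences for `Q`. -/

set_option autoImplicit false

open Set Filter Topology
open scoped ContDiff

namespace Crest.Agent.R086.P

noncomputable section

variable {n : ℕ} {V₀ b R r : ℝ} {q : ℝ → ℂ}

theorem in4_Qr0 (q : ℝ → ℂ) : Qr q 0 = q 0 := by
  rw [Qr]
  norm_num

theorem exp_log_norm (hn : 1 ≤ n) {u : ℂ} (hu : u ≠ 0) :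
    Real.exp (Real.log ‖u‖ / aa n) = ‖u‖ ^ (2 * n) := by
  have hn' : (0 : ℝ) < n := by exact_mod_cast hn
  have e : Real.log ‖u‖ / aa n = ((2 * n : ℕ) : ℝ) * Real.log ‖u‖ := by
    unfold aa
    push_cast
    field_simp
  rw [e, Real.exp_nat_mul, Real.exp_log (norm_pos_iff.2 hu)]

theorem Inn.solR (h : Inn n V₀ b q) (hr : r ≠ 0) :
    SolR (aa n) b (fun s => TT (‖Qr q s‖ ^ (2 * n))) (Qr q) r := by
  have := solR_of_sol2 (Ψ := fun ρ => TT (‖q ρ‖ ^ (2 * n))) (q := q) hr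
    (Eventually.of_forall fun ρ => h.smooth.differentiable (by simp) ρ) (h.sol2 (by positivity))
  exact this

theorem Inn.S_zero (h : Inn n V₀ b q) (hn : 1 ≤ n) (hV : 0 < V₀) : ‖Qr q 0‖ ^ (2 * n) = V₀ := by
  have hn' : (0 : ℝ) < n := by exact_mod_cast hn
  have e : aa n * ((2 * n : ℕ) : ℝ) = 1 := by
    unfold aa
    push_cast
    field_simp
  rw [in4_Qr0, h.init, Complex.norm_real, Real.norm_of_nonneg (Real.rpow_nonneg hV.le _),
    ← Real.rpow_natCast, ← Real.rpow_mul hV.le, e, Real.rpow_one]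

/-- `ne_zero_of_solR`; `Qr q r = Qr q |r|` -/
theorem Inn.ne (h : Inn n V₀ b q) (hn : 1 ≤ n) (hV : 0 < V₀) (r : ℝ) : Qr q r ≠ 0 := by
  have hn' : (1 : ℝ) ≤ n := by exact_mod_cast hn
  have ha : aa n < 3 := by
    unfold aa
    rw [div_lt_iff₀ (by positivity)]
    linarith
  have h0 : Qr q 0 ≠ 0 := by
    rw [in4_Qr0, h.init]
    exact Complex.ofReal_ne_zero.2 (Real.rpow_pos_of_pos hV _).ne'
  have e : Qr q r = Qr q |r| := by rw [Qr, Qr, sq_abs]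
  rw [e]
  exact ne_zero_of_solR ha (contDiff_Qr (h.smooth.of_le (by simp))) h0
    (fun s hs => h.solR hs.ne') (abs_nonneg r)

/-- `deriv (Qr q) 0 = 0` by `hasDerivAt_Qr` -/
theorem Inn.pol (h : Inn n V₀ b q) (hn : 1 ≤ n) (ha : aa n ≤ 1 / 10 ^ 8) (hV : 0 < V₀) (hb : b ∈ Bx) :
    Pol (aa n) b (fun r => Real.log ‖Qr q r‖) (xx q) (yy q) (fun r => TT (‖Qr q r‖ ^ (2 * n))) := by
  have hn' : (0 : ℝ) < n := by exact_mod_cast hn
  have hs : ContDiff ℝ ∞ (Qr q) := contDiff_Qr h.smooth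
  have c0 : Continuous (Qr q) := hs.continuous
  have c1 : Continuous (deriv (Qr q)) := hs.continuous_deriv (by simp)
  have cw : Continuous fun r => deriv (Qr q) r / Qr q r := c1.div c0 (h.ne hn hV)
  have d0 : deriv (Qr q) 0 = 0 := by
    have := (hasDerivAt_Qr (q := q) (r := 0) (h.smooth.differentiable (by simp) _)).deriv
    simpa using this
  exact
    { a0 := by unfold aa; positivity
      a1 := ha
      hb := hb
      cL := c0.norm.log fun r => norm_ne_zero_iff.2 (h.ne hn hV r)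
      cx := Complex.continuous_re.comp cw
      cy := Complex.continuous_im.comp cw
      cV := contDiff_TT.continuous.comp (c0.norm.pow _)
      x0 := by simp [xx, d0]
      y0 := by simp [yy, d0]
      dL := fun r hr => (h.solR hr.ne').dlog (h.ne hn hV r)
      dx := fun r hr => (h.solR hr.ne').dx (h.ne hn hV r)
      dy := fun r hr => (h.solR hr.ne').dy (h.ne hn hV r)
      V1 := fun r hr => by
        rw [exp_log_norm hn (h.ne hn hV r)] at hr ⊢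
        exact TT_eq hr
      V2 := fun r hr => by
        rw [exp_log_norm hn (h.ne hn hV r)] at hr
        exact TT_ge hr }

/-- an inner solution that exits downwards inside the window -/
structure Pre (n : ℕ) (V₀ b R : ℝ) (q : ℝ → ℂ) : Prop where
  inn : Inn n V₀ b q
  hn : 1 ≤ n
  ha : aa n ≤ 1 / 10 ^ 8
  hV : 0 < V₀
  hb : b ∈ Bx
  ex : Ex (aa n) (fun r => Real.log ‖Qr q r‖) R
  hR : R ∈ Icc (3.28936 : ℝ) 3.28948

theorem Pre.pol (h : Pre n V₀ b R q) :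
    Pol (aa n) b (fun r => Real.log ‖Qr q r‖) (xx q) (yy q) (fun r => TT (‖Qr q r‖ ^ (2 * n))) :=
  h.inn.pol h.hn h.ha h.hV h.hb

theorem Pre.in4_norm (h : Pre n V₀ b R q) (r : ℝ) : ‖Qr q r‖ = Real.exp (Real.log ‖Qr q r‖) :=
  (Real.exp_log (norm_pos_iff.2 (h.inn.ne h.hn h.hV r))).symm

/-- `Pol.all` -/
theorem Pre.norm_mem (h : Pre n V₀ b R q) (hr : r ∈ Icc (0 : ℝ) 3.3) :
    1 / 2 ≤ ‖Qr q r‖ ∧ ‖Qr q r‖ ≤ 1 ∧ ‖deriv (Qr q) r‖ ≤ 1 := by
  obtain ⟨hL, -, hx, hy, -⟩ := h.pol.all h.ex h.hR.1 hr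
  have e := h.in4_norm r
  have h1 : ‖Qr q r‖ ≤ 1 := by rw [e]; exact Real.exp_le_one_iff.2 hL.2
  have h2 := Real.add_one_le_exp (Real.log ‖Qr q r‖)
  have h3 := norm_deriv_le (h.inn.ne h.hn h.hV r)
  refine ⟨by linarith [hL.1], h1, h3.trans ?_⟩
  have h4 : |xx q r| + |yy q r| ≤ 1 := by linarith [hr.2]
  exact mul_le_one₀ h1 (by positivity) h4

/-- `‖Q'‖ ≤ |x| + |y| ≤ √(2a) + 7 a ≤ κ / 5`; `Q 0` is real with `log (Q 0) ∈ [-3a, 0]`; mean value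
inequality (`a ≤ 10⁻⁴ √a ≤ 10⁻⁵ κ`) -/
theorem Pre.flat (h : Pre n V₀ b R q) {κ : ℝ} (hκ : 0 < κ) (ha : aa n ≤ κ ^ 2 / 100)
    (hr : r ∈ Icc 0 R) : ‖Qr q r - 1‖ ≤ κ ∧ ‖deriv (Qr q) r‖ ≤ κ := by
  have a0 := h.pol.a0
  have a1 := h.ha
  have R1 := h.ex.R1
  have ha' : aa n ≤ κ / 10 ^ 5 := by
    refine le_of_sq_le_sq ?_ (by positivity)
    nlinarith
  have hd : ∀ s ∈ Icc 0 R, ‖deriv (Qr q) s‖ ≤ κ / 5 := fun s hs => by
    have h1 := (h.norm_mem ⟨hs.1, hs.2.trans R1⟩).2.1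
    have h2 : |xx q s| ≤ κ / 7 := by
      refine abs_le_of_sq_le_sq ?_ (by positivity)
      have := h.pol.x_sq_le h.ex hs
      nlinarith
    have h3 : |yy q s| ≤ 7 * aa n := by
      have := h.pol.abs_y_le h.ex hs
      nlinarith [hs.2]
    refine (norm_deriv_le (h.inn.ne h.hn h.hV s)).trans ?_
    refine (mul_le_of_le_one_left (by positivity) h1).trans ?_
    linarith
  refine ⟨?_, by linarith [hd r hr]⟩
  have hs : ContDiff ℝ ∞ (Qr q) := contDiff_Qr h.inn.smooth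
  have h1 : ‖Qr q r - Qr q 0‖ ≤ κ / 5 * ‖r - 0‖ :=
    (convex_Icc 0 R).norm_image_sub_le_of_norm_deriv_le
      (fun s _ => hs.differentiable (by simp) s) hd ⟨le_rfl, h.ex.R0.le⟩ hr
  rw [sub_zero, Real.norm_of_nonneg hr.1] at h1
  have h2 : ‖Qr q 0 - 1‖ ≤ 3 * aa n := by
    have hL := h.pol.L_mem h.ex ⟨le_rfl, h.ex.R0.le⟩
    have h3 := Real.add_one_le_exp (Real.log ‖Qr q 0‖)
    have h4 := (h.norm_mem ⟨le_rfl, by norm_num⟩).2.1
    rw [← h.in4_norm 0] at h3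
    have e : Qr q 0 = ((‖Qr q 0‖ : ℝ) : ℂ) := by
      rw [in4_Qr0, h.inn.init, Complex.norm_real, Real.norm_of_nonneg (Real.rpow_nonneg h.hV.le _)]
    rw [e, ← Complex.ofReal_one, ← Complex.ofReal_sub, Complex.norm_real, Real.norm_eq_abs, abs_le]
    constructor <;> linarith [hL.1]
  have h3 : κ / 5 * r ≤ κ / 5 * 3.3 := mul_le_mul_of_nonneg_left (hr.2.trans R1) (by positivity)
  have h4 := norm_sub_le_norm_sub_add_norm_sub (Qr q r) (Qr q 0) 1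
  linarith

/-- for `r > 0` from `Inn.solR`, `norm_deriv_le`, `Pol.all`; at `r = 0` by continuity -/
theorem Pre.d2_le (h : Pre n V₀ b R q) (hr : r ∈ Icc (0 : ℝ) 3.3) :
    ‖deriv (deriv (Qr q)) r‖ ≤ 10 := by
  have hs : ContDiff ℝ ∞ (Qr q) := contDiff_Qr h.inn.smooth
  have c2 : Continuous (deriv (deriv (Qr q))) :=
    (contDiff_infty_iff_deriv.1 hs).2.continuous_deriv (by simp)
  have key : ∀ s ∈ Ioc (0 : ℝ) 3.3, ‖deriv (deriv (Qr q)) s‖ ≤ 10 := fun s hs => by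
    have hs' : s ∈ Icc (0 : ℝ) 3.3 := Ioc_subset_Icc_self hs
    obtain ⟨-, hx, -, hy, -⟩ := h.pol.all h.ex h.hR.1 hs'
    have h1 := (h.norm_mem hs').2.1
    have h2 : ‖deriv (Qr q) s‖ ≤ s / 5 := by
      refine (norm_deriv_le (h.inn.ne h.hn h.hV s)).trans ?_
      refine (mul_le_of_le_one_left (by positivity) h1).trans ?_
      linarith [hs.1]
    have h3 : ‖-(11 / (s : ℂ) + Complex.I * s / 2)‖ ≤ 11 / s + s / 2 := by
      rw [norm_neg]
      refine (norm_add_le _ _).trans (le_of_eq ?_)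
      simp [abs_of_pos hs.1]
    have h4 : ‖Qr q s‖ ^ (2 * n) ≤ 1 := pow_le_one₀ (norm_nonneg _) h1
    have h5 : ‖((TT (‖Qr q s‖ ^ (2 * n)) : ℝ) : ℂ) - b - Complex.I * aa n‖ ≤ 3 := by
      rw [TT_eq (by linarith)]
      refine (norm_sub_le _ _).trans ((add_le_add (norm_sub_le _ _) le_rfl).trans ?_)
      rw [norm_mul, Complex.norm_I, one_mul, Complex.norm_real, Complex.norm_real, Complex.norm_real,
        Real.norm_of_nonneg (by positivity), Real.norm_of_nonneg (by linarith [h.hb.1]),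
        Real.norm_of_nonneg h.pol.a0.le]
      linarith [h.hb.2, h.ha]
    rw [(h.inn.solR hs.1.ne').2.deriv]
    refine (norm_add_le _ _).trans ?_
    rw [norm_mul, norm_mul]
    have h6 := mul_le_mul h3 h2 (norm_nonneg _) (by have := hs.1; positivity)
    have h7 := mul_le_mul h5 h1 (norm_nonneg _) (by norm_num)
    have h8 : (11 / s + s / 2) * (s / 5) = 11 / 5 + s ^ 2 / 10 := by
      have := hs.1.ne'
      field_simp
      ring
    nlinarith [hs.1, hs.2]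
  have hc : IsClosed {s : ℝ | ‖deriv (deriv (Qr q)) s‖ ≤ 10} := isClosed_le c2.norm continuous_const
  have := hc.closure_subset_iff.2 key
  rw [closure_Ioc (by norm_num)] at this
  exact this hr

theorem Pre.flow (h : Pre n V₀ b R q) (hr : r ∈ Ioc (0 : ℝ) 3.3) :
    2 / 5 ≤ 1 / 2 + 2 * yy q r / r ∧ 1 / 2 + 2 * yy q r / r ≤ 3 / 5 ∧ |r * xx q r| ≤ 1 ∧
      (11 + 2 * r * xx q r) * (1 / 2 + 2 * yy q r / r) ≤ 6.28 := by
  obtain ⟨-, -, hx, hy, -⟩ := h.pol.all h.ex h.hR.1 (Ioc_subset_Icc_self hr)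
  have h1 : |2 * yy q r / r| ≤ 1 / 500 := by
    rw [abs_div, abs_mul, abs_of_pos hr.1, abs_two, div_le_iff₀ hr.1]
    linarith
  have h2 : |r * xx q r| ≤ 0.033 := by
    rw [abs_mul, abs_of_pos hr.1]
    nlinarith [hr.1, hr.2, abs_nonneg (xx q r)]
  rw [abs_le] at h1
  refine ⟨by linarith [h1.1], by linarith [h1.2], by linarith, ?_⟩
  rw [abs_le] at h2
  rw [mul_assoc]
  nlinarith [h1.1, h1.2, h2.1, h2.2]

theorem Pre.repul (h : Pre n V₀ b R q) (hr : r ∈ Icc (0 : ℝ) 3.3) : 2 * n * r * xx q r ≤ 2 / 5 := by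
  have hn' : (0 : ℝ) < n := by exact_mod_cast h.hn
  refine (le_of_eq ?_).trans (h.pol.all h.ex h.hR.1 hr).2.2.2.2
  unfold aa
  field_simp

theorem Pre.plateau (h : Pre n V₀ b R q) (hr : r ∈ Icc 0 R) : (1 / 12 : ℝ) ≤ ‖Qr q r‖ ^ (2 * n) := by
  rw [← exp_log_norm h.hn (h.inn.ne h.hn h.hV r)]
  exact h.ex.lo r hr

/-- `Pol.two`, `Pol.L_mem` -/
theorem Pre.decay (h : Pre n V₀ b R q) {η : ℝ} (hη : 0 ≤ η) (hr : r ∈ Icc (R + η) 3.3) :
    ‖Qr q r‖ ≤ Real.exp (-(0.1 * η ^ 2)) := by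
  have h1 := (h.pol.two h.ex h.hR.1 ⟨by linarith [hr.1], hr.2⟩).2.2.2
  have h2 := (h.pol.L_mem h.ex ⟨h.ex.R0.le, le_rfl⟩).2
  have h3 : η ^ 2 ≤ (r - R) ^ 2 := pow_le_pow_left₀ hη (by linarith [hr.1]) 2
  rw [h.in4_norm r]
  exact Real.exp_le_exp.2 (by linarith)

/-- `Pol.hand`, `Pol.amp` -/
theorem Pre.hand (h : Pre n V₀ b R q) : Hand (Real.sqrt (1 - 1 / 10 ^ 8)) q := by
  have h1 := h.pol.hand h.ex h.hR.1 h.hR.2
  have h2 := h.pol.amp h.ex h.hR.1 h.hR.2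
  refine ⟨h.inn.ne h.hn h.hV _, h1.1, h1.2, ?_⟩
  rw [Real.sq_sqrt (by norm_num), h.in4_norm 3.3, ← Real.exp_nat_mul]
  exact_mod_cast h2

/-- `Wr_sub_le` with `δ = exp (-0.1 η² / a)` (`Pol.two_V`), `Wr Q Q' R / (R^11 e^{..} Q' R) = Q w' - Q'`,
`R ^ 11 ≥ 10 ^ 5` -/
theorem Pre.match_est (h : Pre n V₀ b R q) {Q' : ℝ → ℂ} {Ψ : ℝ → ℝ} {C ε η κ : ℝ} (hη : 0 ≤ η)
    (hκ : 0 < κ) (ha : aa n ≤ κ ^ 2 / 100) (hC : 1 ≤ C)
    (h' : ∀ s ∈ Icc R 3.3, SolR (aa n) b Ψ Q' s ∧ ‖Q' s‖ ≤ C ∧ |Ψ s| ≤ ε) (h1 : 1 / C ≤ ‖Q' R‖)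
    (h2 : ‖deriv Q' R / Q' R‖ ≤ 1) :
    ‖Wr (Qr q) Q' 3.3 / ((R : ℂ) ^ 11 * Complex.exp (Complex.I * (R : ℂ) ^ 2 / 4) * Q' R)
      - deriv Q' R / Q' R‖ ≤
      10 * C ^ 2 * (ε + η + Real.exp (-(0.1 * η ^ 2 / aa n))) + 2 * κ := by
  have a0 := h.pol.a0
  have R0 := h.hR.1
  have R1 := h.ex.R1
  have hε : 0 ≤ ε := (abs_nonneg _).trans (h' R ⟨le_rfl, R1⟩).2.2
  have hW := Wr_sub_le (R := R) (C := C) (ε := ε) (η := η)
    (δ := Real.exp (-(0.1 * η ^ 2 / aa n))) (by linarith) R1 hη (Real.exp_pos _).le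
    fun s hs => by
      have hV := h.pol.two_V h.ex R0 hs
      refine ⟨h.inn.solR (by linarith [hs.1]), (h' s hs).1,
        (h.norm_mem ⟨by linarith [hs.1], hs.2⟩).2.1, (h' s hs).2.1, (h' s hs).2.2, ?_, fun h3 => ?_⟩
      · rw [abs_of_nonneg hV.1]
        exact hV.2.trans (Real.exp_le_one_iff.2 (neg_nonpos.2 (by positivity)))
      · rw [abs_of_nonneg hV.1]
        refine hV.2.trans (Real.exp_le_exp.2 (neg_le_neg ?_))
        have h4 : η ^ 2 ≤ (s - R) ^ 2 := pow_le_pow_left₀ hη (by linarith) 2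
        exact div_le_div_of_nonneg_right (by linarith) a0.le
  have hC0 : 0 < 1 / C := by positivity
  have n1 : Q' R ≠ 0 := norm_pos_iff.1 (hC0.trans_le h1)
  have n2 : (R : ℂ) ≠ 0 := Complex.ofReal_ne_zero.2 (by linarith)
  have n3 := Complex.exp_ne_zero (Complex.I * (R : ℂ) ^ 2 / 4)
  have hD : 10 ^ 5 * (1 / C) ≤
      ‖(R : ℂ) ^ 11 * Complex.exp (Complex.I * (R : ℂ) ^ 2 / 4) * Q' R‖ := by
    have e : Complex.I * (R : ℂ) ^ 2 / 4 = ((R ^ 2 / 4 : ℝ) : ℂ) * Complex.I := by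
      push_cast
      ring
    rw [norm_mul, norm_mul, e, Complex.norm_exp_ofReal_mul_I, mul_one, norm_pow, Complex.norm_real,
      Real.norm_of_nonneg (by linarith)]
    have h3 : (3 : ℝ) ^ 11 ≤ R ^ 11 := pow_le_pow_left₀ (by norm_num) (by linarith) 11
    exact mul_le_mul (by linarith) h1 hC0.le (by positivity)
  have hf := h.flat hκ ha ⟨h.ex.R0.le, le_rfl⟩
  have e : Wr (Qr q) Q' 3.3 / ((R : ℂ) ^ 11 * Complex.exp (Complex.I * (R : ℂ) ^ 2 / 4) * Q' R)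
      - deriv Q' R / Q' R = (Wr (Qr q) Q' 3.3 - Wr (Qr q) Q' R) /
        ((R : ℂ) ^ 11 * Complex.exp (Complex.I * (R : ℂ) ^ 2 / 4) * Q' R) +
        ((Qr q R - 1) * (deriv Q' R / Q' R) - deriv (Qr q) R) := by
    generalize Wr (Qr q) Q' 3.3 = W
    rw [Wr]
    field_simp
    ring
  rw [e]
  refine (norm_add_le _ _).trans (add_le_add ?_ ((norm_sub_le _ _).trans ?_))
  · rw [norm_div, div_le_iff₀ (lt_of_lt_of_le (by positivity) hD)]
    refine hW.trans (le_trans (le_of_eq ?_) (mul_le_mul_of_nonneg_left hD (by positivity)))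
    field_simp
  · rw [norm_mul]
    have h3 := mul_le_mul hf.1 h2 (norm_nonneg _) hκ.le
    linarith [hf.2]

end

end Crest.Agent.R086.P
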