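import Crest.Agent.R086.P.Defs

/-! Row 86, part P: the singular initial value problem `ρ q'' + (6 + iρ) q' = G (q)` as a Volterra
equation on the whole line. -/

set_option autoImplicit false

open Set Filter Topology
open scoped ContDiff

namespace Crest.Agent.R086.P

noncomputable section

/-- `II φ g s = ∫_0^1 φ(t) e^{is(t-1)} g(ts) dt` -/
def II (φ g : ℝ → ℂ) (s : ℝ) : ℂ :=
  ∫ t in (0 : ℝ)..1, φ t * Complex.exp (Complex.I * s * (t - 1)) * g (t * s)

theorem ivp_cont {X : Type} [TopologicalSpace X] {φ : ℝ → ℂ} {g : X → ℝ → ℂ} (hφ : Continuous φ)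
    (hg : Continuous (Function.uncurry g)) : Continuous fun z : X × ℝ => II φ (g z.1) z.2 := by
  refine intervalIntegral.continuous_parametric_intervalIntegral_of_continuous'
    (f := fun (z : X × ℝ) (t : ℝ) => φ t * Complex.exp (Complex.I * z.2 * (t - 1)) * g z.1 (t * z.2))
    ?_ 0 1
  have h1 : Continuous fun w : (X × ℝ) × ℝ => g w.1.1 (w.2 * w.1.2) :=
    hg.comp (f := fun w : (X × ℝ) × ℝ => (w.1.1, w.2 * w.1.2)) (by fun_prop)
  exact Continuous.mul (by fun_prop) h1

theorem ivp_cont' {φ g : ℝ → ℂ} (hφ : Continuous φ) (hg : Continuous g) : Continuous (II φ g) :=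
  (ivp_cont (g := fun _ : Unit => g) hφ (hg.comp continuous_snd)).comp
    (f := fun s : ℝ => ((), s)) (by fun_prop)

theorem ivp_sub {φ g g' : ℝ → ℂ} (hφ : Continuous φ) (hg : Continuous g) (hg' : Continuous g')
    (s : ℝ) : II φ g s - II φ g' s = II φ (fun τ => g τ - g' τ) s := by
  unfold II
  rw [← intervalIntegral.integral_sub (Continuous.intervalIntegrable (by fun_prop) _ _)
    (Continuous.intervalIntegrable (by fun_prop) _ _)]
  congr 1
  funext t
  ring

theorem ivp_norm {g : ℝ → ℂ} {K L : ℝ} (hK : 0 ≤ K) (hL : 0 ≤ L)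
    (h : ∀ τ, ‖g τ‖ ≤ K * Real.exp (L * |τ|)) (s : ℝ) :
    ‖II (fun t => (t : ℂ) ^ 5) g s‖ ≤ K * Real.exp (L * |s|) := by
  refine (intervalIntegral.norm_integral_le_of_norm_le_const (C := K * Real.exp (L * |s|))
    fun t ht => ?_).trans (by simp)
  rw [uIoc_of_le zero_le_one] at ht
  have h1 : |t| ≤ 1 := by rw [abs_of_pos ht.1]; exact ht.2
  have h2 : ‖Complex.exp (Complex.I * s * (t - 1))‖ = 1 := by
    rw [← Complex.norm_exp_I_mul_ofReal (s * (t - 1))]
    push_cast
    rw [mul_assoc]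
  have h3 : ‖(t : ℂ) ^ 5‖ ≤ 1 := by
    rw [norm_pow, Complex.norm_real, Real.norm_eq_abs]
    exact pow_le_one₀ (abs_nonneg t) h1
  rw [norm_mul, norm_mul, h2, mul_one]
  refine (mul_le_of_le_one_left (norm_nonneg _) h3).trans ((h _).trans ?_)
  rw [abs_mul]
  gcongr
  exact mul_le_of_le_one_left (abs_nonneg s) h1

theorem ivp_prim {f : ℝ → ℂ} {K L : ℝ} (hK : 0 ≤ K) (hL : 0 < L)
    (h : ∀ s, ‖f s‖ ≤ K * Real.exp (L * |s|)) (ρ : ℝ) :
    ‖∫ s in (0 : ℝ)..ρ, f s‖ ≤ K / L * Real.exp (L * |ρ|) := by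
  have key : ∀ (f : ℝ → ℂ), (∀ s, ‖f s‖ ≤ K * Real.exp (L * |s|)) → ∀ ρ, 0 ≤ ρ →
      ‖∫ s in (0 : ℝ)..ρ, f s‖ ≤ K / L * Real.exp (L * |ρ|) := by
    intro f h ρ hρ
    refine (intervalIntegral.norm_integral_le_of_norm_le (g := fun s => K * Real.exp (L * s)) hρ
      (Eventually.of_forall fun s hs => ?_) (Continuous.intervalIntegrable (by fun_prop) _ _)).trans ?_
    · simpa only [abs_of_pos hs.1] using h s
    · have hd : ∀ s ∈ uIcc 0 ρ, HasDerivAt (fun s => K / L * Real.exp (L * s))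
          (K * Real.exp (L * s)) s := fun s _ => by
        refine ((((hasDerivAt_id' s).const_mul L).exp).const_mul (K / L)).congr_deriv ?_
        field_simp
      rw [intervalIntegral.integral_eq_sub_of_hasDerivAt hd
        (Continuous.intervalIntegrable (by fun_prop) _ _), abs_of_nonneg hρ]
      exact sub_le_self _ (by positivity)
  rcases le_total 0 ρ with hρ | hρ
  · exact key f h ρ hρ
  · have h1 := key (fun s => f (-s)) (fun s => by simpa using h (-s)) (-ρ) (neg_nonneg.2 hρ)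
    rw [intervalIntegral.integral_comp_neg, neg_neg, neg_zero, intervalIntegral.integral_symm,
      norm_neg, abs_neg] at h1
    exact h1

/-- Contraction (constant `≤ 1/6`, or `1/2` with cruder bounds) for `u = e^{-L|ρ|} q`, `L = Λ + 1` say, in
`BoundedContinuousFunction ((ℝ × ℝ) × ℝ) ℂ`; continuity of the image by
`intervalIntegral.continuous_parametric_intervalIntegral_of_continuous'` and
`intervalIntegral.continuous_parametric_primitive_of_continuous`; `‖G p u‖ ≤ Λ ‖u‖`;
`|∫_0^ρ e^{L|s|} ds| ≤ e^{L|ρ|} / L`. -/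
theorem exists_volterra {G : ℝ × ℝ → ℂ → ℂ} {q₀ : ℝ × ℝ → ℂ} {Λ B : ℝ}
    (hG : Continuous (Function.uncurry G)) (hL : ∀ p u v, ‖G p u - G p v‖ ≤ Λ * ‖u - v‖)
    (hG0 : ∀ p, G p 0 = 0) (hq₀ : Continuous q₀) (hB : ∀ p, ‖q₀ p‖ ≤ B) :
    ∃ q : ℝ × ℝ → ℝ → ℂ, Continuous (Function.uncurry q) ∧ ∀ p ρ,
      q p ρ = q₀ p + ∫ s in (0 : ℝ)..ρ, II (fun t => (t : ℂ) ^ 5) (fun τ => G p (q p τ)) s := by
  have hΛ : 0 ≤ Λ := by simpa using (norm_nonneg _).trans (hL 0 1 0)
  set L := 2 * Λ + 1 with hLdef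
  have hL0 : 0 < L := by positivity
  have h5 : Continuous fun t : ℝ => (t : ℂ) ^ 5 := by fun_prop
  let g : BoundedContinuousFunction ((ℝ × ℝ) × ℝ) ℂ → ℝ × ℝ → ℝ → ℂ :=
    fun u p τ => G p (Real.exp (L * |τ|) * u (p, τ))
  have hg : ∀ u, Continuous (Function.uncurry (g u)) := fun u =>
    hG.comp (f := fun z : (ℝ × ℝ) × ℝ => (z.1, (Real.exp (L * |z.2|) : ℂ) * u (z.1, z.2)))
      (by fun_prop)
  have hg' : ∀ u p, Continuous (g u p) := fun u p => (hg u).comp (Continuous.prodMk_right p)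
  let T : BoundedContinuousFunction ((ℝ × ℝ) × ℝ) ℂ → (ℝ × ℝ) × ℝ → ℂ := fun u z =>
    (Real.exp (-(L * |z.2|)) : ℂ) *
      (q₀ z.1 + ∫ s in (0 : ℝ)..z.2, II (fun t => (t : ℂ) ^ 5) (g u z.1) s)
  have hTc : ∀ u, Continuous (T u) := fun u =>
    Continuous.mul (by fun_prop) ((hq₀.comp continuous_fst).add
      (intervalIntegral.continuous_parametric_primitive_of_continuous
        (f := fun p s => II (fun t => (t : ℂ) ^ 5) (g u p) s) (ivp_cont h5 (hg u))))
  have hest : ∀ (f : ℝ → ℂ) (K : ℝ), 0 ≤ K → (∀ τ, ‖f τ‖ ≤ Λ * K * Real.exp (L * |τ|)) → ∀ ρ : ℝ,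
      ‖(Real.exp (-(L * |ρ|)) : ℂ) * ∫ s in (0 : ℝ)..ρ, II (fun t => (t : ℂ) ^ 5) f s‖ ≤
        1 / 2 * K := fun f K hK hf ρ => by
    have h1 := ivp_prim (by positivity) hL0 (ivp_norm (by positivity) hL0.le hf) ρ
    rw [norm_mul, Complex.norm_real, Real.norm_eq_abs, abs_of_pos (Real.exp_pos _), Real.exp_neg,
      inv_mul_le_iff₀ (Real.exp_pos _), mul_comm]
    refine h1.trans (mul_le_mul_of_nonneg_right ?_ (Real.exp_pos _).le)
    rw [div_le_iff₀ hL0, hLdef]
    nlinarith
  have hTb : ∀ u z, ‖T u z‖ ≤ B + 1 / 2 * ‖u‖ := fun u z => by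
    simp only [T, mul_add]
    refine (norm_add_le _ _).trans (add_le_add ?_ (hest _ _ (norm_nonneg u) (fun τ => ?_) _))
    · rw [norm_mul, Complex.norm_real, Real.norm_eq_abs, abs_of_pos (Real.exp_pos _)]
      refine (mul_le_of_le_one_left (norm_nonneg _) (Real.exp_le_one_iff.2 ?_)).trans (hB _)
      exact neg_nonpos.2 (by positivity)
    · have h1 := hL z.1 (Real.exp (L * |τ|) * u (z.1, τ)) 0
      rw [hG0, sub_zero, sub_zero, norm_mul, Complex.norm_real, Real.norm_eq_abs,
        abs_of_pos (Real.exp_pos _), mul_comm (Real.exp _), ← mul_assoc] at h1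
      refine h1.trans ?_
      gcongr
      exact u.norm_coe_le_norm _
  let S : BoundedContinuousFunction ((ℝ × ℝ) × ℝ) ℂ → BoundedContinuousFunction ((ℝ × ℝ) × ℝ) ℂ :=
    fun u => BoundedContinuousFunction.ofNormedAddCommGroup (T u) (hTc u) _ (hTb u)
  have hS : ContractingWith (1 / 2) S := by
    refine ⟨by norm_num, LipschitzWith.of_dist_le_mul fun u v => ?_⟩
    refine (BoundedContinuousFunction.dist_le (by positivity)).2 fun z => ?_
    change dist (T u z) (T v z) ≤ _
    have e : T u z - T v z = (Real.exp (-(L * |z.2|)) : ℂ) *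
        ∫ s in (0 : ℝ)..z.2, II (fun t => (t : ℂ) ^ 5) (fun τ => g u z.1 τ - g v z.1 τ) s := by
      simp only [T, ← ivp_sub h5 (hg' u z.1) (hg' v z.1)]
      rw [intervalIntegral.integral_sub ((ivp_cont' h5 (hg' u z.1)).intervalIntegrable _ _)
        ((ivp_cont' h5 (hg' v z.1)).intervalIntegrable _ _)]
      ring
    rw [dist_eq_norm, e]
    refine (hest _ (dist u v) dist_nonneg (fun τ => ?_) _).trans (le_of_eq (by norm_num))
    refine (hL _ _ _).trans ?_
    rw [← mul_sub, norm_mul, Complex.norm_real, Real.norm_eq_abs, abs_of_pos (Real.exp_pos _),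
      mul_comm (Real.exp _), ← mul_assoc, ← dist_eq_norm]
    gcongr
    exact BoundedContinuousFunction.dist_coe_le_dist _
  obtain ⟨u, hu⟩ : ∃ u, S u = u := ⟨_, hS.fixedPoint_isFixedPt⟩
  refine ⟨fun p τ => Real.exp (L * |τ|) * u (p, τ), ?_, fun p ρ => ?_⟩
  · change Continuous fun z : (ℝ × ℝ) × ℝ => (Real.exp (L * |z.2|) : ℂ) * u (z.1, z.2)
    fun_prop
  · have h1 : T u (p, ρ) = u (p, ρ) := congrArg (fun w => w (p, ρ)) hu
    simp only
    rw [← h1]
    simp only [T]
    rw [← mul_assoc, ← Complex.ofReal_mul, ← Real.exp_add, add_neg_cancel, Real.exp_zero,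
      Complex.ofReal_one, one_mul]

theorem continuous_II_param {φ : ℝ → ℂ} {g : ℝ × ℝ → ℝ → ℂ} (hφ : Continuous φ)
    (hg : Continuous (Function.uncurry g)) :
    Continuous fun z : (ℝ × ℝ) × ℝ => II φ (g z.1) z.2 := by
  exact ivp_cont hφ hg

/-- differentiation under the integral (`intervalIntegral.hasDerivAt_integral_of_dominated_loc_of_deriv_le`,
the bound from compactness) -/
theorem hasDerivAt_II {φ g : ℝ → ℂ} (hφ : Continuous φ) (hg : ContDiff ℝ 1 g) (s : ℝ) :
    HasDerivAt (II φ g) (II (fun t => φ t * (Complex.I * (t - 1))) g s +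
      II (fun t => φ t * t) (deriv g) s) s := by
  have hg0 := hg.continuous
  have hg1 := hg.continuous_deriv_one
  let F' : ℝ → ℝ → ℂ := fun x t =>
    φ t * (Complex.I * (t - 1)) * Complex.exp (Complex.I * x * (t - 1)) * g (t * x) +
      φ t * t * Complex.exp (Complex.I * x * (t - 1)) * deriv g (t * x)
  have hF' : Continuous fun z : ℝ × ℝ => F' z.1 z.2 := by
    simp only [F']
    fun_prop
  obtain ⟨C, hC⟩ := ((isCompact_Icc (a := s - 1) (b := s + 1)).prod
    (isCompact_Icc (a := (0 : ℝ)) (b := 1))).exists_bound_of_continuousOn hF'.continuousOn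
  have h := (intervalIntegral.hasDerivAt_integral_of_dominated_loc_of_deriv_le
    (μ := MeasureTheory.volume) (a := 0) (b := 1) (bound := fun _ => C)
    (F := fun (x : ℝ) (t : ℝ) => φ t * Complex.exp (Complex.I * x * (t - 1)) * g (t * x))
    (F' := F') (x₀ := s) (Icc_mem_nhds (sub_one_lt s) (lt_add_one s))
    (Eventually.of_forall fun x => Continuous.aestronglyMeasurable (by fun_prop))
    (Continuous.intervalIntegrable (by fun_prop) _ _)
    (hF'.comp (Continuous.prodMk_right s)).aestronglyMeasurable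
    (Eventually.of_forall fun t ht x hx => hC (x, t) ⟨hx, by
      rw [uIoc_of_le zero_le_one] at ht; exact Ioc_subset_Icc_self ht⟩)
    intervalIntegrable_const (Eventually.of_forall fun t _ x _ => ?_)).2
  · refine h.congr_deriv ?_
    unfold II
    rw [← intervalIntegral.integral_add (Continuous.intervalIntegrable (by fun_prop) _ _)
      (Continuous.intervalIntegrable (by fun_prop) _ _)]
  · have d1 := (((Complex.ofRealCLM.hasDerivAt (x := x)).const_mul Complex.I).mul_const
      ((t : ℂ) - 1)).cexp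
    have d2 := (hg.differentiable one_ne_zero (t * x)).hasDerivAt.scomp x
      ((hasDerivAt_id' x).const_mul t)
    refine ((d1.const_mul (φ t)).fun_mul d2).congr_deriv ?_
    simp only [F', Complex.ofRealCLM_apply, Function.comp_apply, Complex.real_smul]
    push_cast
    ring

/-- induction on `k`, for all `φ, g` at once (`contDiff_succ_iff_deriv`) -/
theorem contDiff_II (k : ℕ) {φ g : ℝ → ℂ} (hφ : Continuous φ) (hg : ContDiff ℝ k g) :
    ContDiff ℝ k (II φ g) := by
  induction k generalizing φ g with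
  | zero => exact contDiff_zero.2 (ivp_cont' hφ hg.continuous)
  | succ k ih =>
    have h1 : ContDiff ℝ 1 g := hg.of_le (by exact_mod_cast Nat.le_add_left 1 k)
    have h2 : deriv (II φ g) = fun s => II (fun t => φ t * (Complex.I * (t - 1))) g s +
        II (fun t => φ t * t) (deriv g) s := funext fun s => (hasDerivAt_II hφ h1 s).deriv
    rw [Nat.cast_succ] at hg ⊢
    refine contDiff_succ_iff_deriv.2 ⟨fun s => (hasDerivAt_II hφ h1 s).differentiableAt,
      by simp, ?_⟩
    rw [h2]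
    exact (ih (by fun_prop) hg.of_succ).add (ih (by fun_prop) (contDiff_succ_iff_deriv.1 hg).2.2)

/-- for `s ≠ 0`: `s⁶ e^{is} II = ∫_0^s τ⁵ e^{iτ} g τ dτ` (`intervalIntegral.smul_integral_comp_mul_right`),
differentiate; for `s = 0`: `∫_0^1 t⁵ = 1/6` -/
theorem II_ode {g : ℝ → ℂ} (hg : ContDiff ℝ 1 g) (s : ℝ) :
    (s : ℂ) * deriv (II (fun t => (t : ℂ) ^ 5) g) s + (6 + Complex.I * s) *
      II (fun t => (t : ℂ) ^ 5) g s = g s := by
  have hg0 := hg.continuous
  have hg1 := hg.continuous_deriv_one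
  rw [(hasDerivAt_II (by fun_prop) hg s).deriv]
  unfold II
  rw [← intervalIntegral.integral_add (Continuous.intervalIntegrable (by fun_prop) _ _)
      (Continuous.intervalIntegrable (by fun_prop) _ _), ← intervalIntegral.integral_const_mul,
    ← intervalIntegral.integral_const_mul,
    ← intervalIntegral.integral_add (Continuous.intervalIntegrable (by fun_prop) _ _)
      (Continuous.intervalIntegrable (by fun_prop) _ _),
    intervalIntegral.integral_eq_sub_of_hasDerivAt
      (f := fun t : ℝ => (t : ℂ) ^ 6 * Complex.exp (Complex.I * s * (t - 1)) * g (t * s))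
      (fun t _ => ?_) (Continuous.intervalIntegrable (by fun_prop) _ _)]
  · simp
  · have d0 := (Complex.ofRealCLM.hasDerivAt (x := t)).fun_pow 6
    have d1 := (((Complex.ofRealCLM.hasDerivAt (x := t)).sub_const 1).const_mul
      (Complex.I * s)).cexp
    have d2 := (hg.differentiable one_ne_zero (t * s)).hasDerivAt.scomp t
      ((hasDerivAt_id' t).mul_const s)
    refine ((d0.fun_mul d1).fun_mul d2).congr_deriv ?_
    simp only [Complex.ofRealCLM_apply, Function.comp_apply, Complex.real_smul]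
    push_cast
    ring

/-- bootstrap: `q ∈ C^k ⇒ G ∘ q ∈ C^k ⇒ q' ∈ C^k` -/
theorem volterra_smooth {G : ℂ → ℂ} {q : ℝ → ℂ} {c : ℂ} (hG : ContDiff ℝ ∞ G) (hq : Continuous q)
    (h : ∀ ρ, q ρ = c + ∫ s in (0 : ℝ)..ρ, II (fun t => (t : ℂ) ^ 5) (fun τ => G (q τ)) s) :
    ContDiff ℝ ∞ q ∧ deriv q = II (fun t => (t : ℂ) ^ 5) (fun τ => G (q τ)) ∧ q 0 = c ∧
      ∀ ρ : ℝ, (ρ : ℂ) * deriv (deriv q) ρ + (6 + Complex.I * ρ) * deriv q ρ = G (q ρ) := by
  have h5 : Continuous fun t : ℝ => (t : ℂ) ^ 5 := by fun_prop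
  have hf := ivp_cont' h5 (hG.continuous.comp hq)
  have hd : ∀ ρ, HasDerivAt q (II (fun t => (t : ℂ) ^ 5) (fun τ => G (q τ)) ρ) ρ := fun ρ => by
    have := (hf.integral_hasStrictDerivAt 0 ρ).hasDerivAt.const_add c
    exact this.congr_of_eventuallyEq (Eventually.of_forall h)
  have hd' : deriv q = II (fun t => (t : ℂ) ^ 5) (fun τ => G (q τ)) := funext fun ρ => (hd ρ).deriv
  have hk : ∀ k : ℕ, ContDiff ℝ k q := fun k => by
    induction k with
    | zero => exact contDiff_zero.2 hq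
    | succ k ih =>
      rw [Nat.cast_succ]
      refine contDiff_succ_iff_deriv.2 ⟨fun ρ => (hd ρ).differentiableAt, by simp, ?_⟩
      rw [hd']
      exact contDiff_II k h5 ((contDiff_infty.1 hG k).comp ih)
  refine ⟨contDiff_infty.2 hk, hd', by simpa using h 0, fun ρ => ?_⟩
  rw [hd']
  exact II_ode (by exact_mod_cast (contDiff_infty.1 hG 1).comp (hk 1)) ρ

end

end Crest.Agent.R086.P
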