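import Crest.Agent.R086.P.Good

/-! Row 86, part P: matching by the Poincaré–Miranda theorem. -/

set_option autoImplicit false

open Set Filter Topology
open scoped ContDiff

namespace Crest.Agent.R086.P

noncomputable section

/-- the cutoff on the window -/
def chi (R : ℝ) : ℝ := max 0 (min 1 (min ((R - 3.28936) * 10 ^ 5) ((3.28948 - R) * 10 ^ 5)))

theorem continuous_chi : Continuous chi := by unfold chi; fun_prop

theorem chi_nonneg (R : ℝ) : 0 ≤ chi R := le_max_left _ _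

theorem chi_le_one (R : ℝ) : chi R ≤ 1 := max_le zero_le_one (min_le_left _ _)

theorem chi_pos {R : ℝ} (h : chi R ≠ 0) : R ∈ Ioo (3.28936 : ℝ) 3.28948 := by
  have h1 : 0 < chi R := (chi_nonneg R).lt_of_ne' h
  simp only [chi, lt_max_iff, lt_self_iff_false, false_or, lt_min_iff] at h1
  constructor <;> linarith [h1.2.1, h1.2.2]

theorem chi_one {R : ℝ} (h1 : 3.28937 ≤ R) (h2 : R ≤ 3.28947) : chi R = 1 := by
  unfold chi
  rw [min_eq_left (le_min (by linarith) (by linarith)), max_eq_right zero_le_one]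

theorem rho1 : (3.3 : ℝ) ^ 2 / 4 = 2.7225 := by norm_num

theorem deriv_Qr1 {f : ℝ → ℂ} (h : DifferentiableAt ℝ f 2.7225) :
    deriv (Qr f) 3.3 = deriv f 2.7225 * (((3.3 : ℝ) : ℂ) / 2) := by
  have := (hasDerivAt_Qr (q := f) (r := 3.3) (by rwa [rho1])).deriv
  rwa [rho1] at this

theorem Qr1 (f : ℝ → ℂ) : Qr f 3.3 = f 2.7225 := by rw [Qr, rho1]

theorem out_solR {θ C ε : ℝ} {n : ℕ} {qt : ℝ → ℝ → ℝ → ℂ} (hO : Out θ C ε n qt) {b γ : ℝ}
    (hb : b ∈ Bx) (hγ : γ ∈ Icc 0 (2 * C)) : ∃ Ψ : ℝ → ℝ, ∀ s ∈ Icc (3.28936 : ℝ) 3.3,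
      SolR (aa n) b Ψ (Qr (qt b γ)) s ∧ ‖Qr (qt b γ) s‖ ≤ C ∧ |Ψ s| ≤ ε := by
  obtain ⟨Ψ, hΨ⟩ := hO.ode b hb γ hγ
  refine ⟨fun s => Ψ (s ^ 2 / 4), fun s hs => ?_⟩
  have h1 : s ^ 2 / 4 ∈ Ioo (2.5 : ℝ) 3 := by constructor <;> nlinarith [hs.1, hs.2]
  refine ⟨solR_of_sol2 (by linarith [hs.1]) ?_ (hΨ _ (Ioo_subset_Icc_self h1)).2,
    (hO.size b hb γ hγ s hs).2, (hΨ _ (Ioo_subset_Icc_self h1)).1⟩
  filter_upwards [Ioo_mem_nhds h1.1 h1.2] with ρ hρ using (hΨ ρ (Ioo_subset_Icc_self hρ)).2.1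

theorem mt_of_zero {C ε V₀ b R γ : ℝ} {n : ℕ} {qt : ℝ → ℝ → ℝ → ℂ} {q : ℝ → ℂ}
    (hO : Out (Real.sqrt (1 - 1 / 10 ^ 8)) C ε n qt) (hC : 1 ≤ C) (h : Pre n V₀ b R q)
    (hγ : γ ∈ Icc 0 (2 * C)) (h1 : Wr (Qr q) (Qr (qt b γ)) 3.3 = 0)
    (h2 : ‖q 2.7225‖ = γ * ‖qt b γ 2.7225‖) : ∃ q' : ℝ → ℂ, Mt C ε n V₀ b R q q' := by
  have hb := h.hb
  obtain ⟨Ψ, hΨ⟩ := hO.ode b hb γ hγ
  have d1 : DifferentiableAt ℝ (qt b γ) 2.7225 := (hΨ _ (by norm_num)).2.1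
  have d2 : DifferentiableAt ℝ q 2.7225 := h.inn.smooth.differentiable (by simp) _
  have n1 : qt b γ 2.7225 ≠ 0 := by
    have := (hO.size b hb γ hγ 3.3 (by norm_num)).1
    rw [Qr1] at this
    exact norm_pos_iff.1 (lt_of_lt_of_le (by positivity) this)
  have w : q 2.7225 * deriv (qt b γ) 2.7225 = deriv q 2.7225 * qt b γ 2.7225 := by
    rw [Wr, deriv_Qr1 d1, deriv_Qr1 d2, Qr1, Qr1] at h1
    have h3 : (((3.3 : ℝ) : ℂ)) ≠ 0 := Complex.ofReal_ne_zero.2 (by norm_num)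
    have h4 := (mul_eq_zero.1 h1).resolve_left (mul_ne_zero (pow_ne_zero _ h3) (Complex.exp_ne_zero _))
    refine mul_right_cancel₀ (div_ne_zero h3 two_ne_zero) ?_
    linear_combination h4
  set c := q 2.7225 / qt b γ 2.7225 with hc
  have e0 : q 2.7225 = c * qt b γ 2.7225 := by rw [hc, div_mul_cancel₀ _ n1]
  have e1 : deriv q 2.7225 = deriv (fun ρ => c * qt b γ ρ) 2.7225 := by
    rw [deriv_const_mul _ d1, hc]
    field_simp
    linear_combination -w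
  have hn : ‖c‖ = γ := by
    rw [hc, norm_div, h2, mul_div_cancel_right₀ _ (norm_ne_zero_iff.2 n1)]
  have f0 : Qr (fun ρ => c * qt b γ ρ) 3.3 = Qr q 3.3 := by rw [Qr1, Qr1, e0]
  have f1 : deriv (Qr fun ρ => c * qt b γ ρ) 3.3 = deriv (Qr q) 3.3 := by
    rw [deriv_Qr1 (d1.const_mul c), deriv_Qr1 d2, e1]
  have fx : xx (fun ρ => c * qt b γ ρ) 3.3 = xx q 3.3 := by rw [xx, xx, f0, f1]
  have fy : yy (fun ρ => c * qt b γ ρ) 3.3 = yy q 3.3 := by rw [yy, yy, f0, f1]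
  have H := h.hand
  have T := hO.tail b hb γ hγ c hn
    ⟨by rw [f0]; exact H.ne, by rw [fx]; exact H.hx, by rw [fy]; exact H.hy,
      by rw [f0, fy]; exact H.amp⟩ (by rw [f0]; exact (h.norm_mem (by norm_num)).1)
  exact ⟨_, h, T, fun ρ hρ => h.inn.unique h.hn (abs_le.2 ⟨by linarith [hb.1], by linarith [hb.2]⟩)
    (by norm_num) (fun ρ hρ => ⟨T.ode ρ hρ, T.le1 ρ hρ⟩) e0 e1 hρ⟩

theorem exists_mt {C ε η κ : ℝ} {n : ℕ} {qt : ℝ → ℝ → ℝ → ℂ}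
    (hO : Out (Real.sqrt (1 - 1 / 10 ^ 8)) C ε n qt) (hC : 1 ≤ C) (hn : 1 ≤ n)
    (ha : aa n ≤ 1 / 10 ^ 8) (hη : 0 ≤ η) (hκ : 0 < κ) (haκ : aa n ≤ κ ^ 2 / 100)
    (hs : 10 * C ^ 2 * (ε + η + Real.exp (-(0.1 * η ^ 2 / aa n))) + 2 * κ < 1 / 10 ^ 8) :
    ∃ (V₀ b R : ℝ) (q q' : ℝ → ℂ), Mt C ε n V₀ b R q q' := by
  obtain ⟨q, hq0, hq1, hI⟩ := exists_inn hn
  set K : Set (ℝ × ℝ) := Icc (1 / 6 : ℝ) (1 / 2) ×ˢ Bx with hK
  let g : ℝ × ℝ → ℝ → ℝ := fun p r => ‖Qr (q p) r‖ ^ (2 * n) - 1 / 12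
  have hg : Continuous (Function.uncurry g) := by
    have : Continuous fun z : (ℝ × ℝ) × ℝ => q z.1 (z.2 ^ 2 / 4) :=
      hq0.comp (f := fun z : (ℝ × ℝ) × ℝ => (z.1, z.2 ^ 2 / 4)) (by fun_prop)
    exact (this.norm.pow _).sub continuous_const
  have hV : ∀ p ∈ K, 0 < p.1 := fun p hp => by linarith [hp.1.1]
  have hP := fun p (hp : p ∈ K) => (hI p hp).pol hn ha (hV p hp) hp.2
  have hS : ∀ p ∈ K, ∀ r, Real.exp (Real.log ‖Qr (q p) r‖ / aa n) = ‖Qr (q p) r‖ ^ (2 * n) :=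
    fun p hp r => exp_log_norm hn ((hI p hp).ne hn (hV p hp) r)
  let Rh : ℝ × ℝ → ℝ := fun p => hit (g p) 3.28948
  have hB : (0 : ℝ) ≤ 3.28948 := by norm_num
  have hE : ∀ p ∈ K, Rh p < 3.28948 → Ex (aa n) (fun r => Real.log ‖Qr (q p) r‖) (Rh p) := by
    intro p hp hlt
    obtain ⟨h1, h2, h3⟩ := hit_spec (hg.uncurry_left p)
      (by simp only [g]; rw [(hI p hp).S_zero hn (hV p hp)]; linarith [hp.1.1]) hB hlt
    refine ⟨h1, by linarith, fun r hr => ?_, ?_⟩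
    · rw [hS p hp]; exact sub_nonneg.1 (h3 r hr)
    · rw [hS p hp]; exact sub_eq_zero.1 h2
  have hR : ContinuousOn Rh K := hit_cont hg hB fun p hp hlt δ hδ => by
    obtain ⟨r, hr, h⟩ := (hP p hp).trans (hE p hp hlt) hδ
    exact ⟨r, hr, by rw [hS p hp] at h; exact sub_neg.2 h⟩
  have hpre : ∀ p ∈ K, chi (Rh p) ≠ 0 → Pre n p.1 p.2 (Rh p) (q p) := fun p hp h =>
    ⟨hI p hp, hn, ha, hV p hp, hp.2, hE p hp (chi_pos h).2, Ioo_subset_Icc_self (chi_pos h)⟩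
  let Rt : ℝ × ℝ → ℝ := fun p => max (Rh p) 3.28936
  have hRt : ∀ p, Rt p ∈ Icc (3.28936 : ℝ) 3.28948 := fun p =>
    ⟨le_max_right _ _, max_le (hit_mem _ hB).2 (by norm_num)⟩
  let den : (ℝ × ℝ) × ℝ → ℂ := fun z =>
    (Rt z.1 : ℂ) ^ 11 * Complex.exp (Complex.I * (Rt z.1 : ℂ) ^ 2 / 4) * Qr (qt z.1.2 z.2) (Rt z.1)
  let m : (ℝ × ℝ) × ℝ → ℂ := fun z => Wr (Qr (q z.1)) (Qr (qt z.1.2 z.2)) 3.3 / den z
  have hden : ∀ z ∈ K ×ˢ Icc 0 (2 * C), den z ≠ 0 := fun z hz => by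
    have h1 := (hO.size _ hz.1.2 _ hz.2 _ ⟨(hRt z.1).1, by linarith [(hRt z.1).2]⟩).1
    refine mul_ne_zero (mul_ne_zero (pow_ne_zero _ (Complex.ofReal_ne_zero.2 ?_))
      (Complex.exp_ne_zero _)) (norm_pos_iff.1 (lt_of_lt_of_le (by positivity) h1))
    linarith [(hRt z.1).1]
  have cR : ContinuousOn (fun z : (ℝ × ℝ) × ℝ => Rh z.1) (K ×ˢ Icc 0 (2 * C)) :=
    hR.comp continuousOn_fst fun z hz => hz.1
  have cRt : ContinuousOn (fun z : (ℝ × ℝ) × ℝ => Rt z.1) (K ×ˢ Icc 0 (2 * C)) :=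
    cR.sup continuousOn_const
  have cχ := continuous_chi.comp_continuousOn cR
  have c0 : ContinuousOn (fun z : (ℝ × ℝ) × ℝ => qt z.1.2 z.2 2.7225) (K ×ˢ Icc 0 (2 * C)) :=
    hO.cont0.comp (f := fun z : (ℝ × ℝ) × ℝ => ((z.1.2, z.2), (2.7225 : ℝ))) (by fun_prop)
      fun z hz => ⟨⟨hz.1.2, hz.2⟩, by norm_num⟩
  have c1 : ContinuousOn (fun z : (ℝ × ℝ) × ℝ => deriv (qt z.1.2 z.2) 2.7225) (K ×ˢ Icc 0 (2 * C)) :=
    hO.cont1.comp (f := fun z : (ℝ × ℝ) × ℝ => ((z.1.2, z.2), (2.7225 : ℝ))) (by fun_prop)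
      fun z hz => ⟨⟨hz.1.2, hz.2⟩, by norm_num⟩
  have c2 : Continuous fun z : (ℝ × ℝ) × ℝ => q z.1 2.7225 :=
    hq0.comp (f := fun z : (ℝ × ℝ) × ℝ => (z.1, (2.7225 : ℝ))) (by fun_prop)
  have c3 : Continuous fun z : (ℝ × ℝ) × ℝ => deriv (q z.1) 2.7225 :=
    hq1.comp (f := fun z : (ℝ × ℝ) × ℝ => (z.1, (2.7225 : ℝ))) (by fun_prop)
  have c4 : ContinuousOn (fun z : (ℝ × ℝ) × ℝ => Qr (qt z.1.2 z.2) (Rt z.1)) (K ×ˢ Icc 0 (2 * C)) :=
    hO.cont0.comp (f := fun z : (ℝ × ℝ) × ℝ => ((z.1.2, z.2), Rt z.1 ^ 2 / 4))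
      (ContinuousOn.prodMk (by fun_prop) ((cRt.pow 2).div_const 4))
      fun z hz => ⟨⟨hz.1.2, hz.2⟩, by constructor <;> nlinarith [(hRt z.1).1, (hRt z.1).2]⟩
  have cm : ContinuousOn m (K ×ˢ Icc 0 (2 * C)) := by
    have c5 := Complex.continuous_ofReal.comp_continuousOn cRt
    refine ContinuousOn.div ?_ (((c5.pow 11).mul
      (((c5.pow 2).const_mul Complex.I).div_const 4).cexp).mul c4) hden
    refine ContinuousOn.congr (((c2.continuousOn.mul (c1.mul_const (((3.3 : ℝ) : ℂ) / 2))).sub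
      ((c3.continuousOn.mul_const (((3.3 : ℝ) : ℂ) / 2)).mul c0)).const_mul
      (((3.3 : ℝ) : ℂ) ^ 11 * Complex.exp (Complex.I * ((3.3 : ℝ) : ℂ) ^ 2 / 4))) fun z hz => ?_
    obtain ⟨Ψ, hΨ⟩ := hO.ode _ hz.1.2 _ hz.2
    simp only [Wr]
    rw [deriv_Qr1 (hΨ _ (by norm_num)).2.1,
      deriv_Qr1 ((hI _ hz.1).smooth.differentiable (by simp) _), Qr1, Qr1]
    rfl
  have est : ∀ z ∈ K ×ˢ Icc 0 (2 * C), chi (Rh z.1) ≠ 0 →
      |(m z).re - xx (qt z.1.2 z.2) (Rh z.1)| < 1 / 10 ^ 8 ∧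
      |(m z).im - yy (qt z.1.2 z.2) (Rh z.1)| < 1 / 10 ^ 8 := fun z hz h => by
    have h1 := chi_pos h
    obtain ⟨Ψ, hΨ⟩ := out_solR hO hz.1.2 hz.2
    have h2 := ((hpre _ hz.1 h).match_est hη hκ haκ hC (fun s hs => hΨ s ⟨h1.1.le.trans hs.1, hs.2⟩)
      (hO.size _ hz.1.2 _ hz.2 _ ⟨h1.1.le, by linarith [h1.2]⟩).1
      (hO.sign _ hz.1.2 _ hz.2 _ (Ioo_subset_Icc_self h1)).1).trans_lt hs
    have h3 : Rt z.1 = Rh z.1 := max_eq_left h1.1.le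
    simp only [m, den, h3]
    exact ⟨(Complex.abs_re_le_norm (_ - _)).trans_lt h2, (Complex.abs_im_le_norm (_ - _)).trans_lt h2⟩
  obtain ⟨z, hz, z1, z2, z3⟩ := miranda3 (a₁ := 1 / 6) (b₁ := 1 / 2) (a₂ := 0.334766)
    (b₂ := 0.334786) (a₃ := 0) (b₃ := 2 * C) (by norm_num) (by norm_num) (by linarith)
    (F := fun z => chi (Rh z.1) * (m z).re + (1 - chi (Rh z.1)) * (3.28942 - Rh z.1))
    (G := fun z => chi (Rh z.1) * (m z).im + (1 - chi (Rh z.1)) * (0.334776 - z.1.2))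
    (H := fun z => chi (Rh z.1) * (‖q z.1 2.7225‖ - z.2 * ‖qt z.1.2 z.2 2.7225‖) +
      (1 - chi (Rh z.1)) * (C - z.2))
    ((cχ.mul (Complex.continuous_re.comp_continuousOn cm)).add
      ((continuousOn_const.sub cχ).mul (continuousOn_const.sub cR)))
    ((cχ.mul (Complex.continuous_im.comp_continuousOn cm)).add
      ((continuousOn_const.sub cχ).mul (by fun_prop)))
    ((cχ.mul (c2.continuousOn.norm.sub (continuousOn_snd.mul c0.norm))).add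
      ((continuousOn_const.sub cχ).mul (by fun_prop)))
    (fun z hz => by
      have x0 := chi_nonneg (Rh z.1)
      have x1 := sub_nonneg.2 (chi_le_one (Rh z.1))
      refine ⟨fun e => ?_, fun e => ?_, fun e => ?_, fun e => ?_, fun e => ?_, fun e => ?_⟩
      · obtain ⟨t, ht, h⟩ := (hP _ hz.1).face_lo
          (by rw [hS _ hz.1, (hI _ hz.1).S_zero hn (hV _ hz.1), e])
        rw [hS _ hz.1] at h
        have h1 : Rh z.1 ≤ t := hit_le ⟨ht.1, by linarith [ht.2]⟩ (sub_neg.2 h).le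
        have h2 : chi (Rh z.1) = 0 := by_contra fun h2 => by linarith [(chi_pos h2).1, ht.2]
        rw [h2]; linarith [ht.2]
      · have h := (hP _ hz.1).face_hi (by rw [hS _ hz.1, (hI _ hz.1).S_zero hn (hV _ hz.1), e])
        have h1 : 3.28948 ≤ Rh z.1 := le_hit le_rfl fun r hr => by
          have := h r ⟨hr.1, by linarith [hr.2]⟩
          rw [hS _ hz.1] at this
          exact sub_pos.2 this
        have h2 : chi (Rh z.1) = 0 := by_contra fun h2 => by linarith [(chi_pos h2).2]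
        rw [h2]; linarith
      · refine add_nonneg ?_ (mul_nonneg x1 (by rw [e]; norm_num))
        by_cases h : chi (Rh z.1) = 0
        · rw [h, zero_mul]
        · have h1 := (hO.sign _ hz.1.2 _ hz.2 _ (Ioo_subset_Icc_self (chi_pos h))).2.2.2.1 e
          exact mul_nonneg x0 (by linarith [(abs_lt.1 (est z hz h).2).1])
      · refine add_nonpos ?_ (mul_nonpos_of_nonneg_of_nonpos x1 (by rw [e]; norm_num))
        by_cases h : chi (Rh z.1) = 0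
        · rw [h, zero_mul]
        · have h1 := (hO.sign _ hz.1.2 _ hz.2 _ (Ioo_subset_Icc_self (chi_pos h))).2.2.2.2 e
          exact mul_nonpos_of_nonneg_of_nonpos x0 (by linarith [(abs_lt.1 (est z hz h).2).2])
      · rw [e]
        exact add_nonneg (mul_nonneg x0 (by simp)) (mul_nonneg x1 (by linarith))
      · refine add_nonpos ?_ (mul_nonpos_of_nonneg_of_nonpos x1 (by linarith))
        by_cases h : chi (Rh z.1) = 0
        · rw [h, zero_mul]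
        · have h1 := ((hpre _ hz.1 h).norm_mem (r := 3.3) (by norm_num)).2.1
          have h2 := (hO.size _ hz.1.2 _ hz.2 3.3 (by norm_num)).1
          rw [Qr1] at h1 h2
          rw [div_le_iff₀ (by linarith)] at h2
          refine mul_nonpos_of_nonneg_of_nonpos x0 ?_
          nth_rewrite 1 [e]
          linarith)
  have x0 := chi_nonneg (Rh z.1)
  have hχ : chi (Rh z.1) = 1 := by
    by_contra hne
    have x1 := sub_pos.2 ((chi_le_one (Rh z.1)).lt_of_ne hne)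
    rcases lt_or_ge (Rh z.1) 3.28937 with h1 | h1
    · have h2 : 0 ≤ chi (Rh z.1) * (m z).re := by
        by_cases h : chi (Rh z.1) = 0
        · rw [h, zero_mul]
        · have h3 := (hO.sign _ hz.1.2 _ hz.2 _ (Ioo_subset_Icc_self (chi_pos h))).2.1 h1.le
          exact mul_nonneg x0 (by linarith [(abs_lt.1 (est z hz h).1).1])
      have := mul_pos x1 (by linarith : 0 < 3.28942 - Rh z.1)
      linarith
    · have h1' : 3.28947 < Rh z.1 := not_le.1 fun h => hne (chi_one h1 h)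
      have h2 : chi (Rh z.1) * (m z).re ≤ 0 := by
        by_cases h : chi (Rh z.1) = 0
        · rw [h, zero_mul]
        · have h3 := (hO.sign _ hz.1.2 _ hz.2 _ (Ioo_subset_Icc_self (chi_pos h))).2.2.1 h1'.le
          exact mul_nonpos_of_nonneg_of_nonpos x0 (by linarith [(abs_lt.1 (est z hz h).1).2])
      have := mul_pos x1 (by linarith : 0 < Rh z.1 - 3.28942)
      linarith
  rw [hχ] at z1 z2 z3
  have hm : m z = 0 := Complex.ext (by simpa using z1) (by simpa using z2)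
  obtain ⟨q', h⟩ := mt_of_zero hO hC (hpre _ hz.1 (by rw [hχ]; exact one_ne_zero)) hz.2
    ((div_eq_zero_iff.1 hm).resolve_right (hden z hz)) (by linarith)
  exact ⟨_, _, _, _, q', h⟩

theorem famStmt_of (hO : OutStmt) : FamStmt := by
  obtain ⟨C, hC, hO⟩ := hO (Real.sqrt (1 - 1 / 10 ^ 8)) (Real.sqrt_pos.2 (by norm_num))
    ((Real.sqrt_lt' one_pos).2 (by norm_num))
  refine fam_of_good (C := C + 10) (by linarith) fun ε hε => ?_
  obtain ⟨η, hη, hη'⟩ : ∃ η : ℝ, 0 < η ∧ 10 * C ^ 2 * η = 1 / 10 ^ 9 :=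
    ⟨1 / 10 ^ 9 / (10 * C ^ 2), by positivity, by field_simp⟩
  have hθ : Real.exp (-(0.1 * ε ^ 2)) < 1 := Real.exp_lt_one_iff.2 (by nlinarith [pow_pos hε 2])
  filter_upwards [hO (min ε η) (lt_min hε hη), tiny_compact hθ hε,
    aa_small (by norm_num : (0 : ℝ) < 1 / 10 ^ 8), aa_small (by positivity : 0 < ε ^ 2 / 100),
    aa_small (by norm_num : (0 : ℝ) < (1 / 10 ^ 9) ^ 2 / 100),
    aa_small (by positivity : 0 < 0.1 * η ^ 3)] with n ⟨qt, h1⟩ h2 h3 h4 h5 h6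
  have h7 : Real.exp (-(0.1 * η ^ 2 / aa n)) ≤ η := by
    have h8 : 1 / η ≤ 0.1 * η ^ 2 / aa n := by
      rw [div_le_div_iff₀ hη h3.2.1]; nlinarith [h6.2.2]
    rw [Real.exp_neg, inv_le_comm₀ (Real.exp_pos _) hη, ← one_div]
    linarith [Real.add_one_le_exp (0.1 * η ^ 2 / aa n)]
  obtain ⟨V₀, b, R, q, q', h⟩ := exists_mt (κ := 1 / 10 ^ 9) h1 hC h3.1 h3.2.2 hη.le (by norm_num)
    h5.2.2 (by
      have := mul_le_mul_of_nonneg_left (add_le_add (add_le_add (min_le_right ε η) (le_refl η)) h7)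
        (by positivity : 0 ≤ 10 * C ^ 2)
      linarith)
  exact ⟨b, R, q, h.good hC hε (min_le_left _ _) h4.2.2 (h2 b h.hb q h.prof)⟩

end

end Crest.Agent.R086.P
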