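import Crest.Agent.R086.P.Bd

/-! Row 86, part P-out: composition in the class `Bd`, jets, and the uniform class `UB`. -/

set_option autoImplicit false

open Set Filter Topology
open scoped ContDiff ComplexConjugate

namespace Crest.Agent.R086.P

section
variable {J : ℕ} {g : ℝ → ℂ} {f f' f₁ f₂ : ℝ → ℝ} {r θ σ A B D δ : ℝ}

theorem outbd_cd {E : Type} [NormedAddCommGroup E] [NormedSpace ℝ E] {F F' : ℝ → E}
    (hF : ∀ᶠ s in 𝓝 r, HasDerivAt F (F' s) s) (h : ContDiffAt ℝ J F' r) :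
    ContDiffAt ℝ (J + 1 : ℕ) F r := by
  rw [Nat.cast_succ, contDiffAt_succ_iff_hasFDerivAt]
  refine ⟨fun s => ContinuousLinearMap.smulRightL ℝ ℝ E (1 : ℝ →L[ℝ] ℝ) (F' s),
    ⟨_, hF, fun s hs => hs.hasFDerivAt⟩, ?_⟩
  exact (ContinuousLinearMap.smulRightL ℝ ℝ E (1 : ℝ →L[ℝ] ℝ)).contDiff.contDiffAt.comp r h

theorem outbd_succ {F F' : ℝ → ℂ} (hF : ∀ᶠ s in 𝓝 r, HasDerivAt F (F' s) s) (h0 : ‖F r‖ ≤ θ)
    (h : Bd J F' r (θ * σ) σ) : Bd (J + 1) F r θ σ :=
  Bd.succ (outbd_cd hF h.1) h0 (h.congr (hF.mono fun _ hs => hs.deriv.symm))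

theorem outbd_re {n : ℕ} (h : ContDiffAt ℝ n (fun s => (f s : ℂ)) r) : ContDiffAt ℝ n f r :=
  Complex.reCLM.contDiff.contDiffAt.comp r h

theorem outbd_ev {E : Type} [NormedAddCommGroup E] [NormedSpace ℝ E] {F : ℝ → E}
    (h : ContDiffAt ℝ (J + 1 : ℕ) F r) : ∀ᶠ s in 𝓝 r, HasDerivAt F (deriv F s) s :=
  (h.eventually (by simp)).mono fun _ hs => (hs.differentiableAt (by simp)).hasDerivAt

theorem outbd_zero {F : ℝ → ℂ} (hc : ContDiffAt ℝ (0 : ℕ) F r) (h0 : ‖F r‖ ≤ θ) :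
    Bd 0 F r θ σ := ⟨hc, fun i hi => by
  obtain rfl : i = 0 := by omega
  simpa using h0⟩

theorem outbd_norm {F : ℝ → ℂ} (h : Bd J F r θ σ) : ‖F r‖ ≤ θ := by
  simpa using h.2 0 (Nat.zero_le _)

theorem outbd_real (h : Bd (J + 1) (fun s => (f s : ℂ)) r A D) :
    (∀ᶠ s in 𝓝 r, HasDerivAt f (deriv f s) s) ∧
      Bd J (fun s => ((deriv f s : ℝ) : ℂ)) r (A * D) D := by
  have h1 := outbd_ev (outbd_re h.1)
  exact ⟨h1, h.deriv.congr (h1.mono fun s hs => hs.ofReal_comp.deriv)⟩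

theorem outbd_chain (hg : ContDiffAt ℝ (J + 1 : ℕ) g (f r))
    (hf : ∀ᶠ s in 𝓝 r, HasDerivAt f (f' s) s) :
    ∀ᶠ s in 𝓝 r, HasDerivAt (fun s => g (f s)) (deriv g (f s) * (f' s : ℂ)) s := by
  filter_upwards [hf, hf.self_of_nhds.continuousAt.eventually (outbd_ev hg)] with s h1 h2
  have := h2.scomp s h1
  rw [Complex.real_smul, mul_comm] at this
  exact this

theorem outbd_comp (hσ : 0 ≤ σ) (hf : ∀ᶠ s in 𝓝 r, HasDerivAt f (f' s) s)
    (hf' : Bd J (fun s => (f' s : ℂ)) r B D) (hD : 0 ≤ D) (I : ℕ) (hI : I ≤ J + 1) :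
    ∀ (g : ℝ → ℂ) (θ : ℝ), Bd I g (f r) θ σ →
      Bd I (fun s => g (f s)) r θ (I * (σ * B + D)) := by
  have hB := hf'.nonneg
  induction I with
  | zero =>
    intro g θ hg
    exact outbd_zero (hg.1.comp r ((outbd_cd hf (outbd_re hf'.1)).of_le (by simp)))
      (outbd_norm hg)
  | succ I ih =>
    intro g θ hg
    have hθ := hg.nonneg
    have h1 := (ih (by omega) _ _ hg.deriv).mul (hf'.of_le (show I ≤ J by omega))
      (by positivity) hD
    refine outbd_succ (outbd_chain hg.1 hf) (outbd_norm hg) (h1.mono (by positivity) ?_ ?_)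
    · push_cast
      have : 0 ≤ θ * (I * (σ * B + D) + D) := by positivity
      nlinarith
    · push_cast
      have : 0 ≤ σ * B := by positivity
      nlinarith

/-- induction on `J` for all `g, θ`: `(g ∘ f)' = (g' ∘ f) f'` near `r`; `Bd.deriv`, `Bd.mul`, `Bd.succ` -/
theorem Bd.comp' (hg : Bd (J + 1) g (f r) θ σ) (hσ : 0 ≤ σ) (hf : ∀ᶠ s in 𝓝 r, HasDerivAt f (f' s) s)
    (hf' : Bd J (fun s => (f' s : ℂ)) r B D) (hD : 0 ≤ D) :
    Bd (J + 1) (fun s => g (f s)) r θ ((J + 1) * (σ * B + D)) := by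
  exact_mod_cast outbd_comp hσ hf hf' hD (J + 1) le_rfl g θ hg

theorem Bd.comp (hg : Bd J g (f r) θ σ) (hσ : 0 ≤ σ) (hf : Bd J (fun s => (f s : ℂ)) r A D)
    (hD : 0 ≤ D) : Bd J (fun s => g (f s)) r θ (J * ((σ * A + 1) * D)) := by
  cases J with
  | zero => exact outbd_zero (hg.1.comp r (outbd_re hf.1)) (outbd_norm hg)
  | succ J =>
    obtain ⟨h1, h2⟩ := outbd_real hf
    have := hg.comp' hσ h1 h2 hD
    rw [show σ * (A * D) + D = (σ * A + 1) * D by ring] at this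
    exact_mod_cast this

/-- induction on `J` for all `g`: order `0` is the mean value inequality on `[0, ∞)`; the derivative is
`(g' ∘ f₁ - g' ∘ f₂) f₁' + (g' ∘ f₂) (f₁ - f₂)'` -/
theorem Bd.comp_sub (hg : ∀ y : ℝ, 0 ≤ y → Bd (J + 1) g y θ 1) (h₁ : 0 ≤ f₁ r) (h₂ : 0 ≤ f₂ r)
    (hf₁ : Bd J (fun s => (f₁ s : ℂ)) r A D) (hf₂ : Bd J (fun s => (f₂ s : ℂ)) r A D)
    (hd : Bd J (fun s => (f₁ s : ℂ) - f₂ s) r δ D) (hD : 0 ≤ D) :
    Bd J (fun s => g (f₁ s) - g (f₂ s)) r (θ * δ) (J * ((A + 1) * D)) := by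
  have hA := hf₁.nonneg
  have hδ := hd.nonneg
  have hθ := (hg 0 le_rfl).nonneg
  have hmv : ∀ (I : ℕ) (g : ℝ → ℂ), (∀ y : ℝ, 0 ≤ y → Bd (I + 1) g y θ 1) →
      ‖g (f₁ r) - g (f₂ r)‖ ≤ θ * δ := by
    intro I g hg
    refine ((convex_Ici (0 : ℝ)).norm_image_sub_le_of_norm_deriv_le
      (fun y hy => (hg y hy).1.differentiableAt (by simp))
      (fun y hy => by simpa using outbd_norm (hg y hy).deriv) h₂ h₁).trans ?_
    refine mul_le_mul_of_nonneg_left ?_ hθ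
    have := outbd_norm hd
    rwa [← Complex.ofReal_sub, Complex.norm_real] at this
  induction J generalizing g with
  | zero =>
    exact outbd_zero ((((hg _ h₁).of_le (Nat.zero_le _)).1.comp r (outbd_re hf₁.1)).sub
      (((hg _ h₂).of_le (Nat.zero_le _)).1.comp r (outbd_re hf₂.1))) (hmv 0 g hg)
  | succ J ih =>
    obtain ⟨a1, a2⟩ := outbd_real hf₁
    obtain ⟨b1, -⟩ := outbd_real hf₂
    have hg' : ∀ y : ℝ, 0 ≤ y → Bd (J + 1) (_root_.deriv g) y θ 1 := fun y hy => by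
      simpa using (hg y hy).deriv
    have h1 := (ih hg' (hf₁.of_le (Nat.le_succ _)) (hf₂.of_le (Nat.le_succ _))
      (hd.of_le (Nat.le_succ _))).mul a2 (by positivity) hD
    have h2 : Bd J (fun s => ((_root_.deriv f₁ s : ℝ) : ℂ) - (_root_.deriv f₂ s : ℝ)) r (δ * D) D := by
      refine hd.deriv.congr ?_
      filter_upwards [a1, b1] with s hs hs'
      exact (hs.ofReal_comp.sub hs'.ofReal_comp).deriv
    have h3 := (((hg' _ h₂).of_le (Nat.le_succ _)).comp zero_le_one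
      (hf₂.of_le (Nat.le_succ _)) hD).mul h2 (by positivity) hD
    rw [one_mul] at h3
    refine outbd_succ ?_ (hmv _ g hg) ((h1.add h3).mono (by positivity) ?_ ?_)
    · filter_upwards [outbd_chain (hg _ h₁).1 a1, outbd_chain (hg _ h₂).1 b1] with s hs hs'
      exact (hs.sub hs').congr_deriv (by ring)
    · push_cast
      have : 0 ≤ θ * δ * (J * ((A + 1) * D)) := by positivity
      nlinarith
    · push_cast
      have : 0 ≤ A * D := by positivity
      nlinarith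

theorem Bd.cexp (J : ℕ) (c : ℂ) (t : ℝ) :
    Bd J (fun s => Complex.exp (c * s)) t (Real.exp (c.re * t)) ‖c‖ := by
  have h0 : ‖Complex.exp (c * t)‖ ≤ Real.exp (c.re * t) := by
    rw [Complex.norm_exp]; simp
  induction J with
  | zero =>
    refine outbd_zero ?_ h0
    exact ((contDiff_const.mul Complex.ofRealCLM.contDiff).cexp).contDiffAt
  | succ J ih =>
    refine outbd_succ (F' := fun s => c * Complex.exp (c * s)) (Eventually.of_forall fun s => ?_)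
      h0 (by rw [mul_comm (Real.exp _)]; exact ih.const_mul c)
    have := (((hasDerivAt_id s).ofReal_comp).const_mul c).cexp
    simpa [mul_comm] using this

/-- trade size for scale -/
theorem Bd.shrink (h : Bd J g r A σ) (hσ : 0 ≤ σ) (h0 : ‖g r‖ ≤ θ) (hθ : 0 < θ) :
    Bd J g r θ ((A / θ + 1) * σ) := by
  have hA := h.nonneg
  refine ⟨h.1, fun i hi => ?_⟩
  rcases Nat.eq_zero_or_pos i with rfl | hi0
  · simpa using h0
  · refine (h.2 i hi).trans ?_
    rw [mul_pow, ← mul_assoc]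
    refine mul_le_mul_of_nonneg_right ?_ (by positivity)
    have h1 : A / θ + 1 ≤ (A / θ + 1) ^ i :=
      le_self_pow₀ (le_add_of_nonneg_left (by positivity)) hi0.ne'
    have h2 : θ * (A / θ + 1) = A + θ := by field_simp
    nlinarith

/-- trade scale for size -/
theorem Bd.unit (h : Bd J g r θ σ) (hσ : 0 ≤ σ) : Bd J g r (θ * (σ + 1) ^ J) 1 := by
  refine ⟨h.1, fun i hi => (h.2 i hi).trans ?_⟩
  rw [one_pow, mul_one]
  exact mul_le_mul_of_nonneg_left ((pow_le_pow_left₀ hσ (by linarith) i).trans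
    (pow_le_pow_right₀ (by linarith) hi)) h.nonneg

/-- downward induction on `i` with the mean value inequality (`z ^ k / k ≤ z ^ k`; e.g.
`image_norm_le_of_norm_deriv_right_le_deriv_boundary`, or `norm_image_sub_le_of_norm_deriv_le_segment'`
on `[0, z]` with the bound `K z ^ k`) -/
theorem norm_le_of_jet {N : ℕ} {K : ℝ} (hg : ContDiff ℝ ∞ g) (h0 : ∀ i < N, iteratedDeriv i g 0 = 0)
    (hK : ∀ z ∈ Icc (0 : ℝ) 1, ‖iteratedDeriv N g z‖ ≤ K) :
    ∀ i ≤ N, ∀ z ∈ Icc (0 : ℝ) 1, ‖iteratedDeriv i g z‖ ≤ K * z ^ (N - i) := by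
  have hK0 : 0 ≤ K := (norm_nonneg _).trans (hK 0 ⟨le_rfl, zero_le_one⟩)
  have key : ∀ k i, i + k = N → ∀ z ∈ Icc (0 : ℝ) 1, ‖iteratedDeriv i g z‖ ≤ K * z ^ k := by
    intro k
    induction k with
    | zero => intro i hi z hz; obtain rfl : i = N := hi; simpa using hK z hz
    | succ k ih =>
      intro i hi z hz
      have hd : Differentiable ℝ (iteratedDeriv i g) :=
        hg.differentiable_iteratedDeriv i (by exact_mod_cast ENat.natCast_lt_top i)
      have := norm_image_sub_le_of_norm_deriv_le_segment' (f := iteratedDeriv i g)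
        (f' := iteratedDeriv (i + 1) g) (a := 0) (b := z) (C := K * z ^ k)
        (fun x _ => by rw [iteratedDeriv_succ]; exact (hd x).hasDerivAt.hasDerivWithinAt)
        (fun x hx => (ih (i + 1) (by omega) x ⟨hx.1, hx.2.le.trans hz.2⟩).trans
          (mul_le_mul_of_nonneg_left (pow_le_pow_left₀ hx.1 hx.2.le k) hK0)) z ⟨hz.1, le_rfl⟩
      rw [h0 i (by omega), sub_zero, sub_zero] at this
      rw [pow_succ, ← mul_assoc]
      exact this
  exact fun i hi => key (N - i) i (by omega)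

end

/-- bounds in the class `Bd` with weight `w`, uniformly over a family and a set of points -/
def UB {Y : Type} (J : ℕ) (S : Set ℝ) (f : Y → ℝ → ℂ) (w : Y → ℝ → ℝ) : Prop :=
  ∃ K : ℝ, 1 ≤ K ∧ ∀ y, ∀ t ∈ S, Bd J (f y) t (K * w y t) K

variable {Y : Type} {J : ℕ} {S : Set ℝ} {f g : Y → ℝ → ℂ} {w w' : Y → ℝ → ℝ}

theorem UB.of_bd {K σ : ℝ} (hσ : 0 ≤ σ) (hw : ∀ y, ∀ t ∈ S, 0 ≤ w y t)
    (h : ∀ y, ∀ t ∈ S, Bd J (f y) t (K * w y t) σ) : UB J S f w := by
  refine ⟨max 1 (max K σ), le_max_left _ _, fun y t ht => (h y t ht).mono hσ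
    (mul_le_mul_of_nonneg_right ((le_max_left _ _).trans (le_max_right _ _)) (hw y t ht))
    ((le_max_right _ _).trans (le_max_right _ _))⟩

theorem UB.w_nonneg (h : UB J S f w) (y : Y) {t : ℝ} (ht : t ∈ S) : 0 ≤ w y t := by
  obtain ⟨K, hK, h⟩ := h
  exact nonneg_of_mul_nonneg_right (h y t ht).nonneg (by linarith)

theorem UB.norm_le (h : UB J S f w) :
    ∃ K : ℝ, 0 ≤ K ∧ ∀ y, ∀ t ∈ S, ∀ i ≤ J, ‖iteratedDeriv i (f y) t‖ ≤ K * w y t := by
  obtain ⟨K, hK, h⟩ := h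
  refine ⟨K * (K + 1) ^ J, by positivity, fun y t ht i hi => ?_⟩
  have := ((h y t ht).unit (by linarith)).2 i hi
  rw [one_pow, mul_one] at this
  exact this.trans (le_of_eq (by ring))

theorem UB.of_norm_le {K : ℝ} (hc : ∀ y, ∀ t ∈ S, ContDiffAt ℝ J (f y) t) (hw : ∀ y, ∀ t ∈ S, 0 ≤ w y t)
    (h : ∀ y, ∀ t ∈ S, ∀ i ≤ J, ‖iteratedDeriv i (f y) t‖ ≤ K * w y t) : UB J S f w := by
  exact UB.of_bd (K := K) zero_le_one hw fun y t ht =>
    ⟨hc y t ht, fun i hi => by simpa using h y t ht i hi⟩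

theorem UB.mono_w (h : UB J S f w) {C : ℝ} (hC : 0 ≤ C) (hw' : ∀ y, ∀ t ∈ S, 0 ≤ w' y t)
    (hw : ∀ y, ∀ t ∈ S, w y t ≤ C * w' y t) : UB J S f w' := by
  obtain ⟨K, hK, h⟩ := h
  refine UB.of_bd (K := K * C) (σ := K) (by linarith) hw' fun y t ht =>
    (h y t ht).mono (by linarith) ?_ le_rfl
  rw [mul_assoc]
  exact mul_le_mul_of_nonneg_left (hw y t ht) (by linarith)

theorem UB.of_le {J' : ℕ} (h : UB J S f w) (hJ : J' ≤ J) : UB J' S f w := by
  obtain ⟨K, hK, h⟩ := h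
  exact ⟨K, hK, fun y t ht => (h y t ht).of_le hJ⟩

theorem UB.subset {S' : Set ℝ} (h : UB J S f w) (hS : S' ⊆ S) : UB J S' f w := by
  obtain ⟨K, hK, h⟩ := h
  exact ⟨K, hK, fun y t ht => h y t (hS ht)⟩

theorem UB.reindex {Z : Type} (h : UB J S f w) (e : Z → Y) :
    UB J S (fun z => f (e z)) (fun z => w (e z)) := by
  obtain ⟨K, hK, h⟩ := h
  exact ⟨K, hK, fun z t ht => h (e z) t ht⟩

theorem UB.congr (h : UB J S f w) (e : ∀ y, ∀ t ∈ S, f y =ᶠ[𝓝 t] g y) : UB J S g w := by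
  obtain ⟨K, hK, h⟩ := h
  exact ⟨K, hK, fun y t ht => (h y t ht).congr (e y t ht)⟩

theorem UB.const (J : ℕ) (S : Set ℝ) {c : Y → ℂ} {K : ℝ} {v : Y → ℝ} (hv : ∀ y, 0 ≤ v y)
    (h : ∀ y, ‖c y‖ ≤ K * v y) : UB J S (fun y _ => c y) (fun y _ => v y) := by
  exact UB.of_bd (K := K) zero_le_one (fun y _ _ => hv y) fun y t _ =>
    (Bd.const J (c y) t zero_le_one).mono zero_le_one (h y) le_rfl

theorem UB.add (h : UB J S f w) (h' : UB J S g w) : UB J S (fun y t => f y t + g y t) w := by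
  have hw := h.w_nonneg
  obtain ⟨K, hK, h⟩ := h
  obtain ⟨K', hK', h'⟩ := h'
  refine UB.of_bd (K := K + K') (σ := K + K') (by linarith) (fun y t ht => hw y ht)
    fun y t ht => ?_
  rw [add_mul]
  exact ((h y t ht).mono (by linarith) le_rfl (by linarith)).add
    ((h' y t ht).mono (by linarith) le_rfl (by linarith))

theorem UB.sub (h : UB J S f w) (h' : UB J S g w) : UB J S (fun y t => f y t - g y t) w := by
  obtain ⟨K', hK', h'⟩ := h'
  have h2 : UB J S (fun y t => -1 * g y t) w :=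
    ⟨K', hK', fun y t ht => by simpa using (h' y t ht).const_mul (-1)⟩
  exact (h.add h2).congr fun y t _ => Eventually.of_forall fun s => by ring

theorem UB.mul (h : UB J S f w) (h' : UB J S g w') :
    UB J S (fun y t => f y t * g y t) (fun y t => w y t * w' y t) := by
  have hw := h.w_nonneg
  have hw' := h'.w_nonneg
  obtain ⟨K, hK, h⟩ := h
  obtain ⟨K', hK', h'⟩ := h'
  refine UB.of_bd (K := K * K') (σ := K + K') (by linarith)
    (fun y t ht => mul_nonneg (hw y ht) (hw' y ht)) fun y t ht => ?_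
  rw [mul_mul_mul_comm]
  exact (h y t ht).mul (h' y t ht) (by linarith) (by linarith)

/-- multiplication by a bounded family -/
theorem UB.bmul (h : UB J S f fun _ _ => 1) (h' : UB J S g w) :
    UB J S (fun y t => f y t * g y t) w := by
  simpa using h.mul h'

theorem UB.cmul {c : Y → ℂ} {K : ℝ} (hc : ∀ y, ‖c y‖ ≤ K) (h : UB J S f w) :
    UB J S (fun y t => c y * f y t) w := by
  exact (UB.const J S (K := K) (v := fun _ => 1) (fun _ => zero_le_one)
    (fun y => by simpa using hc y)).bmul h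

theorem UB.star (h : UB J S f w) : UB J S (fun y t => conj (f y t)) w := by
  obtain ⟨K, hK, h⟩ := h
  exact ⟨K, hK, fun y t ht => (h y t ht).conj⟩

theorem UB.deriv (h : UB (J + 1) S f w) : UB J S (fun y => deriv (f y)) w := by
  have hw := h.w_nonneg
  obtain ⟨K, hK, h⟩ := h
  refine UB.of_bd (K := K * K) (σ := K) (by linarith) (fun y t ht => hw y ht) fun y t ht => ?_
  rw [mul_right_comm]
  exact (h y t ht).deriv

theorem UB.succ (hc : ∀ y, ∀ t ∈ S, ContDiffAt ℝ (J + 1 : ℕ) (f y) t) (h0 : UB 0 S f w)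
    (h : UB J S (fun y => _root_.deriv (f y)) w) : UB (J + 1) S f w := by
  have hw := h.w_nonneg
  obtain ⟨K, hK, h0⟩ := h0
  obtain ⟨K', hK', h⟩ := h
  refine UB.of_bd (K := K) (σ := K') (by linarith) (fun y t ht => hw y ht) fun y t ht =>
    Bd.succ (hc y t ht) (outbd_norm (h0 y t ht)) ((h y t ht).mono (by linarith) ?_ le_rfl)
  have := mul_nonneg (hw y ht) (show 0 ≤ K' by linarith)
  nlinarith

theorem UB.zpow (J k : ℕ) : UB J (Icc 0 1) (fun (_ : Y) (z : ℝ) => (z : ℂ) ^ k) fun _ _ => 1 := by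
  refine UB.of_bd (K := 1) (σ := k * 1) (by positivity) (fun _ _ _ => zero_le_one) fun y t ht => ?_
  have := (Bd.ofReal (r := t) (θ := 1) (σ := 1) J (abs_le.2 ⟨by linarith [ht.1], ht.2⟩)
    (by norm_num) zero_le_one).pow zero_le_one k
  simpa using this

theorem UB.exp (J : ℕ) (S : Set ℝ) : UB J S (fun (_ : Y) (t : ℝ) => (Real.exp t : ℂ))
    fun _ t => Real.exp t := by
  refine UB.of_bd (K := 1) (σ := 1) zero_le_one (fun _ _ _ => (Real.exp_pos _).le) fun y t _ => ?_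
  simpa using Bd.cexp J 1 t

/-- substitution `z = exp (-τ)` (`Bd.comp`, `Bd.cexp`) -/
theorem UB.comp_exp (h : UB J (Icc 0 1) f w) :
    UB J (Ioi 0) (fun y t => f y (Real.exp (-t))) fun y t => w y (Real.exp (-t)) := by
  have hw := h.w_nonneg
  obtain ⟨K, hK, h⟩ := h
  have hm : ∀ t ∈ Ioi (0 : ℝ), Real.exp (-t) ∈ Icc (0 : ℝ) 1 := fun t ht =>
    ⟨(Real.exp_pos _).le, Real.exp_le_one_iff.2 (by linarith [mem_Ioi.1 ht])⟩
  refine UB.of_bd (K := K) (σ := J * ((K * 1 + 1) * 1)) (by positivity)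
    (fun y t ht => hw y (hm t ht)) fun y t ht => ?_
  refine Bd.comp (f := fun t => Real.exp (-t)) (h y _ (hm t ht)) (by linarith) ?_ zero_le_one
  have := Bd.cexp J (-1) t
  simp only [Complex.neg_re, Complex.one_re, neg_mul, one_mul, norm_neg, norm_one] at this
  refine (this.mono zero_le_one (hm t ht).2 le_rfl).congr (Eventually.of_forall fun s => ?_)
  simp

/-- the potential term -/
noncomputable def Phi (φ : ℝ → ℝ) (u : ℂ) : ℂ := (φ (‖u‖ ^ 2) : ℂ) * u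

theorem outbd_sq (u : ℂ) : u * conj u = ((‖u‖ ^ 2 : ℝ) : ℂ) := by
  rw [Complex.mul_conj, Complex.normSq_eq_norm_sq]

theorem outbd_nsq (h : UB J S f fun _ _ => 1) :
    UB J S (fun y t => ((‖f y t‖ ^ 2 : ℝ) : ℂ)) fun _ _ => 1 :=
  (h.bmul h.star).congr fun _ _ _ => Eventually.of_forall fun _ => outbd_sq _

theorem outbd_phi {φ : Y → ℝ → ℝ} {E : Y → ℝ}
    (hφ : ∀ y, ∀ t : ℝ, 0 ≤ t → Bd J (fun s => (φ y s : ℂ)) t (E y) 1) (h : UB J S f fun _ _ => 1) :
    UB J S (fun y t => (φ y (‖f y t‖ ^ 2) : ℂ)) fun y _ => E y := by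
  obtain ⟨K, hK, h⟩ := outbd_nsq h
  refine UB.of_bd (K := 1) (σ := J * ((1 * (K * 1) + 1) * K)) (by positivity)
    (fun y _ _ => (hφ y 0 le_rfl).nonneg) fun y t ht => ?_
  rw [one_mul (E y)]
  exact Bd.comp (g := fun s => (φ y s : ℂ)) (f := fun t => ‖f y t‖ ^ 2) (hφ y _ (sq_nonneg _))
    zero_le_one (h y t ht) (by linarith)

/-- `(‖u‖ ^ 2 : ℂ) = u * conj u`; `Bd.comp` -/
theorem UB.phi {φ : Y → ℝ → ℝ} {E : Y → ℝ}
    (hφ : ∀ y, ∀ t : ℝ, 0 ≤ t → Bd J (fun s => (φ y s : ℂ)) t (E y) 1) (h : UB J S f fun _ _ => 1) :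
    UB J S (fun y t => Phi (φ y) (f y t)) fun y _ => E y := by
  exact (h.bmul (outbd_phi hφ h)).congr fun _ _ _ => Eventually.of_forall fun _ => mul_comm _ _

/-- `Phi u - Phi v = φ(|u|²) (u - v) + (φ(|u|²) - φ(|v|²)) v`,
`|u|² - |v|² = (u - v) conj u + v conj (u - v)`; `Bd.comp_sub` -/
theorem UB.phi_sub {φ : Y → ℝ → ℝ} {E : Y → ℝ}
    (hφ : ∀ y, ∀ t : ℝ, 0 ≤ t → Bd (J + 1) (fun s => (φ y s : ℂ)) t (E y) 1)
    (h : UB J S f fun _ _ => 1) (h' : UB J S g fun _ _ => 1)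
    (hd : UB J S (fun y t => f y t - g y t) w) :
    UB J S (fun y t => Phi (φ y) (f y t) - Phi (φ y) (g y t)) fun y t => E y * w y t := by
  have h1 := (outbd_phi (fun y t ht => (hφ y t ht).of_le (Nat.le_succ J)) h).mul hd
  have h2 : UB J S (fun y t => ((‖f y t‖ ^ 2 : ℝ) : ℂ) - ((‖g y t‖ ^ 2 : ℝ) : ℂ)) w :=
    ((h.star.bmul hd).add (h'.bmul hd.star)).congr fun y t _ => Eventually.of_forall fun s => by
      simp only [← outbd_sq, map_sub]
      ring
  have h3 : UB J S (fun y t => (φ y (‖f y t‖ ^ 2) : ℂ) - (φ y (‖g y t‖ ^ 2) : ℂ))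
      fun y t => E y * w y t := by
    have hw := hd.w_nonneg
    obtain ⟨K₁, hK₁, k₁⟩ := outbd_nsq h
    obtain ⟨K₂, hK₂, k₂⟩ := outbd_nsq h'
    obtain ⟨K₃, hK₃, k₃⟩ := h2
    refine UB.of_bd (K := K₃) (σ := J * ((K₁ + K₂ + 1) * (K₁ + K₂ + K₃))) (by positivity)
      (fun y t ht => mul_nonneg (hφ y 0 le_rfl).nonneg (hw y ht)) fun y t ht => ?_
    rw [mul_left_comm]
    exact Bd.comp_sub (g := fun s => (φ y s : ℂ)) (f₁ := fun t => ‖f y t‖ ^ 2)
      (f₂ := fun t => ‖g y t‖ ^ 2) (hφ y) (sq_nonneg _) (sq_nonneg _)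
      ((k₁ y t ht).mono (by linarith) (by linarith) (by linarith))
      ((k₂ y t ht).mono (by linarith) (by linarith) (by linarith))
      ((k₃ y t ht).mono (by linarith) le_rfl (by linarith)) (by linarith)
  exact (h1.add (h'.bmul h3)).congr fun y t _ => Eventually.of_forall fun s => by
    simp only [Phi]
    ring

end Crest.Agent.R086.P
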