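import Crest.Agent.R086.P.OutPoly

/-! Row 86, part P-out: the truncated potential. -/

set_option autoImplicit false

open Set Filter Topology
open scoped ContDiff

namespace Crest.Agent.R086.P

noncomputable section

/-- `1` for `y ≤ T`, `0` for `y ≥ (1 + T) / 2` -/
def cut (T y : ℝ) : ℝ := Real.smoothTransition ((1 + T - 2 * y) / (1 - T))

/-- the truncated potential `φ(y) = ψ_n(γ² y)` -/
def pot (T : ℝ) (n : ℕ) (γ y : ℝ) : ℝ := (γ ^ 2 * y) ^ n * cut T (γ ^ 2 * y)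

/-- the exponent `s = -a + i b` -/
def ss (a b : ℝ) : ℂ := -(a : ℂ) + Complex.I * b

variable {T : ℝ}

theorem outpsi_one (hT : T < 1) {y : ℝ} (h : y ≤ T) : cut T y = 1 := by
  refine Real.smoothTransition.one_of_one_le ?_
  rw [le_div_iff₀ (by linarith)]; linarith

theorem outpsi_zero (hT : T < 1) {y : ℝ} (h : (1 + T) / 2 ≤ y) : cut T y = 0 :=
  Real.smoothTransition.zero_of_nonpos (div_nonpos_of_nonpos_of_nonneg (by linarith) (by linarith))

theorem outpsi_cd (T : ℝ) : ContDiff ℝ ∞ (cut T) := by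
  unfold cut
  exact Real.smoothTransition.contDiff.comp (by fun_prop)

theorem pot_eq (hT : T < 1) (n : ℕ) {γ y : ℝ} (h : γ ^ 2 * y ≤ T) : pot T n γ y = (γ ^ 2 * y) ^ n := by
  rw [pot, outpsi_one hT h, mul_one]

theorem pot_nonneg (T : ℝ) (n : ℕ) (γ : ℝ) {y : ℝ} (h : 0 ≤ y) : 0 ≤ pot T n γ y := by
  exact mul_nonneg (by positivity) (Real.smoothTransition.nonneg _)

theorem contDiff_pot (T : ℝ) (n : ℕ) :
    ContDiff ℝ ∞ (Function.uncurry fun (p : ℝ × ℝ) (y : ℝ) => pot T n p.2 y) := by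
  have h1 : ContDiff ℝ ∞ fun q : (ℝ × ℝ) × ℝ => q.1.2 ^ 2 * q.2 := by fun_prop
  exact (h1.pow n).mul ((outpsi_cd T).comp h1)

/-- every derivative is continuous, and bounded: constant outside a compact interval -/
theorem bd_cut (hT : T < 1) (J : ℕ) : ∃ K : ℝ, ∀ y : ℝ, Bd J (fun s => (cut T s : ℂ)) y K 1 := by
  have hc : ContDiff ℝ ∞ fun s => (cut T s : ℂ) := Complex.ofRealCLM.contDiff.comp (outpsi_cd T)
  have hb : ∀ i : ℕ, ∃ K : ℝ, ∀ y ∈ Icc T ((1 + T) / 2),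
      ‖iteratedDeriv i (fun s => (cut T s : ℂ)) y‖ ≤ K := fun i =>
    isCompact_Icc.exists_bound_of_continuousOn
      (hc.continuous_iteratedDeriv i (by exact_mod_cast le_top)).continuousOn
  choose K hK using hb
  have hs : 0 ≤ ∑ i ∈ Finset.range (J + 1), |K i| := Finset.sum_nonneg fun _ _ => abs_nonneg _
  refine ⟨1 + ∑ i ∈ Finset.range (J + 1), |K i|, fun y => ?_⟩
  rcases lt_or_ge y T with h1 | h1
  · refine ((Bd.const J 1 y zero_le_one).mono zero_le_one (by simpa using hs) le_rfl).congr ?_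
    filter_upwards [Iio_mem_nhds h1] with s hs
    rw [outpsi_one hT (le_of_lt hs)]; simp
  rcases lt_or_ge ((1 + T) / 2) y with h2 | h2
  · refine ((Bd.const J 0 y zero_le_one).mono zero_le_one (by simp only [norm_zero]; linarith)
      le_rfl).congr ?_
    filter_upwards [Ioi_mem_nhds h2] with s hs
    rw [outpsi_zero hT (le_of_lt hs)]; simp
  refine ⟨hc.contDiffAt.of_le (by exact_mod_cast le_top), fun i hi => ?_⟩
  have := Finset.single_le_sum (f := fun i => |K i|) (fun _ _ => abs_nonneg _)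
    (Finset.mem_range.2 (Nat.lt_succ_of_le hi))
  rw [one_pow, mul_one]
  linarith [hK i y ⟨h1, h2⟩, le_abs_self (K i)]

theorem outpsi_far (hT : T < 1) (J n : ℕ) {y E : ℝ} (hE : 0 ≤ E) (hy : (1 + T) / 2 < y) :
    Bd J (fun s => ((s ^ n * cut T s : ℝ) : ℂ)) y E 1 := by
  refine ((Bd.const J 0 y zero_le_one).mono zero_le_one (by simpa using hE) le_rfl).congr ?_
  filter_upwards [Ioi_mem_nhds hy] with s hs
  rw [outpsi_zero hT (le_of_lt hs)]; simp

theorem outpsi_near (h0 : 0 < T) {J : ℕ} {K : ℝ} (hK : ∀ y : ℝ, Bd J (fun s => (cut T s : ℂ)) y K 1)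
    (n : ℕ) {y : ℝ} (hy0 : 0 ≤ y) (hy : y ≤ (1 + T) / 2) :
    Bd J (fun s => ((s ^ n * cut T s : ℝ) : ℂ)) y (((1 + T) / 2) ^ n * K) (n * (2 / (1 + T)) + 1) := by
  have h1 := (Bd.ofReal (r := y) (θ := (1 + T) / 2) (σ := 2 / (1 + T)) J (by rwa [abs_of_nonneg hy0])
    (by rw [div_mul_div_comm, le_div_iff₀ (by positivity)]; linarith) (by positivity)).pow
    (by positivity) n
  have h2 := h1.mul (hK y) (by positivity) zero_le_one
  simpa using h2

/-- `ψ_n y = y ^ n * cut T y`.  For `y > T' = (1 + T) / 2` it vanishes near `y`; for `0 ≤ y ≤ T'` use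
`Bd.ofReal` (size `θ ^ 2 = T'`), `Bd.pow`, `Bd.mul`, `eventually_small` with `θ = √T'` -/
theorem bd_psi (h0 : 0 < T) (hT : T < 1) (J : ℕ) {ε : ℝ} (hε : 0 < ε) : ∀ᶠ n : ℕ in atTop,
    ∀ y : ℝ, 0 ≤ y → Bd J (fun s => ((s ^ n * cut T s : ℝ) : ℂ)) y ε 1 := by
  obtain ⟨K, hK⟩ := bd_cut hT J
  have hK0 : 0 ≤ K := (hK 0).nonneg
  have hT' : 0 ≤ (1 + T) / 2 := by positivity
  have hθ : √((1 + T) / 2) < 1 := by
    rw [Real.sqrt_lt' one_pos]; linarith
  filter_upwards [eventually_small (Real.sqrt_nonneg _) hθ (2 / (1 + T) + 1) J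
    (by positivity : 0 < ε / (K + 1))] with n hn y hy
  rcases lt_or_ge ((1 + T) / 2) y with h2 | h2
  · exact outpsi_far hT J n hε.le h2
  have h3 := outpsi_near h0 hK n hy h2
  refine ⟨h3.1, fun i hi => (h3.2 i hi).trans ?_⟩
  have h4 := hn i hi
  rw [pow_mul, Real.sq_sqrt hT', le_div_iff₀ (by positivity)] at h4
  rw [one_pow, mul_one]
  refine le_trans ?_ h4
  have hσ : 0 ≤ 2 / (1 + T) := by positivity
  have hn0 : (0 : ℝ) ≤ n := Nat.cast_nonneg n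
  calc ((1 + T) / 2) ^ n * K * (n * (2 / (1 + T)) + 1) ^ i
      = 1 * ((1 + T) / 2) ^ n * (n * (2 / (1 + T)) + 1) ^ i * K := by ring
    _ ≤ _ := by
      gcongr
      · linarith
      · nlinarith [mul_nonneg hn0 hσ]
      · linarith

theorem bd_psi' (h0 : 0 < T) (hT : T < 1) (J n : ℕ) : ∃ E : ℝ,
    ∀ y : ℝ, 0 ≤ y → Bd J (fun s => ((s ^ n * cut T s : ℝ) : ℂ)) y E 1 := by
  obtain ⟨K, hK⟩ := bd_cut hT J
  have hK0 : 0 ≤ K := (hK 0).nonneg
  refine ⟨((1 + T) / 2) ^ n * K * (n * (2 / (1 + T)) + 1 + 1) ^ J, fun y hy => ?_⟩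
  rcases lt_or_ge ((1 + T) / 2) y with h2 | h2
  · exact outpsi_far hT J n (by positivity) h2
  · exact (outpsi_near h0 hK n hy h2).unit (by positivity)

/-- If `ψ` is `C¹`, `|ψ|, |ψ'| ≤ ε` on `[0, ∞)` and `ψ = 0` on `[1, ∞)`, then `u ↦ ψ(|u|²) u` has Fréchet
derivative of norm `≤ 3 ε` (`Convex.norm_image_sub_le_of_norm_hasFDerivWithin_le`; or restrict to the
segment from `v` to `u`), and `Phi (ψ (γ² ·)) u = γ⁻¹ Phi ψ (γ u)` for `γ ≠ 0` (for `γ = 0` it is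
`ψ 0 * u`). -/
theorem lip_Phi {ψ : ℝ → ℝ} {ε : ℝ} (hψ : ContDiff ℝ ∞ ψ)
    (hb : ∀ y : ℝ, 0 ≤ y → Bd 1 (fun s => (ψ s : ℂ)) y ε 1) (h0 : ∀ y : ℝ, 1 ≤ y → ψ y = 0)
    (γ : ℝ) (u v : ℂ) :
    ‖Phi (fun y => ψ (γ ^ 2 * y)) u - Phi (fun y => ψ (γ ^ 2 * y)) v‖ ≤ 3 * ε * ‖u - v‖ := by
  have hd : ∀ y, HasDerivAt ψ (deriv ψ y) y := fun y =>
    (hψ.differentiable (by simp) y).hasDerivAt
  have hε : 0 ≤ ε := (hb 0 le_rfl).nonneg
  have b0 : ∀ y, 0 ≤ y → |ψ y| ≤ ε := fun y hy => by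
    simpa using (hb y hy).2 0 zero_le_one
  have b1 : ∀ y, 0 ≤ y → |deriv ψ y| * y ≤ ε := fun y hy => by
    rcases le_or_gt y 1 with h | h
    · have := (hb y hy).2 1 le_rfl
      rw [iteratedDeriv_one, (hd y).ofReal_comp.deriv, Complex.norm_real, Real.norm_eq_abs, pow_one,
        mul_one] at this
      nlinarith [abs_nonneg (deriv ψ y)]
    · have : ψ =ᶠ[𝓝 y] fun _ => 0 := by
        filter_upwards [Ioi_mem_nhds h] with s hs using h0 s (le_of_lt hs)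
      rw [this.deriv_eq]; simpa using hε
  have hF : ∀ w : ℂ, HasFDerivAt (fun u : ℂ => ψ (γ ^ 2 * ‖u‖ ^ 2) • u)
      (ψ (γ ^ 2 * ‖w‖ ^ 2) • ContinuousLinearMap.id ℝ ℂ +
        (deriv ψ (γ ^ 2 * ‖w‖ ^ 2) • (γ ^ 2 • (2 • innerSL ℝ w))).smulRight w) w := fun w =>
    ((hd _).comp_hasFDerivAt w
      ((hasStrictFDerivAt_norm_sq w).hasFDerivAt.const_mul (γ ^ 2))).smul (hasFDerivAt_id w)
  have := convex_univ.norm_image_sub_le_of_norm_hasFDerivWithin_le (C := 3 * ε)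
    (fun w _ => (hF w).hasFDerivWithinAt) (fun w _ => by
      have hy : 0 ≤ γ ^ 2 * ‖w‖ ^ 2 := by positivity
      refine (norm_add_le _ _).trans ?_
      rw [norm_smul, ContinuousLinearMap.norm_id, ContinuousLinearMap.norm_smulRight_apply, norm_smul,
        norm_smul, two_smul, Real.norm_eq_abs, Real.norm_eq_abs, Real.norm_eq_abs,
        abs_of_nonneg (sq_nonneg γ)]
      have e := (norm_add_le (innerSL ℝ w) (innerSL ℝ w))
      rw [innerSL_apply_norm] at e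
      have e2 : |deriv ψ (γ ^ 2 * ‖w‖ ^ 2)| * (γ ^ 2 * ‖innerSL ℝ w + innerSL ℝ w‖) * ‖w‖ ≤
          |deriv ψ (γ ^ 2 * ‖w‖ ^ 2)| * (γ ^ 2 * (‖w‖ + ‖w‖)) * ‖w‖ := by gcongr
      nlinarith [b0 _ hy, b1 _ hy]) (mem_univ v) (mem_univ u)
  simpa [Phi] using this

theorem outpsi_comp {J n : ℕ} {θ γ t : ℝ} (ht : 0 ≤ t)
    (h : ∀ y : ℝ, 0 ≤ y → Bd (J + 1) (fun s => ((s ^ n * cut T s : ℝ) : ℂ)) y θ 1) :
    Bd J (fun s => (pot T n γ s : ℂ)) t (θ * ((J + 1) * γ ^ 2 + 1) ^ (J + 1)) 1 := by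
  have h1 := Bd.comp' (f := fun s => γ ^ 2 * s) (f' := fun _ => γ ^ 2) (r := t)
    (h (γ ^ 2 * t) (by positivity)) zero_le_one
    (Eventually.of_forall fun s => by simpa using (hasDerivAt_id s).const_mul (γ ^ 2))
    (Bd.const J ((γ ^ 2 : ℝ) : ℂ) t le_rfl) le_rfl
  have h2 := (h1.unit (by positivity)).of_le (Nat.le_succ J)
  rw [Complex.norm_real, Real.norm_eq_abs, abs_of_nonneg (sq_nonneg γ), one_mul, add_zero] at h2
  exact h2

theorem outpsi_smooth (T : ℝ) (n : ℕ) (γ : ℝ) : ContDiff ℝ ∞ (pot T n γ) := by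
  have := (contDiff_pot T n).comp (f := fun y : ℝ => (((0 : ℝ), γ), y)) (by fun_prop)
  exact this

/-- `bd_psi`, `Bd.comp'` with the inner function `y ↦ γ² y`, `Bd.unit`, `lip_Phi`, `aa n → 0` -/
theorem adm_pot (h0 : 0 < T) (hT : T < 1) (J : ℕ) (Γ : ℝ) {ε : ℝ} (hε : 0 < ε) : ∀ᶠ n : ℕ in atTop,
    ∀ b ∈ Bx, ∀ γ ∈ Icc 0 Γ, Adm J ε (ss (aa n) b) (pot T n γ) := by
  set X : ℝ := ((J + 1) * Γ ^ 2 + 1) ^ (J + 1) with hX
  have hX0 : 0 < X := by positivity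
  filter_upwards [bd_psi h0 hT (J + 1) (by positivity : 0 < min (ε / X) (1 / 12)),
    eventually_ge_atTop 5] with n hn hn5 b hb γ hγ
  have hn5' : (5 : ℝ) ≤ n := by exact_mod_cast hn5
  have ha0 : 0 ≤ aa n := by unfold aa; positivity
  have ha1 : aa n ≤ 1 / 10 := by
    unfold aa; exact one_div_le_one_div_of_le (by norm_num) (by linarith)
  refine ⟨?_, by simpa [ss] using ha0, outpsi_smooth T n γ, fun t ht => ?_, fun u v => ?_⟩
  · refine (norm_add_le _ _).trans ?_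
    rw [norm_neg, norm_mul, Complex.norm_I, one_mul, Complex.norm_real, Complex.norm_real,
      Real.norm_eq_abs, Real.norm_eq_abs, abs_of_nonneg ha0, abs_of_nonneg (by linarith [hb.1])]
    linarith [hb.2]
  · refine (outpsi_comp ht hn).mono zero_le_one ?_ le_rfl
    have h1 : ((J + 1) * γ ^ 2 + 1) ^ (J + 1) ≤ X := by
      rw [hX]; gcongr
      · exact hγ.1
      · exact hγ.2
    calc _ ≤ ε / X * X := by gcongr; exact min_le_left _ _
      _ = ε := by field_simp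
  · have := lip_Phi (ψ := fun s => s ^ n * cut T s) ((contDiff_id.pow n).mul (outpsi_cd T))
      (fun y hy => (hn y hy).of_le (by omega))
      (fun y hy => by rw [outpsi_zero hT (by linarith), mul_zero]) γ u v
    refine this.trans ?_
    gcongr
    linarith [min_le_right (ε / X) (1 / 12)]

theorem Adm.all (h0 : 0 < T) (hT : T < 1) {n : ℕ} {γ E : ℝ} {s : ℂ} {J₀ : ℕ}
    (h : Adm J₀ E s (pot T n γ)) (J : ℕ) : ∃ E' : ℝ, Adm J E' s (pot T n γ) := by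
  obtain ⟨E', hE'⟩ := bd_psi' h0 hT (J + 1) n
  exact ⟨_, h.hs, h.re, h.smooth, fun t ht => outpsi_comp ht hE', h.lip⟩

end

end Crest.Agent.R086.P
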