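import Crest.Agent.R086.P.OutLad
import Crest.Agent.R086.P.OutPsi
import Crest.Agent.R086.P.Polar

/-! Row 86, part P-out: from `H(τ)` to `q(ρ) = ρ^s H(log ρ)`. -/

set_option autoImplicit false

open Set Filter Topology MeasureTheory
open scoped ContDiff

namespace Crest.Agent.R086.P

noncomputable section

def qH (s : ℂ) (H : ℝ → ℂ) (ρ : ℝ) : ℂ := Complex.exp (s * Real.log ρ) * H (Real.log ρ)

variable {s c : ℂ} {φ Ψ : ℝ → ℝ} {H q : ℝ → ℂ} {a b ρ r : ℝ}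

theorem qH_mul (c s : ℂ) (H : ℝ → ℂ) : (fun ρ => c * qH s H ρ) = qH s fun τ => c * H τ := by
  funext ρ
  unfold qH
  ring

theorem norm_qH (s : ℂ) (H : ℝ → ℂ) (hρ : 0 < ρ) : ‖qH s H ρ‖ = ρ ^ s.re * ‖H (Real.log ρ)‖ := by
  unfold qH
  rw [norm_mul, Complex.norm_exp, Real.rpow_def_of_pos hρ, Complex.mul_re, Complex.ofReal_re,
    Complex.ofReal_im, mul_zero, sub_zero, mul_comm s.re]

theorem hasDerivAt_qH (hρ : 0 < ρ) (h : DifferentiableAt ℝ H (Real.log ρ)) :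
    HasDerivAt (qH s H)
      (Complex.exp (s * Real.log ρ) * (s * H (Real.log ρ) + deriv H (Real.log ρ)) / ρ) ρ := by
  have h1 := Real.hasDerivAt_log hρ.ne'
  have h2 := ((h1.ofReal_comp.const_mul s).cexp).fun_mul (h.hasDerivAt.scomp ρ h1)
  refine h2.congr_deriv ?_
  simp only [Function.comp_apply, Complex.real_smul]
  push_cast
  ring

/-- `i ρ s = -ρ (b + i a)` -/
theorem qH_sol2 (h : OSol (ss a b) φ H) (hρ : 1 < ρ) :
    Sol2 a b (fun ρ => φ (‖H (Real.log ρ)‖ ^ 2) / ρ) (qH (ss a b) H) ρ := by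
  have hρ0 : 0 < ρ := zero_lt_one.trans hρ
  have hρc : (ρ : ℂ) ≠ 0 := by exact_mod_cast hρ0.ne'
  obtain ⟨d1, d2⟩ := h.ode _ (Real.log_pos hρ)
  have e : deriv (qH (ss a b) H) =ᶠ[𝓝 ρ]
      fun t => qH (ss a b) (fun τ => ss a b * H τ + deriv H τ) t / (t : ℂ) := by
    filter_upwards [Ioi_mem_nhds hρ] with t ht
    exact (hasDerivAt_qH (zero_lt_one.trans ht) (h.ode _ (Real.log_pos ht)).1).deriv
  have d3 := (d1.hasDerivAt.const_mul (ss a b)).fun_add d2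
  refine ⟨(hasDerivAt_qH hρ0 d1).differentiableAt, HasDerivAt.congr_of_eventuallyEq ?_ e⟩
  have d4 := (hasDerivAt_qH (s := ss a b) hρ0 d3.differentiableAt).fun_div
    (hasDerivAt_id ρ).ofReal_comp hρc
  refine d4.congr_deriv ?_
  rw [d3.deriv, (hasDerivAt_qH hρ0 d1).deriv, Real.exp_log hρ0]
  simp only [qH, NN, Phi, ss, id]
  push_cast
  field_simp
  linear_combination ((ρ : ℂ) * b * H (Real.log ρ)) * Complex.I_mul_I

theorem Sol2.const_mul (h : Sol2 a b Ψ q ρ) (c : ℂ) : Sol2 a b Ψ (fun ρ => c * q ρ) ρ := by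
  refine ⟨h.1.const_mul c, ?_⟩
  rw [deriv_const_mul_field' c]
  refine (h.2.const_mul c).congr_deriv ?_
  ring

theorem qH_solR (h : OSol (ss a b) φ H) (c : ℂ) (hr : 2 < r) :
    SolR a b (fun r => φ (‖H (Real.log (r ^ 2 / 4))‖ ^ 2) / (r ^ 2 / 4))
      (Qr fun ρ => c * qH (ss a b) H ρ) r := by
  have h1 : 1 < r ^ 2 / 4 := by nlinarith
  refine solR_of_sol2 (Ψ := fun ρ => φ (‖H (Real.log ρ)‖ ^ 2) / ρ) (by linarith) ?_
    ((qH_sol2 h h1).const_mul c)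
  filter_upwards [Ioi_mem_nhds h1] with t ht
  exact ((qH_sol2 h ht).const_mul c).1

theorem logderiv_qH (hr : 0 < r) (h : DifferentiableAt ℝ H (Real.log (r ^ 2 / 4)))
    (h0 : H (Real.log (r ^ 2 / 4)) ≠ 0) :
    deriv (Qr (qH s H)) r / Qr (qH s H) r =
      2 / r * (s + deriv H (Real.log (r ^ 2 / 4)) / H (Real.log (r ^ 2 / 4))) := by
  have h1 : 0 < r ^ 2 / 4 := by positivity
  have hrc : (r : ℂ) ≠ 0 := by exact_mod_cast hr.ne'
  have d := hasDerivAt_qH (s := s) h1 h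
  rw [(hasDerivAt_Qr d.differentiableAt).deriv, d.deriv]
  have he := Complex.exp_ne_zero (s * Real.log (r ^ 2 / 4))
  simp only [Qr, qH]
  generalize Complex.exp (s * Real.log (r ^ 2 / 4)) = E at he
  push_cast
  field_simp
  ring

theorem outconv_bd {J : ℕ} {f f' : ℝ → ℝ} {θ σ B D : ℝ} (hσ : 0 ≤ σ) (hs : ‖s‖ ≤ 1)
    (h : Bd (J + 1) H (f r) θ σ) (hf : ∀ᶠ t in 𝓝 r, HasDerivAt f (f' t) t)
    (hf' : Bd J (fun t => (f' t : ℂ)) r B D) (hD : 0 ≤ D) :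
    Bd (J + 1) (fun t => Complex.exp (s * f t) * H (f t)) r (θ * Real.exp (f r * s.re))
      ((J + 1) * ((1 + σ) * B + D)) := by
  have h1 := ((Bd.cexp (J + 1) s (f r)).mul h (norm_nonneg _) hσ).mono (by positivity)
    (le_of_eq (show _ = θ * Real.exp (f r * s.re) by rw [mul_comm, mul_comm s.re]))
    (add_le_add_left hs σ)
  exact Bd.comp' (g := fun τ : ℝ => Complex.exp (s * τ) * H τ) h1 (by positivity) hf hf' hD

/-- `Bd.cexp`, `Bd.mul`, `Bd.comp'` with `f = log`, `f' = 1/ρ` (`Bd.inv`) -/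
theorem bd_qH (J : ℕ) {σ : ℝ} (hσ : 0 ≤ σ) : ∃ K : ℝ, 0 ≤ K ∧ ∀ (s : ℂ) (H : ℝ → ℂ) (ρ θ : ℝ),
    ‖s‖ ≤ 1 → 0 < ρ → Bd (J + 1) H (Real.log ρ) θ σ → Bd (J + 1) (qH s H) ρ (θ * ρ ^ s.re) (K / ρ) := by
  refine ⟨(J + 1) * ((1 + σ) + J), by positivity, fun s H ρ θ hs hρ h => ?_⟩
  have h1 := outconv_bd (f' := fun t => t⁻¹) (B := ρ⁻¹) (D := J / ρ) hσ hs h
    (by filter_upwards [Ioi_mem_nhds hρ] with t ht using Real.hasDerivAt_log (ne_of_gt ht))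
    (by simpa using Bd.inv J hρ) (by positivity)
  rw [Real.rpow_def_of_pos hρ]
  exact h1.mono (by positivity) le_rfl (le_of_eq (by ring))

/-- the same with `f r = log (r² / 4)`, `f' = 2 / r` -/
theorem bd_QH (J : ℕ) {σ : ℝ} (hσ : 0 ≤ σ) : ∃ K : ℝ, 0 ≤ K ∧ ∀ (s : ℂ) (H : ℝ → ℂ) (r θ : ℝ),
    ‖s‖ ≤ 1 → 0 < r → Bd (J + 1) H (Real.log (r ^ 2 / 4)) θ σ →
      Bd (J + 1) (Qr (qH s H)) r (θ * (r ^ 2 / 4) ^ s.re) (K / r) := by
  refine ⟨(J + 1) * ((1 + σ) * 2 + J), by positivity, fun s H r θ hs hr h => ?_⟩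
  have h1 := outconv_bd (f := fun t => Real.log (t ^ 2 / 4)) (f' := fun t => 2 * t⁻¹)
    (B := 2 * r⁻¹) (D := J / r) hσ hs h
    (by
      filter_upwards [Ioi_mem_nhds hr] with t ht
      have ht0 : 0 < t := ht
      refine ((polar_sq t).log (by positivity)).congr_deriv ?_
      field_simp
      norm_num)
    (by simpa using (Bd.inv J hr).const_mul 2) (by positivity)
  rw [Real.rpow_def_of_pos (by positivity)]
  exact h1.mono (by positivity) le_rfl (le_of_eq (by ring))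

/-- `ρ ≥ (1 + ρ) / 2` -/
theorem symb_qH (hs : ‖ss a b‖ ≤ 1) (ha : 0 ≤ a)
    (h : ∀ J : ℕ, ∃ K : ℝ, 0 ≤ K ∧ ∀ τ : ℝ, 0 < τ → Bd J H τ K K) (j : ℕ) :
    ∃ K : ℝ, ∀ ρ : ℝ, 2.7225 < ρ → ‖iteratedDeriv j (qH (ss a b) H) ρ‖ ≤ K * (1 + ρ) ^ (-a - j) := by
  obtain ⟨K, hK, hb⟩ := h (j + 1)
  obtain ⟨K', hK', hq⟩ := bd_qH j hK
  refine ⟨K * K' ^ j / 2 ^ (-a - j), fun ρ hρ => ?_⟩
  have hρ1 : 1 < ρ := by linarith
  have hρ0 : 0 < ρ := by linarith
  have h1 := (hq _ H ρ K hs hρ0 (hb _ (Real.log_pos hρ1))).2 j (Nat.le_succ j)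
  have hre : (ss a b).re = -a := by simp [ss]
  have hj : (0 : ℝ) ≤ j := Nat.cast_nonneg j
  have h2 : ρ ^ (-a - j) ≤ ((1 + ρ) / 2) ^ (-a - j) :=
    Real.rpow_le_rpow_of_nonpos (by positivity) (by linarith) (by linarith)
  rw [Real.div_rpow (by positivity) (by norm_num)] at h2
  calc _ ≤ _ := h1
    _ = K * K' ^ j * ρ ^ (-a - j) := by
      rw [hre, Real.rpow_sub hρ0, Real.rpow_natCast, div_pow]
      ring
    _ ≤ K * K' ^ j * ((1 + ρ) ^ (-a - j) / 2 ^ (-a - j)) := by gcongr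
    _ = _ := by ring

theorem bd_DD (J : ℕ) {K : ℝ} (hK : 0 ≤ K) : ∃ K' : ℝ, 0 ≤ K' ∧ ∀ (F : ℝ → ℂ) (r θ : ℝ), 0 < r →
    Bd (J + 2) F r θ (K / r) → Bd J (DD 0 F) r (θ * (K' / r ^ 2)) (K' / r) := by
  refine ⟨K ^ 2 + 12 * K + J, by positivity, fun F r θ hr h => ?_⟩
  have hθ := h.nonneg
  have hJ : (0 : ℝ) ≤ J := Nat.cast_nonneg J
  have hle : (J : ℝ) / r + K / r ≤ (K ^ 2 + 12 * K + J) / r := by
    rw [← add_div]
    exact div_le_div_of_nonneg_right (by nlinarith) hr.le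
  have h1 : Bd (J + 1) (deriv F) r (θ * (K / r)) (K / r) := Bd.deriv (J := J + 1) h
  have h2 := h1.deriv.mono (by positivity) le_rfl
    ((le_add_of_nonneg_left (by positivity)).trans hle)
  have h3 := (((Bd.inv J hr).const_mul 11).mul (h1.of_le (Nat.le_succ J)) (by positivity)
    (by positivity)).mono (by positivity) le_rfl hle
  refine ((h2.add h3).mono (by positivity) ?_ le_rfl).congr (Eventually.of_forall fun t => ?_)
  · have e : θ * (K / r) * (K / r) + ‖(11 : ℂ)‖ * r⁻¹ * (θ * (K / r)) =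
        θ * ((K ^ 2 + 11 * K) / r ^ 2) := by
      rw [show ‖(11 : ℂ)‖ = 11 by simp]
      field_simp
    rw [e]
    exact mul_le_mul_of_nonneg_left (div_le_div_of_nonneg_right (by linarith) (by positivity)) hθ
  · simp [DD, div_eq_mul_inv]

/-- `ub_H` with `Y = Unit`, `J = 12`; `bd_QH`; `qH_solR` with `c = 1`; `bd_DD` four times gives
`‖𝒟⁴ F r‖ ≤ K r^{-8}` and continuity on `(3, ∞)`; `integrableOn_Ioi_rpow_of_lt` -/
theorem free_qH (hA : Adm 12 1 (ss 0 b) fun _ => 0) (h : OSol (ss 0 b) (fun _ => 0) H) :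
    Free 3 0 (-Complex.I * b) (Qr (qH (ss 0 b) H)) 0 := by
  obtain ⟨K, hK1, hb⟩ := ub_H (Y := Unit) (J := 12) (σ := fun _ => ss 0 b) (ϕ := fun _ _ => 0)
    (H := fun _ => H) (fun _ => hA) (fun _ => h) (by norm_num)
  have hK : 0 ≤ K := by linarith
  obtain ⟨K₀, hK₀, hq⟩ := bd_QH 11 hK
  obtain ⟨K₁, hK₁, d₁⟩ := bd_DD 10 hK₀
  obtain ⟨K₂, hK₂, d₂⟩ := bd_DD 8 hK₁
  obtain ⟨K₃, hK₃, d₃⟩ := bd_DD 6 hK₂
  obtain ⟨K₄, hK₄, d₄⟩ := bd_DD 4 hK₃
  have hre : (ss 0 b).re = 0 := by simp [ss]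
  have b0 : ∀ r : ℝ, 3 < r → Bd 12 (Qr (qH (ss 0 b) H)) r K (K₀ / r) := fun r hr => by
    have := hq (ss 0 b) H r (K * 1) (hA.hs.trans (by norm_num)) (by linarith)
      (hb () _ (Real.log_pos (by nlinarith)))
    rwa [hre, Real.rpow_zero, mul_one, mul_one] at this
  have b4 : ∀ r : ℝ, 3 < r → Bd 4 ((DD 0)^[4] (Qr (qH (ss 0 b) H))) r
      (K * (K₁ / r ^ 2) * (K₂ / r ^ 2) * (K₃ / r ^ 2) * (K₄ / r ^ 2)) (K₄ / r) := fun r hr => by
    have hr0 : 0 < r := by linarith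
    exact d₄ _ r _ hr0 (d₃ _ r _ hr0 (d₂ _ r _ hr0 (d₁ _ r _ hr0 (b0 r hr))))
  refine ⟨fun r hr => ?_, fun r hr => ?_, ?_⟩
  · exact_mod_cast (b0 r hr).1.contDiffWithinAt
  · have h1 := (qH_solR h 1 (show 2 < r by linarith)).2.deriv
    simp only [one_mul] at h1
    have hrc : (r : ℂ) ≠ 0 := by exact_mod_cast (show r ≠ 0 by linarith)
    unfold DD
    rw [h1]
    simp only [Pi.zero_apply]
    push_cast
    linear_combination (-(r : ℂ) / 2 * deriv (Qr (qH (ss 0 b) H)) r) * Complex.I_mul_I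
  · have hi := (integrableOn_Ioi_rpow_of_lt (a := -5) (c := 3 + 1) (by norm_num)
      (by norm_num)).const_mul ((K * K₁ * K₂ * K₃ * K₄) ^ 2)
    refine Integrable.mono' hi ?_ ?_
    · refine ContinuousOn.aestronglyMeasurable (fun r hr => ?_) measurableSet_Ioi
      have hr' : 3 < r := by
        have : 3 + 1 < r := hr
        linarith
      exact ((continuousAt_id.pow 11).mul
        ((b4 r hr').1.continuousAt.norm.pow 2)).continuousWithinAt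
    · refine (ae_restrict_iff' measurableSet_Ioi).2 (Eventually.of_forall fun r hr => ?_)
      have hr' : 3 < r := by
        have : 3 + 1 < r := hr
        linarith
      have hr0 : 0 < r := by linarith
      have h1 := (b4 r hr').2 0 (Nat.zero_le _)
      rw [iteratedDeriv_zero, pow_zero, mul_one] at h1
      rw [Real.norm_of_nonneg (by positivity), Real.rpow_neg hr0.le,
        show (5 : ℝ) = (5 : ℕ) by norm_num, Real.rpow_natCast]
      calc _ ≤ r ^ 11 * (K * (K₁ / r ^ 2) * (K₂ / r ^ 2) * (K₃ / r ^ 2) * (K₄ / r ^ 2)) ^ 2 := by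
            gcongr
        _ = _ := by field_simp

/-- `bd_QH`, `Bd.V1`, `Bd.V2`, `((r²/4) ^ (-a)) ^ (2n) = 4 / r²`, `eventually_small` with `ε / 4` -/
theorem tiny_qH {θ σ ε : ℝ} (h0 : 0 ≤ θ) (h1 : θ < 1) (hσ : 0 ≤ σ) (hε : 0 < ε) : ∀ᶠ n : ℕ in atTop,
    ∀ (b : ℝ) (H : ℝ → ℂ) (r : ℝ), ‖ss (aa n) b‖ ≤ 1 → 0 < r → Bd 12 H (Real.log (r ^ 2 / 4)) θ σ →
      ∀ i : ℕ, i ≤ 12 →
        ‖iteratedDeriv i (fun s => V1 n (Qr (qH (ss (aa n) b) H) s)) r‖ ≤ ε * r ^ (-(2 : ℝ) - i) ∧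
        ‖iteratedDeriv i (fun s => V2 n (Qr (qH (ss (aa n) b) H) s)) r‖ ≤ ε * r ^ (-(2 : ℝ) - i) := by
  obtain ⟨K, hK, hq⟩ := bd_QH 11 hσ
  filter_upwards [eventually_small h0 h1 K 12 (show 0 < ε / 4 by positivity),
    eventually_ge_atTop 1] with n hn hn1 b H r hs hr h i hi
  have hb := hq _ H r θ hs hr h
  have hre : (ss (aa n) b).re = -aa n := by simp [ss]
  have hn0 : (0 : ℝ) < n := by exact_mod_cast hn1
  have e : (θ * (r ^ 2 / 4) ^ (ss (aa n) b).re) ^ (2 * n) = θ ^ (2 * n) * (4 / r ^ 2) := by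
    rw [hre, mul_pow, ← Real.rpow_natCast ((r ^ 2 / 4) ^ (-aa n)), ← Real.rpow_mul (by positivity),
      show -aa n * ((2 * n : ℕ) : ℝ) = -1 by unfold aa; push_cast; field_simp,
      Real.rpow_neg_one, inv_div]
  have key : ((n : ℝ) + 1) * (θ ^ (2 * n) * (4 / r ^ 2)) * (2 * n * (K / r)) ^ i ≤
      ε * r ^ (-(2 : ℝ) - i) := by
    rw [Real.rpow_sub hr, Real.rpow_neg hr.le, Real.rpow_natCast, Real.rpow_two]
    calc _ ≤ ((n : ℝ) + 1) * (θ ^ (2 * n) * (4 / r ^ 2)) * ((2 * n + 1) * (K / r)) ^ i := by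
          gcongr
          linarith
      _ = ((n : ℝ) + 1) * θ ^ (2 * n) * ((2 * n + 1) * K) ^ i * (4 * ((r ^ 2)⁻¹ / r ^ i)) := by
          rw [← mul_div_assoc _ K, div_pow]
          ring
      _ ≤ ε / 4 * (4 * ((r ^ 2)⁻¹ / r ^ i)) := by
          gcongr
          exact hn i hi
      _ = _ := by ring
  constructor
  · have := (hb.V1 (by positivity) n).2 i hi
    rw [e] at this
    exact this.trans key
  · have := (hb.V2 (by positivity) hn1).2 i hi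
    rw [e] at this
    refine this.trans (le_trans ?_ key)
    gcongr
    linarith

end

end Crest.Agent.R086.P
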