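import Crest.Agent.R086.P.Defs

/-! Row 86, part P-out: integration from infinity, the a priori estimate and the fixed point.
The variable is `τ = log ρ`; the equation is `e' = k`, `k' = F - (β + i e^τ) k`. -/

set_option autoImplicit false

open Set Filter Topology MeasureTheory

namespace Crest.Agent.R086.P

/-- on `[τ, T]` compare `‖g t - g τ‖` with `B (e^{-mτ} - e^{-mt}) / m`
(`image_norm_le_of_norm_deriv_right_le_deriv_boundary`), let `T → ∞` -/
theorem from_inf {g g' : ℝ → ℂ} {τ B m : ℝ} (hm : 0 < m) (hd : ∀ t, τ ≤ t → HasDerivAt g (g' t) t)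
    (hb : ∀ t, τ ≤ t → ‖g' t‖ ≤ B * Real.exp (-(m * t))) (h0 : Tendsto g atTop (𝓝 0)) :
    ‖g τ‖ ≤ B * Real.exp (-(m * τ)) / m := by
  have hB : 0 ≤ B := nonneg_of_mul_nonneg_left ((norm_nonneg _).trans (hb τ le_rfl))
    (Real.exp_pos _)
  have key : ∀ T, τ ≤ T → ‖g T - g τ‖ ≤ B * Real.exp (-(m * τ)) / m := by
    intro T hT
    have h1 := image_norm_le_of_norm_deriv_right_le_deriv_boundary (f := fun t => g t - g τ)
      (f' := g') (a := τ) (b := T)
      (fun t ht => ((hd t ht.1).sub_const _).continuousAt.continuousWithinAt)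
      (fun t ht => ((hd t ht.1).sub_const _).hasDerivWithinAt)
      (B := fun t => B * Real.exp (-(m * τ)) / m - B * Real.exp (-(m * t)) / m)
      (B' := fun t => B * Real.exp (-(m * t))) (by simp) (fun t => by
        have h2 := (((((hasDerivAt_id t).const_mul m).neg.exp).const_mul B).div_const m).const_sub
          (B * Real.exp (-(m * τ)) / m)
        refine h2.congr_deriv ?_
        simp only [Pi.neg_apply, id]
        field_simp) (fun t ht => hb t ht.1) ⟨hT, le_rfl⟩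
    have h3 : 0 ≤ B * Real.exp (-(m * T)) / m := by positivity
    linarith
  have h4 := le_of_tendsto (h0.sub_const (g τ)).norm ((eventually_ge_atTop τ).mono key)
  rwa [zero_sub, norm_neg] at h4

theorem outint_norm (β : ℂ) (t : ℝ) :
    ‖Complex.exp (β * t + Complex.I * Real.exp t)‖ = Real.exp (β.re * t) := by
  rw [Complex.norm_exp]
  simp [-Complex.ofReal_exp]

theorem outint_deriv (β : ℂ) (t : ℝ) :
    HasDerivAt (fun t : ℝ => Complex.exp (β * t + Complex.I * Real.exp t))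
      (Complex.exp (β * t + Complex.I * Real.exp t) * (β + Complex.I * Real.exp t)) t := by
  have h1 := (((hasDerivAt_id t).ofReal_comp.const_mul β).add
    ((Real.hasDerivAt_exp t).ofReal_comp.const_mul Complex.I)).cexp
  simpa using h1

theorem outint_tend (A : ℝ) {m : ℝ} (hm : 0 < m) :
    Tendsto (fun t : ℝ => A * Real.exp (-(m * t))) atTop (𝓝 0) := by
  have h := (Real.tendsto_exp_neg_atTop_nhds_zero.comp
    (tendsto_id.const_mul_atTop hm)).const_mul A
  rw [mul_zero] at h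
  exact h

/-- `from_inf` for `exp (β t + i e^t) κ t` -/
theorem first_order {κ f : ℝ → ℂ} {β : ℂ} {τ A B μ ν : ℝ} (hμ : β.re < μ) (hν : β.re < ν)
    (hd : ∀ t, τ ≤ t → HasDerivAt κ (f t - (β + Complex.I * Real.exp t) * κ t) t)
    (hf : ∀ t, τ ≤ t → ‖f t‖ ≤ B * Real.exp (-(μ * t)))
    (hκ : ∀ t, τ ≤ t → ‖κ t‖ ≤ A * Real.exp (-(ν * t))) :
    ‖κ τ‖ ≤ B * Real.exp (-(μ * τ)) / (μ - β.re) := by
  have h1 := from_inf (g := fun t => Complex.exp (β * t + Complex.I * Real.exp t) * κ t)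
    (g' := fun t => Complex.exp (β * t + Complex.I * Real.exp t) * f t) (τ := τ) (B := B)
    (m := μ - β.re) (sub_pos.2 hμ) (fun t ht => by
      refine ((outint_deriv β t).mul (hd t ht)).congr_deriv ?_
      ring) (fun t ht => by
      rw [norm_mul, outint_norm]
      refine (mul_le_mul_of_nonneg_left (hf t ht) (Real.exp_pos _).le).trans (le_of_eq ?_)
      rw [mul_left_comm, ← Real.exp_add]
      congr 2
      ring) (by
      refine squeeze_zero_norm' ((eventually_ge_atTop τ).mono fun t ht => ?_)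
        (outint_tend A (sub_pos.2 hν))
      rw [norm_mul, outint_norm]
      refine (mul_le_mul_of_nonneg_left (hκ t ht) (Real.exp_pos _).le).trans (le_of_eq ?_)
      rw [mul_left_comm, ← Real.exp_add]
      congr 2
      ring)
  rw [norm_mul, outint_norm] at h1
  refine le_of_mul_le_mul_left (h1.trans (le_of_eq ?_)) (Real.exp_pos (β.re * τ))
  rw [← mul_div_assoc, mul_left_comm, ← Real.exp_add]
  congr 3
  ring

/-- one step of the estimate -/
theorem outint_step {d κ f : ℝ → ℂ} {β : ℂ} {A B τ : ℝ} (hβ : β.re ≤ 5) (hB : 0 ≤ B)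
    (hd : ∀ t, τ ≤ t → HasDerivAt d (κ t) t ∧
      HasDerivAt κ (f t - (β + Complex.I * Real.exp t) * κ t) t)
    (hA : ∀ t, τ ≤ t → ‖d t‖ ≤ A * Real.exp (-(7 * t)) ∧ ‖κ t‖ ≤ A * Real.exp (-(7 * t)))
    (hf : ∀ t, τ ≤ t → ‖f t‖ ≤ B * Real.exp (-(7 * t))) :
    ‖d τ‖ ≤ B / 14 * Real.exp (-(7 * τ)) ∧ ‖κ τ‖ ≤ B / 2 * Real.exp (-(7 * τ)) := by
  have h1 : ∀ t, τ ≤ t → ‖κ t‖ ≤ B / 2 * Real.exp (-(7 * t)) := fun t ht => by
    refine (first_order (μ := 7) (ν := 7) (by linarith) (by linarith)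
      (fun s hs => (hd s (ht.trans hs)).2) (fun s hs => hf s (ht.trans hs))
      fun s hs => (hA s (ht.trans hs)).2).trans ?_
    rw [div_mul_eq_mul_div]
    exact div_le_div_of_nonneg_left (by positivity) two_pos (by linarith)
  refine ⟨(from_inf (by norm_num) (fun t ht => (hd t ht).1) h1 (squeeze_zero_norm'
    ((eventually_ge_atTop τ).mono fun t ht => (hA t ht).1)
      (outint_tend A (by norm_num)))).trans (le_of_eq (by ring)), h1 τ le_rfl⟩

/-- with `A* = sup e^{7t} ‖d t‖`: `‖κ‖ ≤ (3 A* + M) e^{-7t} / 2`, `‖d‖ ≤ (3 A* + M) e^{-7t} / 14`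
(alternatively iterate the map `A ↦ (3 A + M) / 14` and pass to the limit) -/
theorem apriori {d κ f : ℝ → ℂ} {β : ℂ} {A M : ℝ} (hβ : β.re ≤ 5) (hM : 0 ≤ M)
    (hd : ∀ t, 0 < t → HasDerivAt d (κ t) t ∧
      HasDerivAt κ (f t - (β + Complex.I * Real.exp t) * κ t) t)
    (hA : ∀ t, 0 < t → ‖d t‖ ≤ A * Real.exp (-(7 * t)) ∧ ‖κ t‖ ≤ A * Real.exp (-(7 * t)))
    (hf : ∀ t, 0 < t → ‖f t‖ ≤ 3 * ‖d t‖ + M * Real.exp (-(7 * t))) :
    ∀ t, 0 < t → ‖d t‖ ≤ M * Real.exp (-(7 * t)) ∧ ‖κ t‖ ≤ 2 * M * Real.exp (-(7 * t)) := by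
  have hA0 : 0 ≤ A := nonneg_of_mul_nonneg_left ((norm_nonneg _).trans (hA 1 one_pos).1)
    (Real.exp_pos _)
  have step : ∀ x : ℝ, 0 ≤ x → (∀ t, 0 < t → ‖d t‖ ≤ x * Real.exp (-(7 * t))) → ∀ t, 0 < t →
      ‖d t‖ ≤ (3 * x + M) / 14 * Real.exp (-(7 * t)) ∧
        ‖κ t‖ ≤ (3 * x + M) / 2 * Real.exp (-(7 * t)) := fun x hx h t ht =>
    outint_step hβ (by positivity) (fun s hs => hd s (ht.trans_le hs))
      (fun s hs => hA s (ht.trans_le hs)) fun s hs => by
        have h1 := hf s (ht.trans_le hs)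
        have h2 := h s (ht.trans_le hs)
        linarith
  have ind : ∀ n : ℕ, ∀ t, 0 < t → ‖d t‖ ≤ (M + A * (1 / 2) ^ n) * Real.exp (-(7 * t)) := by
    intro n
    induction n with
    | zero => exact fun t ht => (hA t ht).1.trans (by gcongr; simpa using hM)
    | succ n ih =>
      intro t ht
      refine (step _ (by positivity) ih t ht).1.trans ?_
      have : 0 ≤ A * (1 / 2) ^ n := by positivity
      gcongr
      rw [pow_succ]
      linarith
  have hd' : ∀ t, 0 < t → ‖d t‖ ≤ M * Real.exp (-(7 * t)) := fun t ht => by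
    have h1 := (((tendsto_pow_atTop_nhds_zero_of_lt_one (r := (1 / 2 : ℝ)) (by norm_num)
      (by norm_num)).const_mul A).const_add M).mul_const (Real.exp (-(7 * t)))
    rw [mul_zero, add_zero] at h1
    exact ge_of_tendsto' h1 fun n => ind n t ht
  exact fun t ht => ⟨hd' t ht, (step M hM hd' t ht).2.trans (le_of_eq (by ring))⟩

/-- tails: `∫_{Ioi τ} = ∫_{Ioi 0} - ∫_0^τ` (`intervalIntegral.integral_Ioi_sub_Ioi` or
`integral_Iic_add_Ioi`-type splitting), `continuous_of_dominated`,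
`intervalIntegral.continuous_parametric_primitive_of_continuous`, `integrableOn_exp_mul_Ioi`,
`integral_exp_mul_Ioi`.  The exponent `m p` is bounded below by `m₀`, use the bound
`B exp (-m₀ t)` for `t > 0`. -/
theorem tail_int {g : ℝ × ℝ → ℝ → ℂ} {m : ℝ × ℝ → ℝ} {B m₀ : ℝ} (hg : Continuous (Function.uncurry g))
    (h0 : 0 < m₀) (hm : ∀ p, m₀ ≤ m p) (hb : ∀ p t, ‖g p t‖ ≤ B * Real.exp (-(m p * t))) :
    Continuous (fun z : (ℝ × ℝ) × ℝ => ∫ t in Ioi z.2, g z.1 t) ∧
      (∀ p τ, HasDerivAt (fun τ => ∫ t in Ioi τ, g p t) (-g p τ) τ) ∧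
      ∀ p τ, ‖∫ t in Ioi τ, g p t‖ ≤ B * Real.exp (-(m p * τ)) / m p := by
  have hc : ∀ p, Continuous (g p) := fun p => hg.uncurry_left p
  have hexp : ∀ {a : ℝ}, 0 < a → ∀ τ, IntegrableOn (fun t => B * Real.exp (-(a * t))) (Ioi τ) :=
    fun {a} ha τ => by
      have h := (integrableOn_exp_mul_Ioi (neg_lt_zero.2 ha) τ).const_mul B
      simp only [neg_mul] at h
      exact h
  have hmp : ∀ p, 0 < m p := fun p => h0.trans_le (hm p)
  have hi : ∀ p τ, IntegrableOn (g p) (Ioi τ) := fun p τ =>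
    (hexp (hmp p) τ).mono' (hc p).aestronglyMeasurable (Eventually.of_forall (hb p))
  have hs : ∀ p τ, ∫ t in Ioi τ, g p t = (∫ t in Ioi 0, g p t) - ∫ t in (0 : ℝ)..τ, g p t :=
    fun p τ => by rw [← intervalIntegral.integral_Ioi_sub_Ioi' (hi p 0) (hi p τ), sub_sub_cancel]
  have hB : 0 ≤ B := nonneg_of_mul_nonneg_left ((norm_nonneg _).trans (hb 0 0)) (Real.exp_pos _)
  refine ⟨?_, fun p τ => ?_, fun p τ => ?_⟩
  · refine Continuous.congr (Continuous.sub (Continuous.comp (g := fun p => ∫ t in Ioi 0, g p t) ?_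
      continuous_fst) (intervalIntegral.continuous_parametric_primitive_of_continuous hg))
      fun z => (hs z.1 z.2).symm
    refine continuous_of_dominated (fun p => (hc p).aestronglyMeasurable) (fun p => ?_) (hexp h0 0)
      (Eventually.of_forall fun t => hg.uncurry_right t)
    refine (ae_restrict_mem measurableSet_Ioi).mono fun t ht => (hb p t).trans ?_
    have h1 : (0 : ℝ) ≤ t := le_of_lt ht
    have h2 := hm p
    gcongr
  · rw [funext (hs p)]
    exact ((hc p).integral_hasStrictDerivAt 0 τ).hasDerivAt.const_sub _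
  · refine (norm_integral_le_of_norm_le (hexp (hmp p) τ) (Eventually.of_forall (hb p))).trans
      (le_of_eq ?_)
    have h1 := integral_exp_mul_Ioi (neg_lt_zero.2 (hmp p)) τ
    simp only [neg_mul] at h1
    rw [integral_const_mul, h1, neg_div_neg_eq, mul_div_assoc]

/-- the linear problem -/
theorem outint_lin {β : ℝ × ℝ → ℂ} {f : ℝ × ℝ → ℝ → ℂ} {B : ℝ} (hβ : Continuous β)
    (hβ' : ∀ p, (β p).re ≤ 5) (hf : Continuous (Function.uncurry f))
    (hb : ∀ p t, ‖f p t‖ ≤ B * Real.exp (-(7 * t))) :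
    ∃ e k : ℝ × ℝ → ℝ → ℂ, Continuous (Function.uncurry e) ∧ Continuous (Function.uncurry k) ∧
      ∀ p t, HasDerivAt (e p) (k p t) t ∧
        HasDerivAt (k p) (f p t - (β p + Complex.I * Real.exp t) * k p t) t ∧
        ‖e p t‖ ≤ B * Real.exp (-(7 * t)) ∧ ‖k p t‖ ≤ B * Real.exp (-(7 * t)) := by
  have hB : 0 ≤ B := nonneg_of_mul_nonneg_left ((norm_nonneg _).trans (hb 0 0)) (Real.exp_pos _)
  set E : ℝ × ℝ → ℝ → ℂ := fun p t => Complex.exp (β p * t + Complex.I * Real.exp t) with hE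
  have hEc : Continuous (Function.uncurry E) := by
    change Continuous fun z : (ℝ × ℝ) × ℝ => Complex.exp (β z.1 * z.2 + Complex.I * Real.exp z.2)
    fun_prop
  have hE0 : ∀ p t, E p t ≠ 0 := fun p t => Complex.exp_ne_zero _
  obtain ⟨a1, a2, a3⟩ := tail_int (g := fun p t => E p t * f p t) (m := fun p => 7 - (β p).re)
    (B := B) (m₀ := 2) (hEc.mul hf) two_pos (fun p => by linarith [hβ' p]) fun p t => by
      rw [norm_mul, outint_norm]
      refine (mul_le_mul_of_nonneg_left (hb p t) (Real.exp_pos _).le).trans (le_of_eq ?_)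
      rw [mul_left_comm, ← Real.exp_add]
      congr 2
      ring
  set k : ℝ × ℝ → ℝ → ℂ := fun p τ => -(∫ t in Ioi τ, E p t * f p t) / E p τ with hk
  have hkc : Continuous (Function.uncurry k) := a1.neg.div hEc fun z => hE0 z.1 z.2
  have hkb : ∀ p t, ‖k p t‖ ≤ B * Real.exp (-(7 * t)) := fun p t => by
    rw [hk, norm_div, norm_neg, outint_norm, div_le_iff₀ (Real.exp_pos _)]
    refine (a3 p t).trans ((div_le_self (by positivity) (by linarith [hβ' p])).trans (le_of_eq ?_))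
    rw [mul_assoc, ← Real.exp_add]
    congr 2
    ring
  obtain ⟨b1, b2, b3⟩ := tail_int (g := k) (m := fun _ => 7) (B := B) (m₀ := 7) hkc (by norm_num)
    (fun _ => le_rfl) hkb
  refine ⟨fun p τ => -∫ t in Ioi τ, k p t, k, b1.neg, hkc, fun p t => ⟨?_, ?_, ?_, hkb p t⟩⟩
  · exact (b2 p t).neg.congr_deriv (neg_neg _)
  · refine ((a2 p t).neg.div (outint_deriv (β p) t) (hE0 p t)).congr_deriv ?_
    have := hE0 p t
    simp only [hk, hE, Pi.neg_apply] at this ⊢
    field_simp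
  · rw [norm_neg]
    exact (b3 p t).trans (div_le_self (by positivity) (by norm_num))

/-- Contraction with constant `3/14` for `η = e^{7τ} e` in `BoundedContinuousFunction ((ℝ × ℝ) × ℝ) ℂ`:
`k p τ = - exp (-β τ - i e^τ) ∫_{Ioi τ} exp (β t + i e^t) F p t (e p t)`, `e_new p τ = - ∫_{Ioi τ} k p t`;
`tail_int` with `m = 7 - Re β ≥ 2` and `m = 7`.  (Compare `exists_volterra` in `P/Ivp.lean`.) -/
theorem exists_fix {β : ℝ × ℝ → ℂ} {F : ℝ × ℝ → ℝ → ℂ → ℂ} {M : ℝ} (hβ : Continuous β)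
    (hβ' : ∀ p, (β p).re ≤ 5) (hF : Continuous fun z : ((ℝ × ℝ) × ℝ) × ℂ => F z.1.1 z.1.2 z.2)
    (hL : ∀ p t u v, ‖F p t u - F p t v‖ ≤ 3 * ‖u - v‖)
    (h0 : ∀ p t, ‖F p t 0‖ ≤ M * Real.exp (-(7 * t))) :
    ∃ (e k : ℝ × ℝ → ℝ → ℂ) (A : ℝ), Continuous (Function.uncurry e) ∧ Continuous (Function.uncurry k) ∧
      ∀ p t, HasDerivAt (e p) (k p t) t ∧
        HasDerivAt (k p) (F p t (e p t) - (β p + Complex.I * Real.exp t) * k p t) t ∧
        ‖e p t‖ ≤ A * Real.exp (-(7 * t)) ∧ ‖k p t‖ ≤ A * Real.exp (-(7 * t)) := by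
  have hM : 0 ≤ M := nonneg_of_mul_nonneg_left ((norm_nonneg _).trans (h0 0 0)) (Real.exp_pos _)
  have hn : ∀ (t : ℝ) (z : ℂ), ‖(Real.exp t : ℂ) * z‖ = Real.exp t * ‖z‖ := fun t z => by
    rw [norm_mul, Complex.norm_real, Real.norm_eq_abs, abs_of_pos (Real.exp_pos t)]
  have hinv : ∀ t : ℝ, Real.exp (7 * t) * Real.exp (-(7 * t)) = 1 := fun t => by
    rw [← Real.exp_add, add_neg_cancel, Real.exp_zero]
  let f : BoundedContinuousFunction ((ℝ × ℝ) × ℝ) ℂ → ℝ × ℝ → ℝ → ℂ := fun η p t =>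
    F p t (Real.exp (-(7 * t)) * η (p, t))
  have hfc : ∀ η, Continuous (Function.uncurry (f η)) := fun η =>
    hF.comp (f := fun z : (ℝ × ℝ) × ℝ => (z, (Real.exp (-(7 * z.2)) : ℂ) * η z)) (by fun_prop)
  have hfd : ∀ η η' p t, ‖f η p t - f η' p t‖ ≤ 3 * dist η η' * Real.exp (-(7 * t)) := by
    intro η η' p t
    refine (hL p t _ _).trans ?_
    rw [← mul_sub, hn, ← dist_eq_norm, mul_assoc, mul_comm (dist η η')]
    have := BoundedContinuousFunction.dist_coe_le_dist (f := η) (g := η') (p, t)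
    gcongr
  have hfb : ∀ η p t, ‖f η p t‖ ≤ (3 * ‖η‖ + M) * Real.exp (-(7 * t)) := by
    intro η p t
    have h1 := hfd η 0 p t
    have h2 := h0 p t
    have h3 : f 0 p t = F p t 0 := by simp [f]
    have h4 := norm_le_norm_add_norm_sub' (f η p t) (F p t 0)
    rw [h3, dist_zero_right] at h1
    linarith
  choose e k he hk h using fun η => outint_lin hβ hβ' (hfc η) (hfb η)
  let Φ : BoundedContinuousFunction ((ℝ × ℝ) × ℝ) ℂ → BoundedContinuousFunction ((ℝ × ℝ) × ℝ) ℂ :=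
    fun η => BoundedContinuousFunction.ofNormedAddCommGroup
      (fun z => (Real.exp (7 * z.2) : ℂ) * Function.uncurry (e η) z)
      (Continuous.mul (by fun_prop) (he η)) (3 * ‖η‖ + M) fun z => by
        rw [hn]
        refine (mul_le_mul_of_nonneg_left (h η z.1 z.2).2.2.1 (Real.exp_pos _).le).trans
          (le_of_eq ?_)
        rw [mul_left_comm, hinv, mul_one]
  have hΦ : ContractingWith (1 / 2) Φ := by
    refine ⟨by norm_num, LipschitzWith.of_dist_le_mul fun η η' =>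
      (BoundedContinuousFunction.dist_le (by positivity)).2 fun z => ?_⟩
    have h1 := (outint_step (d := fun t => e η z.1 t - e η' z.1 t)
      (κ := fun t => k η z.1 t - k η' z.1 t) (f := fun t => f η z.1 t - f η' z.1 t)
      (A := (3 * ‖η‖ + M) + (3 * ‖η'‖ + M)) (B := 3 * dist η η') (τ := z.2) (hβ' z.1)
      (by positivity) (fun t _ => ⟨(h η z.1 t).1.sub (h η' z.1 t).1, by
        refine ((h η z.1 t).2.1.sub (h η' z.1 t).2.1).congr_deriv ?_
        ring⟩) (fun t _ => ⟨(norm_sub_le _ _).trans (by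
          linarith [(h η z.1 t).2.2.1, (h η' z.1 t).2.2.1]), (norm_sub_le _ _).trans (by
          linarith [(h η z.1 t).2.2.2, (h η' z.1 t).2.2.2])⟩) fun t _ => hfd η η' z.1 t).1
    change dist ((Real.exp (7 * z.2) : ℂ) * e η z.1 z.2) ((Real.exp (7 * z.2) : ℂ) * e η' z.1 z.2) ≤ _
    rw [dist_eq_norm, ← mul_sub, hn]
    refine (mul_le_mul_of_nonneg_left h1 (Real.exp_pos _).le).trans ?_
    rw [mul_left_comm, hinv]
    have := dist_nonneg (x := η) (y := η')
    push_cast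
    linarith
  set η := hΦ.fixedPoint Φ with hη
  have hfix : Φ η = η := hΦ.fixedPoint_isFixedPt
  refine ⟨e η, k η, 3 * ‖η‖ + M, he η, hk η, fun p t => ?_⟩
  have h1 : (Real.exp (7 * t) : ℂ) * e η p t = η (p, t) := DFunLike.congr_fun hfix (p, t)
  have h2 : f η p t = F p t (e η p t) := by
    simp only [f]
    rw [← h1, ← mul_assoc, ← Complex.ofReal_mul, mul_comm (Real.exp _), hinv, Complex.ofReal_one,
      one_mul]
  rw [← h2]
  exact h η p t

end Crest.Agent.R086.P
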