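import Crest.Agent.R086.P.OutSol

/-! Row 86, part P-out: symbol bounds of all orders by the ladder. -/

set_option autoImplicit false

open Set Filter Topology
open scoped ContDiff

namespace Crest.Agent.R086.P

noncomputable section

/-- right-hand sides of the ladder -/
def lad (s : ℂ) (φ : ℝ → ℝ) (H : ℝ → ℂ) : ℕ → ℝ → ℂ
  | 0 => fun τ => NN s φ (H τ)
  | i + 1 => fun τ => deriv (lad s φ H i) τ - lad s φ H i τ + (2 * s + 5 - i) * iteratedDeriv (i + 1) H τ

theorem outlad_cd_deriv {f : ℝ → ℂ} {k : ℕ} {τ : ℝ} (h : ContDiffAt ℝ (k + 1 : ℕ) f τ) :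
    ContDiffAt ℝ k (deriv f) τ := by
  exact h.derivWithin (by push_cast; exact le_rfl)

theorem outlad_cd_iter {f : ℝ → ℂ} {τ : ℝ} (h : ∀ k : ℕ, ContDiffAt ℝ k f τ) (j k : ℕ) :
    ContDiffAt ℝ k (iteratedDeriv j f) τ := by
  induction j generalizing k with
  | zero => simpa using h k
  | succ j ih => rw [iteratedDeriv_succ]; exact outlad_cd_deriv (ih (k + 1))

theorem outlad_hasDerivAt {f : ℝ → ℂ} {τ : ℝ} (h : ∀ k : ℕ, ContDiffAt ℝ k f τ) (j : ℕ) :
    HasDerivAt (iteratedDeriv j f) (iteratedDeriv (j + 1) f τ) τ := by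
  rw [iteratedDeriv_succ]
  exact ((outlad_cd_iter h j 1).differentiableAt (by norm_num)).hasDerivAt

theorem lad_contDiffAt {s : ℂ} {φ : ℝ → ℝ} {H : ℝ → ℂ} (h : OSol s φ H) (hφ : ContDiff ℝ ∞ φ) (i k : ℕ)
    {τ : ℝ} (hτ : 0 < τ) : ContDiffAt ℝ k (lad s φ H i) τ := by
  induction i generalizing k with
  | zero =>
    exact ((contDiff_NN hφ s).of_le (by exact_mod_cast le_top)).contDiffAt.comp τ
      (h.contDiffAt hφ k hτ)
  | succ i ih =>
    exact ((outlad_cd_deriv (ih (k + 1))).sub (ih k)).add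
      (contDiffAt_const.mul (outlad_cd_iter (fun k => h.contDiffAt hφ k hτ) _ _))

/-- induction on `i`: differentiate `κ_{i+1} = f_i - (β - i + i e^τ) κ_i` and replace `i e^τ κ_i` -/
theorem lad_ode {s : ℂ} {φ : ℝ → ℝ} {H : ℝ → ℂ} (h : OSol s φ H) (hφ : ContDiff ℝ ∞ φ) (i : ℕ)
    {τ : ℝ} (hτ : 0 < τ) : iteratedDeriv (i + 2) H τ =
      lad s φ H i τ - (2 * s + 5 - i + Complex.I * Real.exp τ) * iteratedDeriv (i + 1) H τ := by
  induction i generalizing τ with
  | zero =>
    have := (h.ode τ hτ).2.deriv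
    simp only [zero_add, iteratedDeriv_succ, iteratedDeriv_zero, lad, Nat.cast_zero, sub_zero]
    exact this
  | succ i ih =>
    have hc : ∀ k : ℕ, ContDiffAt ℝ k H τ := fun k => h.contDiffAt hφ k hτ
    have e : iteratedDeriv (i + 2) H =ᶠ[𝓝 τ] fun t =>
        lad s φ H i t - (2 * s + 5 - i + Complex.I * Real.exp t) * iteratedDeriv (i + 1) H t := by
      filter_upwards [Ioi_mem_nhds hτ] with t ht using ih ht
    have d1 := ((lad_contDiffAt h hφ i 1 hτ).differentiableAt (by norm_num)).hasDerivAt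
    have d2 : HasDerivAt (fun t : ℝ => 2 * s + 5 - i + Complex.I * Real.exp t)
        (Complex.I * Real.exp τ) τ :=
      ((Real.hasDerivAt_exp τ).ofReal_comp.const_mul Complex.I).const_add _
    have d3 := d1.sub (d2.mul (outlad_hasDerivAt hc (i + 1)))
    have d4 := (outlad_hasDerivAt hc (i + 2)).unique (d3.congr_of_eventuallyEq e)
    have e0 := ih hτ
    simp only [lad]
    rw [show i + 1 + 2 = i + 2 + 1 from rfl, d4, show i + 1 + 1 = i + 2 from rfl]
    push_cast at e0 ⊢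
    linear_combination -e0

variable {Y : Type} {J : ℕ} {E : ℝ} {σ : Y → ℂ} {ϕ : Y → ℝ → ℝ} {H : Y → ℝ → ℂ}

theorem outlad_ub_iter {S : Set ℝ} {f : Y → ℝ → ℂ} {w : Y → ℝ → ℝ} (j : ℕ) {k : ℕ}
    (h : UB (k + j) S f w) : UB k S (fun y => iteratedDeriv j (f y)) w := by
  induction j generalizing k with
  | zero => simpa using h
  | succ j ih =>
    simp only [iteratedDeriv_succ]
    exact UB.deriv (f := fun y => iteratedDeriv j (f y))
      (ih (k := k + 1) (by rwa [show k + 1 + j = k + (j + 1) by ring]))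

theorem outlad_norm_le {s : ℂ} (hs : ‖s‖ ≤ 1 / 2) (i : ℕ) : ‖2 * s + 5 - i‖ ≤ 6 + i := by
  have h1 := norm_sub_le (2 * s + 5) (i : ℂ)
  have h2 := norm_add_le (2 * s) (5 : ℂ)
  simp only [norm_mul, Complex.norm_ofNat, Complex.norm_natCast] at h1 h2
  linarith

theorem ub_lad (h : ∀ y, Adm J E (σ y) (ϕ y)) (hH : UB J (Ioi 0) H fun _ _ => 1) (i k : ℕ)
    (hik : i + k ≤ J) : UB k (Ioi 0) (fun y => lad (σ y) (ϕ y) (H y) i) fun _ _ => 1 := by
  induction i generalizing k with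
  | zero =>
    have hk : k ≤ J := by omega
    have h1 := (UB.phi (φ := ϕ) (E := fun _ => E) (fun y t ht => ((h y).bd t ht).of_le hk)
      (hH.of_le hk)).mono_w (w' := fun _ _ => 1) (abs_nonneg E) (fun _ _ _ => zero_le_one)
      (fun _ _ _ => by rw [mul_one]; exact le_abs_self E)
    have h2 := UB.cmul (c := fun y => σ y * (σ y + 5)) (K := 3) (fun y => by
      have a1 := (h y).hs
      have a2 := norm_add_le (σ y) (5 : ℂ)
      simp only [Complex.norm_ofNat] at a2
      rw [norm_mul]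
      nlinarith [norm_nonneg (σ y), norm_nonneg (σ y + 5)]) (hH.of_le hk)
    exact h1.sub h2
  | succ i ih =>
    have h1 := (ih (k + 1) (by omega)).deriv
    have h2 := ih k (by omega)
    have h3 := UB.cmul (c := fun y => 2 * σ y + 5 - i) (fun y => outlad_norm_le (h y).hs i)
      (outlad_ub_iter (k := k) (i + 1) (hH.of_le (by omega)))
    exact (h1.sub h2).add h3

/-- `κ = H^{(j+1)} = O(e^τ)` by `lad_ode (j-1)`; `first_order` with `β = 2s + 5 - j`, `μ = 0`, `ν = -1`;
`UB.of_norm_le` -/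
theorem ub_step (h : ∀ y, Adm J E (σ y) (ϕ y)) (hS : ∀ y, OSol (σ y) (ϕ y) (H y)) (hJ : 7 ≤ J)
    (hH : UB J (Ioi 0) H fun _ _ => 1) : UB (J + 1) (Ioi 0) H fun _ _ => 1 := by
  obtain ⟨j, rfl⟩ : ∃ j, J = j + 1 := ⟨J - 1, by omega⟩
  obtain ⟨K, hK, hK'⟩ := hH.norm_le
  obtain ⟨B, hB, hB'⟩ := (ub_lad h hH (j + 1) 0 le_rfl).norm_le
  obtain ⟨B₀, hB₀, hB₀'⟩ := (ub_lad h hH j 0 (by omega)).norm_le
  have hc : ∀ y, ∀ t : ℝ, 0 < t → ∀ k : ℕ, ContDiffAt ℝ k (H y) t :=
    fun y t ht k => (hS y).contDiffAt (h y).smooth k ht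
  refine UB.of_norm_le (K := K + B) (fun y t ht => hc y t ht _) (fun _ _ _ => zero_le_one) ?_
  intro y τ hτ i hi
  rcases Nat.lt_or_ge i (j + 1 + 1) with hi' | hi'
  · have := hK' y τ hτ i (by omega)
    linarith
  obtain rfl : i = j + 1 + 1 := le_antisymm hi hi'
  have hre : (2 * σ y + 5 - ((j + 1 : ℕ) : ℂ)).re ≤ -2 := by
    have a1 := (h y).re
    have a2 : (7 : ℝ) ≤ ((j + 1 : ℕ) : ℝ) := by exact_mod_cast hJ
    simp only [Complex.sub_re, Complex.add_re, Complex.mul_re, Complex.re_ofNat, Complex.im_ofNat,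
      Complex.natCast_re]
    linarith
  have key := first_order (κ := iteratedDeriv (j + 1 + 1) (H y))
    (f := lad (σ y) (ϕ y) (H y) (j + 1)) (β := 2 * σ y + 5 - ((j + 1 : ℕ) : ℂ)) (τ := τ)
    (A := B₀ + (6 + j + 1) * K) (B := B) (μ := 0) (ν := -1) (by linarith) (by linarith)
    (fun t ht => by
      have ht' : 0 < t := lt_of_lt_of_le hτ ht
      have := outlad_hasDerivAt (hc y t ht') (j + 1 + 1)
      rwa [show j + 1 + 1 + 1 = j + 1 + 2 from rfl, lad_ode (hS y) (h y).smooth (j + 1) ht'] at this)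
    (fun t ht => by
      have := hB' y t (lt_of_lt_of_le hτ ht) 0 le_rfl
      simpa using this)
    (fun t ht => by
      have ht' : 0 < t := lt_of_lt_of_le hτ ht
      have a1 := hB₀' y t ht' 0 le_rfl
      have a2 := hK' y t ht' (j + 1) le_rfl
      have a3 : 1 ≤ Real.exp t := Real.one_le_exp ht'.le
      have a4 : ‖2 * σ y + 5 - j + Complex.I * Real.exp t‖ ≤ 6 + j + Real.exp t := by
        refine (norm_add_le _ _).trans (add_le_add (outlad_norm_le (h y).hs j) ?_)
        rw [norm_mul, Complex.norm_I, one_mul, Complex.norm_real, Real.norm_eq_abs,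
          abs_of_pos (Real.exp_pos t)]
      simp only [iteratedDeriv_zero, mul_one] at a1 a2
      rw [show j + 1 + 1 = j + 2 from rfl, lad_ode (hS y) (h y).smooth j ht']
      have a5 : ‖(2 * σ y + 5 - j + Complex.I * Real.exp t) * iteratedDeriv (j + 1) (H y) t‖ ≤
          (6 + j + Real.exp t) * K := by
        rw [norm_mul]
        exact mul_le_mul a4 a2 (norm_nonneg _) (by positivity)
      refine (norm_sub_le _ _).trans ?_
      rw [show -(-1 * t) = t by ring]
      have a6 : 0 ≤ (6 + (j : ℝ)) * K := by positivity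
      nlinarith [mul_le_mul_of_nonneg_left a3 hB₀, mul_le_mul_of_nonneg_left a3 a6])
  refine key.trans ?_
  rw [zero_mul, neg_zero, Real.exp_zero, mul_one, mul_one, div_le_iff₀ (by linarith)]
  nlinarith

/-- `ub_err` with `j = 6`, `ub_Ph`, then `ub_step` -/
theorem ub_H (h : ∀ y, Adm J E (σ y) (ϕ y)) (hS : ∀ y, OSol (σ y) (ϕ y) (H y)) (hJ : 7 ≤ J) :
    UB J (Ioi 0) H fun _ _ => 1 := by
  induction J, hJ using Nat.le_induction with
  | base =>
    have h1 := (ub_err h hS (j := 6) le_rfl).mono_w (w' := fun _ _ => 1) zero_le_one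
      (fun _ _ _ => zero_le_one) (fun _ t ht => by
        rw [mul_one, Real.exp_le_one_iff]
        have : (0 : ℝ) < t := ht
        norm_num
        exact this.le)
    refine (h1.add (ub_Ph h 7)).congr fun y t _ => Eventually.of_forall fun u => ?_
    simp
  | succ J hJ ih =>
    have h' : ∀ y, Adm J E (σ y) (ϕ y) := fun y => (h y).mono (Nat.le_succ J) le_rfl
    exact ub_step h' hS hJ (ih h')

end

end Crest.Agent.R086.P
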