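import Crest.Agent.R086.P.OutBd

/-! Row 86, part P-out: the approximate solutions, polynomials in `z = 1/ρ`. -/

set_option autoImplicit false

open Set Filter Topology
open scoped ContDiff

namespace Crest.Agent.R086.P

noncomputable section

def NN (s : ℂ) (φ : ℝ → ℝ) (u : ℂ) : ℂ := Phi φ u - s * (s + 5) * u

/-- residual of `z² h'' + ((-2s-4) z - i) h' = N h` -/
def Res (s : ℂ) (φ : ℝ → ℝ) (P : ℝ → ℂ) (z : ℝ) : ℂ :=
  (z : ℂ) ^ 2 * deriv (deriv P) z + ((-2 * s - 4) * z - Complex.I) * deriv P z - NN s φ (P z)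

def Pz (s : ℂ) (φ : ℝ → ℝ) : ℕ → ℝ → ℂ
  | 0 => fun _ => 1
  | j + 1 => fun z => Pz s φ j z +
      iteratedDeriv j (Res s φ (Pz s φ j)) 0 / (Complex.I * (j + 1).factorial) * (z : ℂ) ^ (j + 1)

/-- admissible parameters -/
structure Adm (J : ℕ) (E : ℝ) (s : ℂ) (φ : ℝ → ℝ) : Prop where
  hs : ‖s‖ ≤ 1 / 2
  re : s.re ≤ 0
  smooth : ContDiff ℝ ∞ φ
  bd : ∀ t : ℝ, 0 ≤ t → Bd J (fun s => (φ s : ℂ)) t E 1
  lip : ∀ u v : ℂ, ‖Phi φ u - Phi φ v‖ ≤ 1 / 4 * ‖u - v‖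

variable {J : ℕ} {E : ℝ} {s : ℂ} {φ : ℝ → ℝ}

theorem Adm.lipN (h : Adm J E s φ) (u v : ℂ) : ‖NN s φ u - NN s φ v‖ ≤ 3 * ‖u - v‖ := by
  have h1 : ‖s * (s + 5)‖ ≤ 1 / 2 * (1 / 2 + 5) := by
    rw [norm_mul]
    exact mul_le_mul h.hs ((norm_add_le _ _).trans (add_le_add h.hs (by simp))) (norm_nonneg _)
      (by norm_num)
  rw [show NN s φ u - NN s φ v = Phi φ u - Phi φ v - s * (s + 5) * (u - v) by unfold NN; ring]
  refine (norm_sub_le _ _).trans ?_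
  rw [norm_mul]
  linarith [h.lip u v, mul_le_mul_of_nonneg_right h1 (norm_nonneg (u - v))]

theorem Adm.mono (h : Adm J E s φ) {J' : ℕ} {E' : ℝ} (hJ : J' ≤ J) (hE : E ≤ E') : Adm J' E' s φ :=
  ⟨h.hs, h.re, h.smooth, fun t ht => ((h.bd t ht).of_le hJ).mono zero_le_one hE le_rfl, h.lip⟩

theorem adm_zero (J : ℕ) (hs : ‖s‖ ≤ 1 / 2) (re : s.re ≤ 0) (hE : 0 ≤ E) : Adm J E s fun _ => 0 :=
  ⟨hs, re, contDiff_const, fun t _ => (Bd.const J ((0 : ℝ) : ℂ) t zero_le_one).mono zero_le_one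
    (by simpa using hE) le_rfl, fun u v => by simp [Phi]⟩

theorem contDiff_NN (hφ : ContDiff ℝ ∞ φ) (s : ℂ) : ContDiff ℝ ∞ (NN s φ) :=
  ((Complex.ofRealCLM.contDiff.comp (hφ.comp (contDiff_norm_sq ℝ))).mul contDiff_id).sub
    (contDiff_const.mul contDiff_id)

theorem contDiff_Res (hφ : ContDiff ℝ ∞ φ) (s : ℂ) {P : ℝ → ℂ} (hP : ContDiff ℝ ∞ P) :
    ContDiff ℝ ∞ (Res s φ P) := by
  have h1 := (contDiff_infty_iff_deriv.1 hP).2
  have h0 : ContDiff ℝ ∞ fun z : ℝ => (z : ℂ) := Complex.ofRealCLM.contDiff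
  exact (((h0.pow 2).mul (contDiff_infty_iff_deriv.1 h1).2).add
    (((contDiff_const.mul h0).sub contDiff_const).mul h1)).sub ((contDiff_NN hφ s).comp hP)

theorem contDiff_Pz (s : ℂ) (φ : ℝ → ℝ) (j : ℕ) : ContDiff ℝ ∞ (Pz s φ j) := by
  induction j with
  | zero => exact contDiff_const
  | succ j ih => exact ih.add (contDiff_const.mul (Complex.ofRealCLM.contDiff.pow _))

theorem Pz_zero (s : ℂ) (φ : ℝ → ℝ) (j : ℕ) : Pz s φ j 0 = 1 := by
  induction j with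
  | zero => rfl
  | succ j ih => simp [Pz, ih]

theorem outpoly_dpow (k : ℕ) (z : ℝ) :
    HasDerivAt (fun z : ℝ => (z : ℂ) ^ k) (k * (z : ℂ) ^ (k - 1)) z :=
  (hasDerivAt_pow k (z : ℂ)).comp_ofReal

theorem outpoly_pow (i k : ℕ) :
    iteratedDeriv i (fun z : ℝ => (z : ℂ) ^ k) 0 = if i = k then (k.factorial : ℂ) else 0 := by
  have := bd_clm (r := 0) Complex.ofRealCLM (u := fun s => s ^ k) (i := i) (contDiffAt_id.pow k)
  rw [iteratedDeriv_fun_pow_zero] at this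
  split_ifs at this ⊢ <;> simpa using this

theorem outpoly_ub (J : ℕ) {f : ℝ → ℂ} (hf : ContDiff ℝ ∞ f) :
    UB J {0} (fun _ : Unit => f) fun _ _ => 1 :=
  UB.of_norm_le (K := ∑ i ∈ Finset.range (J + 1), ‖iteratedDeriv i f 0‖)
    (fun _ _ _ => (hf.of_le (mod_cast le_top)).contDiffAt) (fun _ _ _ => zero_le_one) fun _ t ht i hi => by
      rw [ht, mul_one]
      exact Finset.single_le_sum (f := fun i => ‖iteratedDeriv i f 0‖) (fun _ _ => norm_nonneg _)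
        (Finset.mem_range.2 (Nat.lt_succ_of_le hi))

theorem outpoly_coef (a : ℂ) (j : ℕ) : ‖a / (Complex.I * (j + 1).factorial)‖ ≤ ‖a‖ := by
  rw [norm_div, norm_mul, Complex.norm_I, one_mul, Complex.norm_natCast]
  exact div_le_self (norm_nonneg _) (Nat.one_le_cast.2 (j + 1).factorial_pos)

/-- Induction on `j`.  With `m z = c z^{j+1}`:
`Res (P + m) = Res P - i (j+1) c z^j + c' z^{j+1} - (Phi (P + m) - Phi P)`; the jets of order `≤ j` at `0` of
the last two terms vanish (`UB.phi_sub` with `Y = Unit`, `S = {0}`, weight `0`), and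
`iteratedDeriv j (z^j) 0 = j!`, `iteratedDeriv i (z^j) 0 = 0` for `i ≠ j`. -/
theorem res_jet (h : Adm J E s φ) {j : ℕ} (hj : j ≤ J) :
    ∀ i < j, iteratedDeriv i (Res s φ (Pz s φ j)) 0 = 0 := by
  induction j with
  | zero => exact fun i hi => absurd hi i.not_lt_zero
  | succ j ih =>
    intro i hi
    have hi' := Nat.le_of_lt_succ hi
    have hP := contDiff_Pz s φ j
    have hP' := contDiff_Pz s φ (j + 1)
    obtain ⟨c, hc⟩ : ∃ c, c = iteratedDeriv j (Res s φ (Pz s φ j)) 0 /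
      (Complex.I * (j + 1).factorial) := ⟨_, rfl⟩
    have e0 : Pz s φ (j + 1) = fun z => Pz s φ j z + c * (z : ℂ) ^ (j + 1) := hc ▸ rfl
    have d1 := contDiff_infty_iff_deriv.1 hP
    have e1 : deriv (Pz s φ (j + 1)) = fun z => deriv (Pz s φ j) z + c * (j + 1) * (z : ℂ) ^ j :=
      funext fun z => by
        rw [e0, ((d1.1 z).hasDerivAt.fun_add ((outpoly_dpow (j + 1) z).const_mul c)).deriv]
        simp [mul_assoc]
    have e2 : Res s φ (Pz s φ (j + 1)) = fun z => Res s φ (Pz s φ j) z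
        - Complex.I * c * (j + 1) * (z : ℂ) ^ j
        + c * ((j + 1) * j + (-2 * s - 4) * (j + 1) + s * (s + 5)) * (z : ℂ) ^ (j + 1)
        - (Phi φ (Pz s φ (j + 1) z) - Phi φ (Pz s φ j z)) := funext fun z => by
      rw [Res, Res, NN, NN, e1, (((contDiff_infty_iff_deriv.1 d1.2).1 z).hasDerivAt.fun_add
        ((outpoly_dpow j z).const_mul _)).deriv, e0]
      rcases j with _ | j
      · simp only [Nat.cast_zero]
        ring
      · simp only [Nat.add_sub_cancel]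
        ring
    obtain ⟨K, -, hK⟩ := (UB.phi_sub (φ := fun _ => φ) (E := fun _ => E) (w := fun _ _ => 0)
      (fun _ t ht => (h.bd t ht).of_le hj) (outpoly_ub j hP') (outpoly_ub j hP)
      (UB.of_norm_le (K := 0) (fun _ t _ => ((hP'.sub hP).of_le (mod_cast le_top)).contDiffAt)
        (fun _ _ _ => le_rfl) fun _ t ht k hk => by
          rw [e0, ht]
          simp [outpoly_pow, (Nat.lt_succ_of_le hk).ne])).norm_le
    have h3 := hK () 0 rfl i hi'
    rw [mul_zero, mul_zero, norm_le_zero_iff] at h3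
    have c0 : ∀ (a : ℂ) (k : ℕ), ContDiff ℝ i fun z : ℝ => a * (z : ℂ) ^ k := fun a k =>
      contDiff_const.mul (Complex.ofRealCLM.contDiff.pow _)
    have c1 : ContDiff ℝ i (Res s φ (Pz s φ j)) := (contDiff_Res h.smooth s hP).of_le (mod_cast le_top)
    have c2 : ∀ k, ContDiff ℝ i fun z => Phi φ (Pz s φ k z) := fun k =>
      ((Complex.ofRealCLM.contDiff.comp (h.smooth.comp ((contDiff_Pz s φ k).norm_sq ℝ))).mul
        (contDiff_Pz s φ k)).of_le (mod_cast le_top)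
    rw [e2, iteratedDeriv_fun_sub ((c1.sub (c0 _ _)).add (c0 _ _)).contDiffAt
        ((c2 _).sub (c2 _)).contDiffAt, h3,
      iteratedDeriv_fun_add (c1.sub (c0 _ _)).contDiffAt (c0 _ _).contDiffAt,
      iteratedDeriv_fun_sub c1.contDiffAt (c0 _ _).contDiffAt, iteratedDeriv_const_mul_field,
      iteratedDeriv_const_mul_field, outpoly_pow, outpoly_pow, if_neg hi.ne]
    split_ifs with hij
    · have h1 : ((j + 1 : ℕ) : ℂ) ≠ 0 := Nat.cast_ne_zero.2 j.succ_ne_zero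
      have h2 : (j.factorial : ℂ) ≠ 0 := Nat.cast_ne_zero.2 j.factorial_ne_zero
      rw [hc, hij, Nat.factorial_succ, Nat.cast_mul, ← Nat.cast_succ]
      field_simp
      ring
    · rw [ih (Nat.le_of_succ_le hj) i (lt_of_le_of_ne hi' hij)]
      ring

section family
variable {Y : Type} {σ σ₀ : Y → ℂ} {ϕ : Y → ℝ → ℝ} {ε : Y → ℝ}

theorem outpoly_id (J : ℕ) : UB J (Icc 0 1) (fun (_ : Y) (z : ℝ) => (z : ℂ)) fun _ _ => 1 := by
  simpa only [pow_one] using UB.zpow (Y := Y) J 1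

theorem outpoly_lin (h : ∀ y, ‖σ y‖ ≤ 1 / 2) {P : Y → ℝ → ℂ} {w : Y → ℝ → ℝ}
    (hP : UB (J + 2) (Icc 0 1) P w) :
    UB J (Icc 0 1) (fun y z => (z : ℂ) ^ 2 * deriv (deriv (P y)) z +
      ((-2 * σ y - 4) * z - Complex.I) * deriv (P y) z + σ y * (σ y + 5) * P y z) w := by
  refine (((UB.zpow J 2).bmul hP.deriv.deriv).add ((((outpoly_id J).cmul (K := 5) fun y => ?_).sub
    (UB.const J _ (K := 1) (fun _ => zero_le_one) fun _ => by simp)).bmul
    (hP.deriv.of_le J.le_succ))).add ((hP.of_le (by omega)).cmul (K := 1 / 2 * (1 / 2 + 5))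
      fun y => ?_)
  · refine (norm_sub_le _ _).trans ?_
    rw [norm_mul, norm_neg, Complex.norm_ofNat, Complex.norm_ofNat]
    linarith [h y]
  · rw [norm_mul]
    exact mul_le_mul (h y) ((norm_add_le _ _).trans (add_le_add (h y) (by simp))) (norm_nonneg _)
      (by norm_num)

theorem UB.res (h : ∀ y, Adm J E (σ y) (ϕ y)) {P : Y → ℝ → ℂ}
    (hP : UB (J + 2) (Icc 0 1) P fun _ _ => 1) :
    UB J (Icc 0 1) (fun y => Res (σ y) (ϕ y) (P y)) fun _ _ => 1 :=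
  ((outpoly_lin (fun y => (h y).hs) hP).sub ((UB.phi (E := fun _ => E) (fun y => (h y).bd)
    (hP.of_le (by omega))).mono_w (abs_nonneg E) (fun _ _ _ => zero_le_one) fun _ _ _ =>
      (le_abs_self E).trans_eq (mul_one _).symm)).congr fun y t _ =>
    Eventually.of_forall fun z => by simp only [Res, NN]; ring

/-- induction on `j` (for all `J'`): the coefficient is bounded by `UB.res`, `UB.norm_le` at `z = 0` -/
theorem ub_Pz (h : ∀ y, Adm J E (σ y) (ϕ y)) {j : ℕ} (hj : j ≤ J) (J' : ℕ) :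
    UB J' (Icc 0 1) (fun y => Pz (σ y) (ϕ y) j) fun _ _ => 1 := by
  induction j generalizing J' with
  | zero => exact UB.const J' _ (c := fun _ => 1) (K := 1) (fun _ => zero_le_one) fun _ => by simp
  | succ j ih =>
    have hj' := Nat.le_of_succ_le hj
    obtain ⟨K, -, hK⟩ := (UB.res (fun y => (h y).mono hj' le_rfl) (ih hj' _)).norm_le
    exact (ih hj' J').add ((UB.zpow J' (j + 1)).cmul fun y => (outpoly_coef _ j).trans
      (hK y 0 ⟨le_rfl, zero_le_one⟩ j le_rfl))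

/-- `res_jet`, `norm_le_of_jet`; `z ^ (7 - i) ≤ z ^ (7 - k)` for `i ≤ k` -/
theorem ub_res (h : ∀ y, Adm 7 E (σ y) (ϕ y)) {k : ℕ} (hk : k ≤ 7) :
    UB k (Icc 0 1) (fun y => Res (σ y) (ϕ y) (Pz (σ y) (ϕ y) 7)) fun _ z => z ^ (7 - k) := by
  obtain ⟨K, hK0, hK⟩ := (UB.res h (ub_Pz h le_rfl _)).norm_le
  have hc := fun y => contDiff_Res (h y).smooth (σ y) (contDiff_Pz (σ y) (ϕ y) 7)
  refine UB.of_norm_le (K := K * 1) (fun y t _ => ((hc y).of_le (mod_cast le_top)).contDiffAt)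
    (fun y t ht => pow_nonneg ht.1 _) fun y t ht i hi => ?_
  exact (norm_le_of_jet (hc y) (res_jet (h y) le_rfl) (fun z hz => hK y z hz 7 le_rfl) i
    (hi.trans hk) t ht).trans (mul_le_mul_of_nonneg_left
      (pow_le_pow_of_le_one ht.1 ht.2 (by omega)) (by positivity))

theorem UB.res_sub (h : ∀ y, Adm J (ε y) (σ y) (ϕ y)) (h₀ : ∀ y, ‖σ₀ y‖ ≤ 1 / 2)
    (hs : ∀ y, ‖σ y - σ₀ y‖ ≤ ε y) {P P₀ : Y → ℝ → ℂ}
    (hP : UB (J + 2) (Icc 0 1) P fun _ _ => 1)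
    (hd : UB (J + 2) (Icc 0 1) (fun y z => P y z - P₀ y z) fun y _ => ε y) :
    UB J (Icc 0 1) (fun y z => Res (σ y) (ϕ y) (P y) z - Res (σ₀ y) (fun _ => 0) (P₀ y) z)
      fun y _ => ε y := by
  have hc : UB J (Icc 0 1) (fun y _ => σ y - σ₀ y) fun y _ => ε y :=
    UB.const J _ (K := 1) (fun y => (norm_nonneg _).trans (hs y)) fun y => by simpa using hs y
  have hP0 : UB J (Icc 0 1) P fun _ _ => 1 := hP.of_le (by omega)
  refine ((((outpoly_lin h₀ hd).sub (UB.phi (fun y => (h y).bd) hP0)).sub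
    ((((outpoly_id J).bmul (hP.deriv.of_le J.le_succ)).cmul (c := fun _ => 2) fun _ => le_rfl).bmul
      hc)).add ((hP0.cmul (c := fun y => σ y + σ₀ y + 5) (K := 6) fun y => ?_).bmul hc)).congr
    fun y t ht => ?_
  · refine norm_add₃_le.trans ?_
    rw [Complex.norm_ofNat]
    linarith [(h y).hs, h₀ y]
  · obtain ⟨_, -, h1⟩ := hP
    obtain ⟨_, -, h2⟩ := hd
    have c1 : ContDiffAt ℝ (2 : ℕ) (P y) t := bd_cd (h1 y t ht) (by omega)
    have c2 : ContDiffAt ℝ (2 : ℕ) (P₀ y) t := by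
      simpa using c1.sub (bd_cd (i := 2) (h2 y t ht) (by omega))
    filter_upwards [c1.eventually (by simp), c2.eventually (by simp)] with z c1 c2
    have e1 := iteratedDeriv_fun_sub (n := 1) (c1.of_le (by simp)) (c2.of_le (by simp))
    have e2 := iteratedDeriv_fun_sub c1 c2
    simp only [iteratedDeriv_succ, iteratedDeriv_zero] at e1 e2
    simp only [Res, NN, e1, e2, Phi, Complex.ofReal_zero]
    ring

theorem ub_Pz_sub (h : ∀ y, Adm J (ε y) (σ y) (ϕ y)) (h₀ : ∀ y, ‖σ₀ y‖ ≤ 1 / 2)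
    (hs : ∀ y, ‖σ y - σ₀ y‖ ≤ ε y) (h1 : ∀ y, ε y ≤ 1) {j : ℕ} (hj : j ≤ J) (J' : ℕ) :
    UB J' (Icc 0 1) (fun y z => Pz (σ y) (ϕ y) j z - Pz (σ₀ y) (fun _ => 0) j z) fun y _ => ε y := by
  have h0 : ∀ y, 0 ≤ ε y := fun y => (norm_nonneg _).trans (hs y)
  induction j generalizing J' with
  | zero => exact UB.const J' _ (c := fun _ => 1 - 1) (K := 0) h0 fun _ => by simp
  | succ j ih =>
    have hj' := Nat.le_of_succ_le hj
    obtain ⟨K, -, hK⟩ := (UB.res_sub (fun y => (h y).mono hj' le_rfl) h₀ hs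
      (ub_Pz (fun y => (h y).mono le_rfl (h1 y)) hj' _) (ih hj' _)).norm_le
    refine ((ih hj' J').add ((UB.zpow J' (j + 1)).bmul (UB.const J' _ h0 fun y =>
      (outpoly_coef _ j).trans (hK y 0 ⟨le_rfl, zero_le_one⟩ j le_rfl)))).congr fun y t _ =>
      Eventually.of_forall fun z => ?_
    simp only [Pz]
    rw [iteratedDeriv_fun_sub
      ((contDiff_Res (h y).smooth _ (contDiff_Pz _ _ j)).of_le (mod_cast le_top)).contDiffAt
      ((contDiff_Res contDiff_const _ (contDiff_Pz _ _ j)).of_le (mod_cast le_top)).contDiffAt]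
    ring

theorem res_sub_le (h : ∀ y, Adm 7 (ε y) (σ y) (ϕ y)) (h₀ : ∀ y, Adm 7 (ε y) (σ₀ y) fun _ => 0)
    (hs : ∀ y, ‖σ y - σ₀ y‖ ≤ ε y) (h1 : ∀ y, ε y ≤ 1) : ∃ K : ℝ, 0 ≤ K ∧ ∀ y, ∀ z ∈ Icc (0 : ℝ) 1,
      ‖Res (σ y) (ϕ y) (Pz (σ y) (ϕ y) 7) z - Res (σ₀ y) (fun _ => 0) (Pz (σ₀ y) (fun _ => 0) 7) z‖ ≤
        K * ε y * z ^ 7 := by
  obtain ⟨K, hK0, hK⟩ := (UB.res_sub h (fun y => (h₀ y).hs) hs
    (ub_Pz (fun y => (h y).mono le_rfl (h1 y)) le_rfl _)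
    (ub_Pz_sub h (fun y => (h₀ y).hs) hs h1 le_rfl _)).norm_le
  refine ⟨K, hK0, fun y z hz => ?_⟩
  have c1 := contDiff_Res (h y).smooth (σ y) (contDiff_Pz (σ y) (ϕ y) 7)
  have c2 := contDiff_Res (h₀ y).smooth (σ₀ y) (contDiff_Pz (σ₀ y) (fun _ => 0) 7)
  refine norm_le_of_jet (c1.sub c2) (fun i hi => ?_) (fun z hz => hK y z hz 7 le_rfl) 0
    (Nat.zero_le _) z hz
  rw [iteratedDeriv_fun_sub (c1.of_le (mod_cast le_top)).contDiffAt (c2.of_le (mod_cast le_top)).contDiffAt,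
    res_jet (h y) le_rfl i hi, res_jet (h₀ y) le_rfl i hi, sub_zero]

end family

/-- the partial derivative of a jointly smooth function is jointly smooth:
it is `fun w => fderiv ℝ (uncurry f) w (0, 1)` -/
theorem contDiff_pd {f : ℝ × ℝ → ℝ → ℂ} (hf : ContDiff ℝ ∞ (Function.uncurry f)) :
    ContDiff ℝ ∞ (Function.uncurry fun p => deriv (f p)) :=
  (ContDiff.fderiv (f := fun w : (ℝ × ℝ) × ℝ => f w.1) (g := Prod.snd) (n := ∞)
    (hf.comp (contDiff_fst.fst.prodMk contDiff_snd)) contDiff_snd le_rfl).clm_apply contDiff_const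

theorem contDiff_Res_param {σ : ℝ × ℝ → ℂ} {ϕ : ℝ × ℝ → ℝ → ℝ} {P : ℝ × ℝ → ℝ → ℂ}
    (hσ : ContDiff ℝ ∞ σ) (hϕ : ContDiff ℝ ∞ (Function.uncurry ϕ))
    (hP : ContDiff ℝ ∞ (Function.uncurry P)) :
    ContDiff ℝ ∞ (Function.uncurry fun p => Res (σ p) (ϕ p) (P p)) := by
  have h0 : ContDiff ℝ ∞ fun w : (ℝ × ℝ) × ℝ => (w.2 : ℂ) :=
    Complex.ofRealCLM.contDiff.comp contDiff_snd
  have h1 : ContDiff ℝ ∞ fun w : (ℝ × ℝ) × ℝ => σ w.1 := hσ.comp contDiff_fst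
  exact (((h0.pow 2).mul (contDiff_pd (contDiff_pd hP))).add
    (((((contDiff_const.mul h1).sub contDiff_const).mul h0).sub contDiff_const).mul
      (contDiff_pd hP))).sub (((Complex.ofRealCLM.contDiff.comp
        (hϕ.comp (contDiff_fst.prodMk (hP.norm_sq ℝ)))).mul hP).sub
      ((h1.mul (h1.add contDiff_const)).mul hP))

theorem outpoly_iter {f : ℝ × ℝ → ℝ → ℂ} (hf : ContDiff ℝ ∞ (Function.uncurry f)) (j : ℕ) :
    ContDiff ℝ ∞ (Function.uncurry fun p => iteratedDeriv j (f p)) := by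
  induction j with
  | zero => exact hf
  | succ j ih => simpa only [iteratedDeriv_succ] using contDiff_pd ih

theorem contDiff_Pz_param {σ : ℝ × ℝ → ℂ} {ϕ : ℝ × ℝ → ℝ → ℝ} (hσ : ContDiff ℝ ∞ σ)
    (hϕ : ContDiff ℝ ∞ (Function.uncurry ϕ)) (j : ℕ) :
    ContDiff ℝ ∞ (Function.uncurry fun p => Pz (σ p) (ϕ p) j) := by
  induction j with
  | zero => exact contDiff_const
  | succ j ih =>
    exact ih.add ((((outpoly_iter (contDiff_Res_param hσ hϕ ih) j).comp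
      (contDiff_fst.prodMk contDiff_const)).div_const _).mul
      ((Complex.ofRealCLM.contDiff.comp contDiff_snd).pow _))

end

end Crest.Agent.R086.P
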