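import Crest.Agent.R086.P.OutPoly
import Crest.Agent.R086.P.OutInt

/-! Row 86, part P-out: the outer solutions `H(τ)`, `τ = log ρ > 0`, of
`H'' + (2s + 5 + i e^τ) H' = N H`, `H → 1`. -/

set_option autoImplicit false

open Set Filter Topology
open scoped ContDiff

namespace Crest.Agent.R086.P

noncomputable section

/-- the approximate solution in the variable `τ` -/
def Ph (s : ℂ) (φ : ℝ → ℝ) (τ : ℝ) : ℂ := Pz s φ 7 (Real.exp (-τ))

structure OSol (s : ℂ) (φ : ℝ → ℝ) (H : ℝ → ℂ) : Prop where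
  ode : ∀ τ : ℝ, 0 < τ → DifferentiableAt ℝ H τ ∧
    HasDerivAt (deriv H) (NN s φ (H τ) - (2 * s + 5 + Complex.I * Real.exp τ) * deriv H τ) τ
  asy : ∃ A : ℝ, ∀ τ : ℝ, 0 < τ → ‖H τ - Ph s φ τ‖ ≤ A * Real.exp (-(7 * τ)) ∧
    ‖deriv H τ - deriv (Ph s φ) τ‖ ≤ A * Real.exp (-(7 * τ))

theorem contDiff_Ph (s : ℂ) (φ : ℝ → ℝ) : ContDiff ℝ ∞ (Ph s φ) := by
  exact (contDiff_Pz s φ 7).comp (Real.contDiff_exp.comp contDiff_neg)

theorem outsol_exp (τ : ℝ) : HasDerivAt (fun τ : ℝ => Real.exp (-τ)) (-Real.exp (-τ)) τ := by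
  simpa using (hasDerivAt_neg τ).exp

theorem outsol_dPh (s : ℂ) (φ : ℝ → ℝ) (τ : ℝ) : HasDerivAt (Ph s φ) (deriv (Ph s φ) τ) τ :=
  ((contDiff_Ph s φ).differentiable (by simp) τ).hasDerivAt

theorem outsol_mem {τ : ℝ} (h : 0 ≤ τ) : Real.exp (-τ) ∈ Icc (0 : ℝ) 1 :=
  ⟨(Real.exp_pos _).le, Real.exp_le_one_iff.2 (neg_nonpos.2 h)⟩

/-- `Ph' = -z P'`, `Ph'' = z² P'' + z P'` with `z = e^{-τ}` -/
theorem Ph_ode (s : ℂ) (φ : ℝ → ℝ) (τ : ℝ) : HasDerivAt (deriv (Ph s φ))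
    (Res s φ (Pz s φ 7) (Real.exp (-τ)) + NN s φ (Ph s φ τ)
      - (2 * s + 5 + Complex.I * Real.exp τ) * deriv (Ph s φ) τ) τ := by
  have hP := contDiff_Pz s φ 7
  have h1 : ∀ z, HasDerivAt (Pz s φ 7) (deriv (Pz s φ 7) z) z := fun z =>
    (hP.differentiable (by simp) z).hasDerivAt
  have h2 : ∀ z, HasDerivAt (deriv (Pz s φ 7)) (deriv (deriv (Pz s φ 7)) z) z := fun z =>
    ((contDiff_infty_iff_deriv.1 hP).2.differentiable (by simp) z).hasDerivAt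
  have e : deriv (Ph s φ) =
      fun τ => (-Real.exp (-τ)) • deriv (Pz s φ 7) (Real.exp (-τ)) :=
    funext fun τ => ((h1 _).scomp τ (outsol_exp τ)).deriv
  rw [e]
  refine ((outsol_exp τ).fun_neg.fun_smul ((h2 _).scomp τ (outsol_exp τ))).congr_deriv ?_
  have a : (Real.exp τ : ℂ) * Real.exp (-τ) = 1 := by
    rw [← Complex.ofReal_mul, ← Real.exp_add, add_neg_cancel, Real.exp_zero, Complex.ofReal_one]
  simp only [Res, Ph, Complex.real_smul, Function.comp, Complex.ofReal_neg, neg_neg]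
  linear_combination (-Complex.I * deriv (Pz s φ 7) (Real.exp (-τ))) * a

theorem outsol_res {Y : Type} {E : ℝ} {σ : Y → ℂ} {ϕ : Y → ℝ → ℝ} (h : ∀ y, Adm 7 E (σ y) (ϕ y)) :
    ∃ M : ℝ, 0 ≤ M ∧ ∀ y, ∀ τ : ℝ, 0 ≤ τ →
      ‖Res (σ y) (ϕ y) (Pz (σ y) (ϕ y) 7) (Real.exp (-τ))‖ ≤ M * Real.exp (-(7 * τ)) := by
  obtain ⟨M, h0, hM⟩ := (ub_res h (Nat.zero_le 7)).norm_le
  refine ⟨M, h0, fun y τ hτ => ?_⟩
  have := hM y _ (outsol_mem hτ) 0 le_rfl
  rw [iteratedDeriv_zero, Nat.sub_zero, ← Real.exp_nat_mul] at this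
  convert this using 3
  push_cast
  ring

theorem outsol_re {J : ℕ} {E : ℝ} {s : ℂ} {φ : ℝ → ℝ} (h : Adm J E s φ) : (2 * s + 5).re ≤ 5 := by
  have := h.re
  simp only [Complex.add_re, Complex.mul_re, Complex.re_ofNat, Complex.im_ofNat]
  linarith

theorem outsol_comp {π : ℝ × ℝ → ℝ × ℝ} (hπ : Continuous π) {P : ℝ × ℝ → ℝ → ℂ}
    (hP : Continuous (Function.uncurry P)) : Continuous fun z : (ℝ × ℝ) × ℝ => P (π z.1) z.2 :=
  hP.comp ((hπ.comp continuous_fst).prodMk continuous_snd)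

theorem outsol_cont {π : ℝ × ℝ → ℝ × ℝ} (hπ : Continuous π) {N : ℝ × ℝ → ℂ → ℂ}
    {P R : ℝ × ℝ → ℝ → ℂ} (hN : Continuous (Function.uncurry N))
    (hP : Continuous (Function.uncurry P)) (hR : Continuous (Function.uncurry R)) :
    Continuous fun z : ((ℝ × ℝ) × ℝ) × ℂ => N (π z.1.1) (P (π z.1.1) (max z.1.2 0) + z.2) -
      N (π z.1.1) (P (π z.1.1) (max z.1.2 0)) - R (π z.1.1) (Real.exp (-max z.1.2 0)) := by
  fun_prop

theorem outsol_cN {σ : ℝ × ℝ → ℂ} {ϕ : ℝ × ℝ → ℝ → ℝ} (hσ : Continuous σ)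
    (hϕ : Continuous (Function.uncurry ϕ)) :
    Continuous (Function.uncurry fun p => NN (σ p) (ϕ p)) := by
  change Continuous fun z : (ℝ × ℝ) × ℂ => (ϕ z.1 (‖z.2‖ ^ 2) : ℂ) * z.2 - σ z.1 * (σ z.1 + 5) * z.2
  fun_prop

theorem outsol_cE {P : ℝ × ℝ → ℝ → ℂ} (hP : ContDiff ℝ ∞ (Function.uncurry P)) :
    ContDiff ℝ ∞ (Function.uncurry fun p τ => P p (Real.exp (-τ))) :=
  hP.comp (contDiff_fst.prodMk (Real.contDiff_exp.comp contDiff_snd.neg))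

/-- `exists_fix` with `β = 2 s + 5`,
`F p t u = NN (Ph (max t 0) + u) - NN (Ph (max t 0)) - Res (exp (- max t 0))`; `ub_res` with `k = 0`;
joint continuity from `contDiff_Pz_param`, `contDiff_Res_param`, `contDiff_pd` composed with `π`;
`H = Ph + e` -/
theorem exists_fam {σ : ℝ × ℝ → ℂ} {ϕ : ℝ × ℝ → ℝ → ℝ} {π : ℝ × ℝ → ℝ × ℝ} {E : ℝ}
    (hσ : ContDiff ℝ ∞ σ) (hϕ : ContDiff ℝ ∞ (Function.uncurry ϕ)) (hπ : Continuous π)
    (hA : ∀ p, Adm 7 E (σ (π p)) (ϕ (π p))) :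
    ∃ H : ℝ × ℝ → ℝ → ℂ, Continuous (Function.uncurry H) ∧
      Continuous (fun z : (ℝ × ℝ) × ℝ => deriv (H z.1) z.2) ∧
      ∀ p, OSol (σ (π p)) (ϕ (π p)) (H p) := by
  obtain ⟨M, hM0, hM⟩ := outsol_res hA
  have cP := contDiff_Pz_param hσ hϕ 7
  have cPh : ContDiff ℝ ∞ (Function.uncurry fun p => Ph (σ p) (ϕ p)) := outsol_cE cP
  have cR := (contDiff_Res_param hσ hϕ cP).continuous
  have cD := (contDiff_pd cPh).continuous
  have hF := outsol_cont hπ (outsol_cN hσ.continuous hϕ.continuous) cPh.continuous cR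
  have c1 := outsol_comp hπ cPh.continuous
  have c2 := outsol_comp hπ cD
  obtain ⟨e, k, A, ce, ck, hk⟩ := exists_fix (β := fun p => 2 * σ (π p) + 5) (M := M)
    (F := fun p t u => NN (σ (π p)) (ϕ (π p)) (Ph (σ (π p)) (ϕ (π p)) (max t 0) + u) -
      NN (σ (π p)) (ϕ (π p)) (Ph (σ (π p)) (ϕ (π p)) (max t 0)) -
      Res (σ (π p)) (ϕ (π p)) (Pz (σ (π p)) (ϕ (π p)) 7) (Real.exp (-max t 0)))
    ((continuous_const.mul (hσ.continuous.comp hπ)).add continuous_const)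
    (fun p => outsol_re (hA p))
    hF
    (fun p t u v => by
      have := (hA p).lipN (Ph (σ (π p)) (ϕ (π p)) (max t 0) + u)
        (Ph (σ (π p)) (ϕ (π p)) (max t 0) + v)
      rw [add_sub_add_left_eq_sub] at this
      rwa [sub_sub_sub_cancel_right, sub_sub_sub_cancel_right])
    (fun p t => by
      rw [add_zero, sub_self, zero_sub, norm_neg]
      refine (hM p _ (le_max_right t 0)).trans (mul_le_mul_of_nonneg_left
        (Real.exp_le_exp.2 ?_) hM0)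
      linarith [le_max_left t 0])
  have hd : ∀ p, deriv (fun τ => Ph (σ (π p)) (ϕ (π p)) τ + e p τ) =
      fun τ => deriv (Ph (σ (π p)) (ϕ (π p))) τ + k p τ := fun p =>
    funext fun τ => ((outsol_dPh _ _ τ).fun_add (hk p τ).1).deriv
  refine ⟨fun p τ => Ph (σ (π p)) (ϕ (π p)) τ + e p τ, c1.add ce, ?_,
    fun p => ⟨fun τ hτ => ⟨((outsol_dPh _ _ τ).fun_add (hk p τ).1).differentiableAt, ?_⟩,
      A, fun τ _ => ?_⟩⟩
  · simp only [hd]
    exact c2.add ck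
  · rw [hd]
    refine ((Ph_ode _ _ τ).fun_add (hk p τ).2.1).congr_deriv ?_
    rw [max_eq_left hτ.le]
    ring
  · rw [hd, add_sub_cancel_left, add_sub_cancel_left]
    exact (hk p τ).2.2

/-- induction with `contDiffOn_succ_iff_deriv_of_isOpen` on `Ioi 0` for the pair `H`, `deriv H` -/
theorem OSol.contDiffAt {s : ℂ} {φ : ℝ → ℝ} {H : ℝ → ℂ} (h : OSol s φ H) (hφ : ContDiff ℝ ∞ φ)
    (k : ℕ) {τ : ℝ} (hτ : 0 < τ) : ContDiffAt ℝ k H τ := by
  have key : ∀ k : ℕ, ContDiffOn ℝ k H (Ioi 0) ∧ ContDiffOn ℝ k (deriv H) (Ioi 0) := by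
    intro k
    induction k with
    | zero =>
      simp only [Nat.cast_zero, contDiffOn_zero]
      exact ⟨fun t ht => (h.ode t ht).1.continuousAt.continuousWithinAt,
        fun t ht => (h.ode t ht).2.continuousAt.continuousWithinAt⟩
    | succ k ih =>
      rw [Nat.cast_succ, contDiffOn_succ_iff_deriv_of_isOpen isOpen_Ioi,
        contDiffOn_succ_iff_deriv_of_isOpen isOpen_Ioi]
      refine ⟨⟨fun t ht => (h.ode t ht).1.differentiableWithinAt, by simp, ih.2⟩,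
        fun t ht => (h.ode t ht).2.differentiableAt.differentiableWithinAt, by simp, ?_⟩
      have a1 : ContDiff ℝ k fun t : ℝ => 2 * s + 5 + Complex.I * (Real.exp t : ℂ) :=
        contDiff_const.add (contDiff_const.mul (Complex.ofRealCLM.contDiff.comp Real.contDiff_exp))
      exact ((((contDiff_NN hφ s).of_le (mod_cast le_top)).comp_contDiffOn ih.1).sub
        (a1.contDiffOn.mul ih.2)).congr fun t ht => (h.ode t ht).2.deriv
  exact (key k).1.contDiffAt (isOpen_Ioi.mem_nhds hτ)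

theorem outsol_ode {s : ℂ} {φ : ℝ → ℝ} {H : ℝ → ℂ} (h : OSol s φ H) {t : ℝ} (ht : 0 < t) :
    HasDerivAt (fun τ => H τ - Ph s φ τ) (deriv H t - deriv (Ph s φ) t) t ∧
      HasDerivAt (fun τ => deriv H τ - deriv (Ph s φ) τ)
        ((NN s φ (H t) - NN s φ (Ph s φ t) - Res s φ (Pz s φ 7) (Real.exp (-t))) -
          (2 * s + 5 + Complex.I * Real.exp t) * (deriv H t - deriv (Ph s φ) t)) t := by
  refine ⟨(h.ode t ht).1.hasDerivAt.fun_sub (outsol_dPh s φ t),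
    ((h.ode t ht).2.fun_sub (Ph_ode s φ t)).congr_deriv ?_⟩
  ring

theorem outsol_deriv {s : ℂ} {φ : ℝ → ℝ} {H : ℝ → ℂ} (h : OSol s φ H) {t : ℝ} (ht : 0 < t) :
    deriv (fun τ => H τ - Ph s φ τ) =ᶠ[𝓝 t] fun τ => deriv H τ - deriv (Ph s φ) τ := by
  filter_upwards [isOpen_Ioi.mem_nhds ht] with τ hτ
  exact (outsol_ode h hτ).1.deriv

theorem outsol_cd {s : ℂ} {φ : ℝ → ℝ} {H : ℝ → ℂ} (h : OSol s φ H) (hφ : ContDiff ℝ ∞ φ)
    (k : ℕ) {t : ℝ} (ht : 0 < t) : ContDiffAt ℝ k (fun τ => H τ - Ph s φ τ) t :=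
  (h.contDiffAt hφ k ht).sub ((contDiff_Ph s φ).of_le (mod_cast le_top)).contDiffAt

section family
variable {Y : Type} {J : ℕ} {E : ℝ} {σ σ₀ : Y → ℂ} {ϕ : Y → ℝ → ℝ} {ε : Y → ℝ} {H H₀ : Y → ℝ → ℂ}

theorem ub_Ph (h : ∀ y, Adm 7 E (σ y) (ϕ y)) (J' : ℕ) :
    UB J' (Ioi 0) (fun y => Ph (σ y) (ϕ y)) fun _ _ => 1 :=
  (ub_Pz h le_rfl J').comp_exp

/-- `apriori` for `d = H - Ph`, `f = NN H - NN Ph - Res` -/
theorem err_le (h : ∀ y, Adm 7 E (σ y) (ϕ y)) (hS : ∀ y, OSol (σ y) (ϕ y) (H y)) :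
    ∃ K : ℝ, 0 ≤ K ∧ ∀ y, ∀ τ : ℝ, 0 < τ → ‖H y τ - Ph (σ y) (ϕ y) τ‖ ≤ K * Real.exp (-(7 * τ)) ∧
      ‖deriv (H y) τ - deriv (Ph (σ y) (ϕ y)) τ‖ ≤ K * Real.exp (-(7 * τ)) := by
  obtain ⟨M, hM0, hM⟩ := outsol_res h
  refine ⟨2 * M, by positivity, fun y τ hτ => ?_⟩
  obtain ⟨A, hA⟩ := (hS y).asy
  have := apriori (outsol_re (h y)) hM0 (fun t ht => outsol_ode (hS y) ht) hA (fun t ht =>
    (norm_sub_le _ _).trans (add_le_add ((h y).lipN _ _) (hM y t ht.le))) τ hτ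
  refine ⟨this.1.trans ?_, this.2⟩
  have := mul_nonneg hM0 (Real.exp_pos (-(7 * τ))).le
  linarith

/-- induction on `j`: `e'' = (Phi H - Phi Ph) - s (s+5) e - Res (e^{-τ}) - (2s+5) e' - i e^τ e'` near each
`τ > 0`; `UB.phi_sub` (`H = Ph + e` is bounded to order `j`), `ub_res` with `k = j`, `UB.comp_exp`,
`UB.exp`, `UB.succ` twice -/
theorem ub_err (h : ∀ y, Adm 7 E (σ y) (ϕ y)) (hS : ∀ y, OSol (σ y) (ϕ y) (H y)) {j : ℕ} (hj : j ≤ 6) :
    UB (j + 1) (Ioi 0) (fun y τ => H y τ - Ph (σ y) (ϕ y) τ)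
      fun _ τ => Real.exp (-((7 - j : ℝ) * τ)) := by
  have hc := fun (k : ℕ) y t (ht : t ∈ Ioi (0 : ℝ)) => outsol_cd (hS y) (h y).smooth k ht
  induction j with
  | zero =>
    obtain ⟨K, -, hK⟩ := err_le h hS
    refine UB.of_norm_le (K := K) (hc _) (fun _ _ _ => (Real.exp_pos _).le) fun y t ht i hi => ?_
    rw [Nat.cast_zero, sub_zero]
    interval_cases i
    · exact (hK y t ht).1
    · rw [iteratedDeriv_one, (outsol_deriv (hS y) ht).eq_of_nhds]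
      exact (hK y t ht).2
  | succ j ih =>
    have i1 := ih (by omega)
    have i0 := i1.of_le (Nat.le_succ j)
    have i2 := i1.deriv
    have w0 : ∀ (_ : Y), ∀ t ∈ Ioi (0 : ℝ), 0 ≤ Real.exp (-((7 - (j + 1 : ℕ) : ℝ) * t)) :=
      fun _ _ _ => (Real.exp_pos _).le
    have we : ∀ t : ℝ, Real.exp t * Real.exp (-((7 - j : ℝ) * t)) =
        Real.exp (-((7 - (j + 1 : ℕ) : ℝ) * t)) := fun t => by
      rw [← Real.exp_add]; congr 1; push_cast; ring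
    have w1 : ∀ (_ : Y), ∀ t ∈ Ioi (0 : ℝ), Real.exp (-((7 - j : ℝ) * t)) ≤
        1 * Real.exp (-((7 - (j + 1 : ℕ) : ℝ) * t)) := fun _ t ht => by
      rw [one_mul, ← we]
      exact le_mul_of_one_le_left (Real.exp_pos _).le (Real.one_le_exp (le_of_lt ht))
    have j7 : (j : ℝ) ≤ 7 := by exact_mod_cast (by omega : j ≤ 7)
    have uH : UB j (Ioi 0) H fun _ _ => 1 :=
      ((ub_Ph h j).add (i0.mono_w zero_le_one (fun _ _ _ => zero_le_one) fun _ t ht => by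
        rw [one_mul]
        exact Real.exp_le_one_iff.2 (neg_nonpos.2 (mul_nonneg (sub_nonneg.2 j7) (le_of_lt ht))))).congr
        fun y t _ => Eventually.of_forall fun τ => add_sub_cancel _ _
    have t1 := (UB.phi_sub (E := fun _ => E) (fun y t ht => ((h y).bd t ht).of_le (by omega)) uH
      (ub_Ph h j) i0).mono_w (abs_nonneg E) (w' := fun _ t => Real.exp (-((7 - j : ℝ) * t)))
      (fun _ _ _ => (Real.exp_pos _).le)
      fun _ t _ => mul_le_mul_of_nonneg_right (le_abs_self E) (Real.exp_pos _).le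
    have t2 := i0.cmul (c := fun y => σ y * (σ y + 5)) (K := 1 / 2 * (1 / 2 + 5)) fun y => by
      rw [norm_mul]
      exact mul_le_mul (h y).hs ((norm_add_le _ _).trans (add_le_add (h y).hs (by simp)))
        (norm_nonneg _) (by norm_num)
    have t3 := (ub_res h (k := j) (by omega)).comp_exp.mono_w zero_le_one
      (w' := fun _ t => Real.exp (-((7 - j : ℝ) * t))) (fun _ _ _ => (Real.exp_pos _).le)
      fun _ t _ => by
        rw [one_mul, ← Real.exp_nat_mul, Nat.cast_sub (by omega), mul_neg]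
        exact le_rfl
    have t4 := i2.cmul (c := fun y => 2 * σ y + 5) (K := 2 * (1 / 2) + 5) fun y => by
      refine (norm_add_le _ _).trans (add_le_add ?_ (by simp))
      rw [norm_mul, Complex.norm_ofNat]
      exact mul_le_mul_of_nonneg_left (h y).hs zero_le_two
    have t5 := (((UB.exp j (Ioi 0)).mul i2).cmul (c := fun _ => Complex.I) (K := 1)
      fun _ => Complex.norm_I.le).mono_w zero_le_one w0 fun _ t _ => by rw [one_mul, we]
    have t6 := ((((t1.sub t2).sub t3).sub t4).mono_w zero_le_one w0 w1).sub t5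
    refine UB.succ (hc _) ((i1.of_le (Nat.zero_le _)).mono_w zero_le_one w0 w1)
      (UB.succ (fun y t ht => ContDiffAt.derivWithin (hc (j + 1 + 1) y t ht) ?_)
        ((i2.of_le (Nat.zero_le _)).mono_w zero_le_one w0 w1) (t6.congr fun y t ht => ?_))
    · exact_mod_cast le_rfl
    · filter_upwards [isOpen_Ioi.mem_nhds ht] with τ hτ
      rw [(outsol_deriv (hS y) hτ).deriv_eq, (outsol_ode (hS y) hτ).2.deriv,
        (outsol_deriv (hS y) hτ).eq_of_nhds, NN, NN]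
      ring

/-- `Ph - 1 = O(e^{-τ})` by `norm_le_of_jet` with `N = 1` (or the mean value inequality) -/
theorem sub_one_le (h : ∀ y, Adm 7 E (σ y) (ϕ y)) (hS : ∀ y, OSol (σ y) (ϕ y) (H y)) :
    ∃ K : ℝ, 0 ≤ K ∧ ∀ y, ∀ τ : ℝ, 0 < τ → ‖H y τ - 1‖ ≤ K * Real.exp (-τ) := by
  obtain ⟨K, hK0, hK⟩ := err_le h hS
  obtain ⟨L, hL0, hL⟩ := (ub_Pz h le_rfl 1).norm_le
  refine ⟨K + L, by positivity, fun y τ hτ => ?_⟩
  have a1 := (convex_Icc (0 : ℝ) 1).norm_image_sub_le_of_norm_deriv_le (C := L)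
    (f := Pz (σ y) (ϕ y) 7) (fun z _ => (contDiff_Pz _ _ 7).differentiable (by simp) z)
    (fun z hz => by simpa only [iteratedDeriv_one, mul_one] using hL y z hz 1 le_rfl)
    (left_mem_Icc.2 zero_le_one) (outsol_mem hτ.le)
  rw [Pz_zero, sub_zero, Real.norm_eq_abs, abs_of_pos (Real.exp_pos _)] at a1
  have a2 := (hK y τ hτ).1.trans (mul_le_mul_of_nonneg_left
    (Real.exp_le_exp.2 (by linarith : -(7 * τ) ≤ -τ)) hK0)
  rw [add_mul]
  exact (norm_sub_le_norm_sub_add_norm_sub _ (Ph (σ y) (ϕ y) τ) _).trans (add_le_add a2 a1)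

/-- `apriori` for `d = (H - Ph) - (H₀ - Ph₀)`, `β = 2σ + 5`,
`f = (NN H - NN (Ph + e₀)) + (Phi (Ph + e₀) - Phi Ph) - (c - c₀) e₀ - (Res - Res₀) - 2 (σ - σ₀) e₀'`
with `e₀ = H₀ - Ph₀`, `c = σ (σ + 5)`; `UB.phi_sub` at order `0`, `res_sub_le`, `err_le`; then add
`Ph - Ph₀` (`ub_Pz_sub`, `UB.comp_exp`) -/
theorem close (h : ∀ y, Adm 7 (ε y) (σ y) (ϕ y)) (h₀ : ∀ y, Adm 7 (ε y) (σ₀ y) fun _ => 0)
    (hs : ∀ y, ‖σ y - σ₀ y‖ ≤ ε y) (h1 : ∀ y, ε y ≤ 1) (hS : ∀ y, OSol (σ y) (ϕ y) (H y))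
    (hS₀ : ∀ y, OSol (σ₀ y) (fun _ => 0) (H₀ y)) :
    ∃ K : ℝ, 0 ≤ K ∧ ∀ y, ∀ τ : ℝ, 0 < τ → ‖H y τ - H₀ y τ‖ ≤ K * ε y ∧
      ‖deriv (H y) τ - deriv (H₀ y) τ‖ ≤ K * ε y := by
  have hA : ∀ y, Adm 7 1 (σ y) (ϕ y) := fun y => (h y).mono le_rfl (h1 y)
  have hA₀ : ∀ y, Adm 7 1 (σ₀ y) fun _ => 0 := fun y => (h₀ y).mono le_rfl (h1 y)
  obtain ⟨K, -, hK⟩ := err_le hA hS
  obtain ⟨K₀, hK0, hK₀⟩ := err_le (ϕ := fun _ _ => 0) hA₀ hS₀
  have u0 := (ub_err (ϕ := fun _ _ => 0) hA₀ hS₀ (Nat.zero_le 6)).of_le (Nat.zero_le _)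
  obtain ⟨K₁, hK1, hK₁⟩ := (UB.phi_sub (E := ε) (fun y t ht => ((h y).bd t ht).of_le (by omega))
    ((ub_Ph hA 0).add (u0.mono_w zero_le_one (fun _ _ _ => zero_le_one) fun _ t ht => by
      rw [one_mul, Nat.cast_zero, sub_zero]
      exact Real.exp_le_one_iff.2 (neg_nonpos.2 (mul_nonneg (by norm_num) (le_of_lt ht)))))
    (ub_Ph hA 0) (u0.congr fun y t _ => Eventually.of_forall fun τ =>
      (add_sub_cancel_left _ _).symm)).norm_le
  obtain ⟨K₂, hK2, hK₂⟩ := res_sub_le h h₀ hs h1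
  have u3 : UB 1 (Ioi 0) (fun y t => Ph (σ y) (ϕ y) t - Ph (σ₀ y) (fun _ => 0) t) fun y _ => ε y :=
    (ub_Pz_sub h (fun y => (h₀ y).hs) hs h1 le_rfl 1).comp_exp
  obtain ⟨K₃, hK3, hK₃⟩ := u3.norm_le
  refine ⟨2 * (K₁ + 8 * K₀ + K₂) + K₃, by positivity, fun y τ hτ => ?_⟩
  have e0 : 0 ≤ ε y := (norm_nonneg _).trans (hs y)
  have hM : 0 ≤ (K₁ + 8 * K₀ + K₂) * ε y := by positivity
  have key := apriori (β := 2 * σ y + 5) (A := K + K₀) (outsol_re (h y)) hM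
    (d := fun τ => (H y τ - Ph (σ y) (ϕ y) τ) - (H₀ y τ - Ph (σ₀ y) (fun _ => 0) τ))
    (κ := fun τ => (deriv (H y) τ - deriv (Ph (σ y) (ϕ y)) τ) -
      (deriv (H₀ y) τ - deriv (Ph (σ₀ y) fun _ => 0) τ))
    (f := fun t => (NN (σ y) (ϕ y) (H y t) -
        NN (σ y) (ϕ y) (Ph (σ y) (ϕ y) t + (H₀ y t - Ph (σ₀ y) (fun _ => 0) t))) +
      ((Phi (ϕ y) (Ph (σ y) (ϕ y) t + (H₀ y t - Ph (σ₀ y) (fun _ => 0) t)) -
        Phi (ϕ y) (Ph (σ y) (ϕ y) t)) -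
      (σ y - σ₀ y) * (σ y + σ₀ y + 5) * (H₀ y t - Ph (σ₀ y) (fun _ => 0) t) -
      (Res (σ y) (ϕ y) (Pz (σ y) (ϕ y) 7) (Real.exp (-t)) -
        Res (σ₀ y) (fun _ => 0) (Pz (σ₀ y) (fun _ => 0) 7) (Real.exp (-t))) -
      2 * (σ y - σ₀ y) * (deriv (H₀ y) t - deriv (Ph (σ₀ y) fun _ => 0) t)))
    (fun t ht => ⟨(outsol_ode (hS y) ht).1.fun_sub (outsol_ode (hS₀ y) ht).1, by
      refine ((outsol_ode (hS y) ht).2.fun_sub (outsol_ode (hS₀ y) ht).2).congr_deriv ?_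
      simp only [NN, Phi, Complex.ofReal_zero]
      ring⟩)
    (fun t ht => by
      rw [add_mul]
      exact ⟨(norm_sub_le _ _).trans (add_le_add (hK y t ht).1 (hK₀ y t ht).1),
        (norm_sub_le _ _).trans (add_le_add (hK y t ht).2 (hK₀ y t ht).2)⟩)
    (fun t ht => by
      refine (norm_add_le _ _).trans (add_le_add (((h y).lipN _ _).trans (le_of_eq ?_)) ?_)
      · rw [sub_add_eq_sub_sub]
      have b1 := hK₁ y t ht 0 le_rfl
      rw [iteratedDeriv_zero, Nat.cast_zero, sub_zero] at b1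
      have b2 : ‖(σ y - σ₀ y) * (σ y + σ₀ y + 5) * (H₀ y t - Ph (σ₀ y) (fun _ => 0) t)‖ ≤
          ε y * (1 / 2 + 1 / 2 + 5) * (K₀ * Real.exp (-(7 * t))) := by
        rw [norm_mul, norm_mul]
        exact mul_le_mul (mul_le_mul (hs y) ((norm_add_le _ _).trans (add_le_add
          ((norm_add_le _ _).trans (add_le_add (h y).hs (h₀ y).hs)) (by simp))) (norm_nonneg _) e0)
          (hK₀ y t ht).1 (norm_nonneg _) (by positivity)
      have b3 := hK₂ y _ (outsol_mem ht.le)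
      rw [← Real.exp_nat_mul, mul_neg, Nat.cast_ofNat] at b3
      have b4 : ‖2 * (σ y - σ₀ y) * (deriv (H₀ y) t - deriv (Ph (σ₀ y) fun _ => 0) t)‖ ≤
          2 * ε y * (K₀ * Real.exp (-(7 * t))) := by
        rw [norm_mul, norm_mul, Complex.norm_ofNat]
        exact mul_le_mul (mul_le_mul_of_nonneg_left (hs y) zero_le_two) (hK₀ y t ht).2
          (norm_nonneg _) (by positivity)
      refine ((norm_sub_le _ _).trans (add_le_add ((norm_sub_le _ _).trans (add_le_add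
        ((norm_sub_le _ _).trans (add_le_add b1 b2)) b3)) b4)).trans (le_of_eq ?_)
      ring) τ hτ
  have x1 : Real.exp (-(7 * τ)) ≤ 1 := Real.exp_le_one_iff.2 (by linarith)
  have k1 := key.1.trans (mul_le_of_le_one_right hM x1)
  have k2 := key.2.trans (mul_le_of_le_one_right (by positivity) x1)
  have c0 := hK₃ y τ hτ 0 zero_le_one
  have c1 := hK₃ y τ hτ 1 le_rfl
  rw [iteratedDeriv_zero] at c0
  rw [iteratedDeriv_one, show deriv _ τ = _ from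
    ((outsol_dPh (σ y) (ϕ y) τ).fun_sub (outsol_dPh (σ₀ y) (fun _ => 0) τ)).deriv] at c1
  constructor
  · have := (norm_add_le _ _).trans (add_le_add k1 c0)
    rw [show ∀ a b c d : ℂ, a - b - (c - d) + (b - d) = a - c from fun _ _ _ _ => by ring] at this
    linarith
  · have := (norm_add_le _ _).trans (add_le_add k2 c1)
    rw [show ∀ a b c d : ℂ, a - b - (c - d) + (b - d) = a - c from fun _ _ _ _ => by ring] at this
    linarith

end family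

end

end Crest.Agent.R086.P
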