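import Crest.Agent.R086.P.Defs
import Crest.Agent.Lib.Brouwer.Basic

/-! Row 86, part P: real analysis tools. -/

set_option autoImplicit false

open Set Filter Topology

namespace Crest.Agent.R086.P

noncomputable section

variable {f f' g : ℝ → ℝ} {A B : ℝ}

theorem le_of_deriv (hAB : A ≤ B) (hc : ContinuousOn f (Icc A B))
    (hd : ∀ t ∈ Ioo A B, HasDerivAt f (f' t) t) (h : ∀ t ∈ Ioo A B, 0 ≤ f' t) : f A ≤ f B := by
  rcases hAB.eq_or_lt with rfl | hlt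
  · exact le_rfl
  obtain ⟨c, hc', e⟩ := exists_hasDerivAt_eq_slope f f' hlt hc hd
  have := h c hc'
  rw [e, le_div_iff₀ (sub_pos.2 hlt)] at this
  linarith

theorem ge_of_deriv (hAB : A ≤ B) (hc : ContinuousOn f (Icc A B))
    (hd : ∀ t ∈ Ioo A B, HasDerivAt f (f' t) t) (h : ∀ t ∈ Ioo A B, f' t ≤ 0) : f B ≤ f A := by
  rcases hAB.eq_or_lt with rfl | hlt
  · exact le_rfl
  obtain ⟨c, hc', e⟩ := exists_hasDerivAt_eq_slope f f' hlt hc hd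
  have := h c hc'
  rw [e, div_le_iff₀ (sub_pos.2 hlt)] at this
  linarith

theorem gt_of_deriv (hAB : A < B) (hc : ContinuousOn f (Icc A B))
    (hd : ∀ t ∈ Ioo A B, HasDerivAt f (f' t) t) (h : ∀ t ∈ Ioo A B, f' t < 0) : f B < f A := by
  obtain ⟨c, hc', e⟩ := exists_hasDerivAt_eq_slope f f' hAB hc hd
  have := h c hc'
  rw [e, div_lt_iff₀ (sub_pos.2 hAB)] at this
  linarith

/-- continuous induction (`IsClosed.Icc_subset_of_forall_mem_nhdsWithin` for the set of `t` with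
`p` on `[A, t]`, or argue with the supremum) -/
theorem cont_ind {p : ℝ → Prop} (hcl : IsClosed {u | u ∈ Icc A B ∧ p u}) (hA : p A)
    (hstep : ∀ t ∈ Ico A B, (∀ u ∈ Icc A t, p u) → ∀ᶠ u in 𝓝[>] t, p u) : ∀ t ∈ Icc A B, p t := by
  have hcl' : IsClosed ({u | p u} ∩ Icc A B) := by
    rw [inter_comm]; exact hcl
  exact fun t ht => hcl'.Icc_subset_of_forall_mem_nhdsGT_of_Icc_subset hA
    (fun t ht h => hstep t ht fun u hu => h hu) ht

/-- a barrier: `f' ≥ 0` where `g > 0`, and `g t > 0` as long as `f ≥ 0` on `[A, t]` -/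
theorem fence (hc : ContinuousOn f (Icc A B)) (hg : ContinuousOn g (Icc A B))
    (hd : ∀ t ∈ Ioo A B, HasDerivAt f (f' t) t) (hs : ∀ t ∈ Ioo A B, 0 < g t → 0 ≤ f' t)
    (hA : 0 ≤ f A) (hstep : ∀ t ∈ Icc A B, (∀ u ∈ Icc A t, 0 ≤ f u) → 0 < g t) :
    ∀ t ∈ Icc A B, 0 ≤ f t := by
  refine cont_ind (p := fun u => 0 ≤ f u)
    (hc.preimage_isClosed_of_isClosed isClosed_Icc isClosed_Ici) hA fun t ht h => ?_
  have h0 := hstep t (Ico_subset_Icc_self ht) h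
  have h1 : ∀ᶠ u in 𝓝[>] t, 0 < g u :=
    ((hg t (Ico_subset_Icc_self ht)).eventually (lt_mem_nhds h0)).filter_mono
      (nhdsWithin_le_of_mem (Icc_mem_nhdsGT_of_mem ht))
  obtain ⟨c, hc', hsub⟩ := mem_nhdsGT_iff_exists_Ioo_subset.1 (h1.and (Ioo_mem_nhdsGT ht.2))
  filter_upwards [Ioo_mem_nhdsGT hc'] with u hu
  have huB : u < B := (hsub hu).2.2
  have hI : ∀ v ∈ Ioo t u, v ∈ Ioo A B := fun v hv => ⟨ht.1.trans_lt hv.1, hv.2.trans huB⟩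
  have := le_of_deriv (f := f) (f' := f') hu.1.le (hc.mono (Icc_subset_Icc ht.1 huB.le))
    (fun v hv => hd v (hI v hv))
    (fun v hv => hs v (hI v hv) (hsub ⟨hv.1, hv.2.trans hu.2⟩).1)
  exact (h t ⟨ht.1, le_rfl⟩).trans this

theorem last_zero (hAB : A ≤ B) (hc : ContinuousOn f (Icc A B)) (hA : f A = 0) (h : 0 < f B) :
    ∃ s ∈ Ico A B, f s = 0 ∧ ∀ t ∈ Ioc s B, 0 < f t := by
  have hK : IsCompact (Icc A B ∩ f ⁻¹' Iic 0) :=
    isCompact_Icc.of_isClosed_subset (hc.preimage_isClosed_of_isClosed isClosed_Icc isClosed_Iic)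
      inter_subset_left
  obtain ⟨s, ⟨hs, hs0⟩, hmax⟩ := hK.exists_isGreatest ⟨A, ⟨le_rfl, hAB⟩, hA.le⟩
  have hsB : s < B := lt_of_le_of_ne hs.2 fun e => (not_le.2 h) (by rw [← e]; exact hs0)
  have hpos : ∀ t ∈ Ioc s B, 0 < f t := fun t ht => by
    by_contra hn
    exact (not_le.2 ht.1) (hmax ⟨⟨hs.1.trans ht.1.le, ht.2⟩, not_lt.1 hn⟩)
  refine ⟨s, ⟨hs.1, hsB⟩, ?_, hpos⟩
  obtain ⟨c, hc', e⟩ := intermediate_value_Icc hsB.le (hc.mono (Icc_subset_Icc hs.1 le_rfl))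
    (show (0 : ℝ) ∈ Icc (f s) (f B) from ⟨hs0, h.le⟩)
  rcases hc'.1.eq_or_lt with h1 | h1
  · rw [h1, e]
  · exact absurd e (hpos c ⟨h1, hc'.2⟩).ne'

/-- first time in `[0, B]` with `g ≤ 0`, else `B` -/
def hit (g : ℝ → ℝ) (B : ℝ) : ℝ := sInf ({r | r ∈ Icc 0 B ∧ g r ≤ 0} ∪ {B})

theorem tool_bdd (g : ℝ → ℝ) (B : ℝ) : BddBelow ({r | r ∈ Icc 0 B ∧ g r ≤ 0} ∪ {B}) := by
  refine ⟨min 0 B, ?_⟩
  rintro r (h | h)
  · exact (min_le_left _ _).trans h.1.1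
  · rw [mem_singleton_iff.1 h]; exact min_le_right _ _

theorem hit_mem (g : ℝ → ℝ) (hB : 0 ≤ B) : hit g B ∈ Icc 0 B := by
  refine ⟨le_csInf ⟨B, Or.inr rfl⟩ ?_, csInf_le (tool_bdd g B) (Or.inr rfl)⟩
  rintro r (h | h)
  · exact h.1.1
  · rw [mem_singleton_iff.1 h]; exact hB

theorem hit_le {r : ℝ} (hr : r ∈ Icc 0 B) (h : g r ≤ 0) : hit g B ≤ r := by
  exact csInf_le (tool_bdd g B) (Or.inl ⟨hr, h⟩)

theorem le_hit {c : ℝ} (hc : c ≤ B) (h : ∀ r ∈ Ico 0 c, 0 < g r) : c ≤ hit g B := by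
  refine le_csInf ⟨B, Or.inr rfl⟩ ?_
  rintro r (hr | hr)
  · by_contra hn
    exact (not_le.2 (h r ⟨hr.1.1, not_le.1 hn⟩)) hr.2
  · rw [mem_singleton_iff.1 hr]; exact hc

theorem pos_of_lt_hit {r : ℝ} (hr : r ∈ Ico 0 (hit g B)) (hB : 0 ≤ B) : 0 < g r := by
  by_contra hn
  exact (not_le.2 hr.2) (hit_le ⟨hr.1, hr.2.le.trans (hit_mem g hB).2⟩ (not_lt.1 hn))

theorem hit_spec (hg : Continuous g) (h0 : 0 < g 0) (hB : 0 ≤ B) (h : hit g B < B) :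
    0 < hit g B ∧ g (hit g B) = 0 ∧ ∀ r ∈ Icc 0 (hit g B), 0 ≤ g r := by
  have hcl : IsClosed ({r | r ∈ Icc 0 B ∧ g r ≤ 0} ∪ {B}) :=
    (isClosed_Icc.inter (isClosed_le hg continuous_const)).union isClosed_singleton
  have hm : hit g B ∈ {r | r ∈ Icc 0 B ∧ g r ≤ 0} ∪ {B} :=
    hcl.csInf_mem ⟨B, Or.inr rfl⟩ (tool_bdd g B)
  have h1 : g (hit g B) ≤ 0 := by
    rcases hm with hm | hm
    · exact hm.2
    · exact absurd (mem_singleton_iff.1 hm) h.ne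
  have h2 : 0 < hit g B := lt_of_le_of_ne (hit_mem g hB).1 fun e => by
    rw [← e] at h1; exact (not_le.2 h0) h1
  have h3 : Icc 0 (hit g B) ⊆ {r | 0 ≤ g r} := by
    rw [← closure_Ico h2.ne]
    exact (isClosed_le continuous_const hg).closure_subset_iff.2
      fun r hr => (pos_of_lt_hit hr hB).le
  exact ⟨h2, le_antisymm h1 (h3 ⟨h2.le, le_rfl⟩), fun r hr => h3 hr⟩

/-- lower semicontinuity: tube lemma `IsCompact.eventually_forall_of_forall_eventually` on `[0, c]`;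
upper semicontinuity: transversality -/
theorem hit_cont {X : Type*} [TopologicalSpace X] {G : X → ℝ → ℝ} {K : Set X}
    (hG : Continuous (Function.uncurry G)) (hB : 0 ≤ B)
    (htr : ∀ p ∈ K, hit (G p) B < B → ∀ δ : ℝ, 0 < δ →
      ∃ r ∈ Ioo (hit (G p) B) (hit (G p) B + δ), G p r < 0) :
    ContinuousOn (fun p => hit (G p) B) K := by
  intro p hp
  refine Tendsto.mono_left (tendsto_order.2 ⟨fun c hc => ?_, fun c hc => ?_⟩) nhdsWithin_le_nhds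
  · obtain ⟨c', h1, h2⟩ := exists_between hc
    have := (isCompact_Icc (a := (0 : ℝ)) (b := c')).eventually_forall_of_forall_eventually
      (x₀ := p) (P := fun q r => 0 < G q r) fun r hr =>
        (hG.tendsto (p, r)).eventually
          (lt_mem_nhds (pos_of_lt_hit (g := G p) ⟨hr.1, hr.2.trans_lt h2⟩ hB))
    filter_upwards [this] with q hq
    exact h1.trans_le (le_hit (h2.le.trans (hit_mem _ hB).2)
      fun r hr => hq r (Ico_subset_Icc_self hr))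
  · rcases lt_or_ge B c with h | h
    · exact Eventually.of_forall fun q => (hit_mem _ hB).2.trans_lt h
    obtain ⟨r, hr, hr0⟩ := htr p hp (hc.trans_le h) (c - hit (G p) B) (sub_pos.2 hc)
    have hrc : r < c := by linarith [hr.2]
    have hcont : Continuous fun q => G q r := hG.comp (continuous_id.prodMk continuous_const)
    filter_upwards [(hcont.tendsto p).eventually (gt_mem_nhds hr0)] with q hq
    exact (hit_le ⟨(hit_mem _ hB).1.trans hr.1.le, hrc.le.trans h⟩ hq.le).trans_lt hrc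

theorem tool_clamp {a b t u : ℝ} (ht : t ≤ b) (h1 : max a (min b (t + u)) = t)
    (h2 : t = a → 0 ≤ u) (h3 : t = b → u ≤ 0) : u = 0 := by
  rcases lt_trichotomy u 0 with h | h | h
  · rcases max_choice a (min b (t + u)) with h5 | h5
    · have := h2 (by rw [← h1, h5])
      linarith
    · have h6 := min_le_right b (t + u)
      linarith
  · exact h
  · have h5 : min b (t + u) ≤ t := (le_max_right _ _).trans h1.le
    rcases min_le_iff.1 h5 with h7 | h7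
    · have := h3 (le_antisymm ht h7)
      linarith
    · linarith

/-- Poincaré–Miranda: `Crest.Agent.Lib.Brouwer.brouwer` for `p ↦ clamp (p + (F p, G p, H p))`
(cf. `miranda2` in `R213/Waz.lean`; do not import it) -/
theorem miranda3 {a₁ b₁ a₂ b₂ a₃ b₃ : ℝ} (h₁ : a₁ ≤ b₁) (h₂ : a₂ ≤ b₂) (h₃ : a₃ ≤ b₃)
    {F G H : (ℝ × ℝ) × ℝ → ℝ} (hF : ContinuousOn F ((Icc a₁ b₁ ×ˢ Icc a₂ b₂) ×ˢ Icc a₃ b₃))
    (hG : ContinuousOn G ((Icc a₁ b₁ ×ˢ Icc a₂ b₂) ×ˢ Icc a₃ b₃))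
    (hH : ContinuousOn H ((Icc a₁ b₁ ×ˢ Icc a₂ b₂) ×ˢ Icc a₃ b₃))
    (hs : ∀ p ∈ (Icc a₁ b₁ ×ˢ Icc a₂ b₂) ×ˢ Icc a₃ b₃,
      (p.1.1 = a₁ → 0 ≤ F p) ∧ (p.1.1 = b₁ → F p ≤ 0) ∧ (p.1.2 = a₂ → 0 ≤ G p) ∧
      (p.1.2 = b₂ → G p ≤ 0) ∧ (p.2 = a₃ → 0 ≤ H p) ∧ (p.2 = b₃ → H p ≤ 0)) :
    ∃ p ∈ (Icc a₁ b₁ ×ˢ Icc a₂ b₂) ×ˢ Icc a₃ b₃, F p = 0 ∧ G p = 0 ∧ H p = 0 := by
  obtain ⟨p, hp, hfix⟩ := Crest.Agent.Lib.Brouwer.brouwer
    (K := (Icc a₁ b₁ ×ˢ Icc a₂ b₂) ×ˢ Icc a₃ b₃)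
    ⟨((a₁, a₂), a₃), ⟨⟨le_rfl, h₁⟩, ⟨le_rfl, h₂⟩⟩, ⟨le_rfl, h₃⟩⟩
    ((isCompact_Icc.prod isCompact_Icc).prod isCompact_Icc)
    (((convex_Icc _ _).prod (convex_Icc _ _)).prod (convex_Icc _ _))
    (fun p => ((max a₁ (min b₁ (p.1.1 + F p)), max a₂ (min b₂ (p.1.2 + G p))),
      max a₃ (min b₃ (p.2 + H p))))
    (((continuousOn_const.sup (continuousOn_const.inf
        ((continuous_fst.comp continuous_fst).continuousOn.add hF))).prodMk
      (continuousOn_const.sup (continuousOn_const.inf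
        ((continuous_snd.comp continuous_fst).continuousOn.add hG)))).prodMk
      (continuousOn_const.sup (continuousOn_const.inf (continuousOn_snd.add hH))))
    (fun p _ => ⟨⟨⟨le_max_left _ _, max_le h₁ (min_le_left _ _)⟩,
      ⟨le_max_left _ _, max_le h₂ (min_le_left _ _)⟩⟩,
      ⟨le_max_left _ _, max_le h₃ (min_le_left _ _)⟩⟩)
  obtain ⟨s₁, s₂, s₃, s₄, s₅, s₆⟩ := hs p hp
  exact ⟨p, hp, tool_clamp hp.1.1.2 (congrArg (fun q => q.1.1) hfix) s₁ s₂,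
    tool_clamp hp.1.2.2 (congrArg (fun q => q.1.2) hfix) s₃ s₄,
    tool_clamp hp.2.2 (congrArg Prod.snd hfix) s₅ s₆⟩

/-- diagonal choice: `N k` for `ε = 1 / (k + 1)`, `e n = 1 / (Nat.findGreatest (N · ≤ n) n + 1)` -/
theorem exists_diag {P : ℝ → ℕ → Prop} (h : ∀ ε : ℝ, 0 < ε → ∀ᶠ n in atTop, P ε n) :
    ∃ e : ℕ → ℝ, (∀ ε : ℝ, 0 < ε → ∀ᶠ n in atTop, e n ≤ ε) ∧ ∀ᶠ n in atTop, P (e n) n := by
  have h' : ∀ k : ℕ, ∃ N : ℕ, ∀ n, N ≤ n → P (1 / ((k : ℝ) + 1)) n := fun k =>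
    eventually_atTop.1 (h _ Nat.one_div_pos_of_nat)
  choose N hN using h'
  refine ⟨fun n => 1 / ((Nat.findGreatest (fun k => N k ≤ n) n : ℕ) + 1), fun ε hε => ?_, ?_⟩
  · obtain ⟨K, hK⟩ := exists_nat_one_div_lt hε
    filter_upwards [eventually_ge_atTop K, eventually_ge_atTop (N K)] with n h1 h2
    have : K ≤ Nat.findGreatest (fun k => N k ≤ n) n := Nat.le_findGreatest h1 h2
    exact (Nat.one_div_le_one_div this).trans hK.le
  · filter_upwards [eventually_ge_atTop (N 0)] with n h1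
    exact hN _ n (Nat.findGreatest_spec (P := fun k => N k ≤ n) (Nat.zero_le n) h1)

theorem aa_small {ε : ℝ} (hε : 0 < ε) : ∀ᶠ n : ℕ in atTop, 1 ≤ n ∧ 0 < aa n ∧ aa n ≤ ε := by
  obtain ⟨K, hK⟩ := exists_nat_gt (1 / ε)
  filter_upwards [eventually_ge_atTop 1, eventually_ge_atTop K] with n h1 h2
  have h3 : (1 : ℝ) ≤ n := by exact_mod_cast h1
  have h4 : (K : ℝ) ≤ n := by exact_mod_cast h2
  unfold aa
  refine ⟨h1, by positivity, ?_⟩
  rw [div_lt_iff₀ hε] at hK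
  rw [div_le_iff₀ (by positivity)]
  nlinarith

end

end Crest.Agent.R086.P
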